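import Vale.Agent.P219.CH.Core.Defs

/-!
P219: matched pairs of entries and exits of the level sets of a function on the line.
-/

namespace Vale.Agent.P219.CH.Core.Line

open MeasureTheory Set Filter Topology

noncomputable section

theorem measurable_proj {F O : Set ((ℝ × ℝ) × ℝ)} (hF : IsClosed F) (hO : IsOpen O) :
    MeasurableSet (Prod.fst '' (F ∩ O)) := by
  obtain ⟨K, hKc, -, hKu, -⟩ := hO.exists_iUnion_isClosed
  have e : Prod.fst '' (F ∩ O) = ⋃ k, ⋃ m : ℕ, Prod.fst '' (F ∩ K k ∩ Metric.closedBall 0 m) := by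
    rw [← hKu]
    ext p
    simp only [mem_image, mem_inter_iff, mem_iUnion]
    constructor
    · rintro ⟨q, ⟨hqF, k, hqk⟩, rfl⟩
      obtain ⟨m, hm⟩ := exists_nat_ge ‖q‖
      exact ⟨k, m, q, ⟨⟨hqF, hqk⟩, by simpa using hm⟩, rfl⟩
    · rintro ⟨k, m, q, ⟨⟨hqF, hqk⟩, -⟩, rfl⟩
      exact ⟨q, ⟨hqF, k, hqk⟩, rfl⟩
  rw [e]
  exact MeasurableSet.iUnion fun k => MeasurableSet.iUnion fun m =>
    ((((isCompact_closedBall 0 (m : ℝ)).inter_left (hF.inter (hKc k)))).image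
      continuous_fst).isClosed.measurableSet

theorem forall_Icc_iff {a b : ℝ} (h : a < b) (P : ℝ → Prop) :
    (∀ u ∈ Icc a b, P u) ↔ ∀ l ∈ Icc (0 : ℝ) 1, P (a + l * (b - a)) := by
  constructor
  · intro H l hl
    exact H _ ⟨by nlinarith [hl.1], by nlinarith [hl.2]⟩
  · intro H u hu
    have h0 : 0 < b - a := sub_pos.mpr h
    have := H ((u - a) / (b - a)) ⟨div_nonneg (by linarith [hu.1]) h0.le,
      (div_le_one h0).mpr (by linarith [hu.2])⟩
    rwa [div_mul_cancel₀ _ h0.ne', add_sub_cancel] at this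

theorem measurableSet_matched {φ : ℝ → ℝ} (hφ : Continuous φ) : MeasurableSet (matched φ) := by
  have c1 : Continuous fun q : (ℝ × ℝ) × ℝ => φ q.1.1 := hφ.comp (continuous_fst.comp continuous_fst)
  have c2 : Continuous fun q : (ℝ × ℝ) × ℝ => φ q.1.2 := hφ.comp (continuous_snd.comp continuous_fst)
  have c3 : Continuous fun q : (ℝ × ℝ) × ℝ => φ q.2 := hφ.comp continuous_snd
  have p1 : Continuous fun q : (ℝ × ℝ) × ℝ => q.1.1 := continuous_fst.comp continuous_fst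
  have p2 : Continuous fun q : (ℝ × ℝ) × ℝ => q.1.2 := continuous_snd.comp continuous_fst
  have p3 : Continuous fun q : (ℝ × ℝ) × ℝ => q.2 := continuous_snd
  have e1 : MeasurableSet {p : ℝ × ℝ | ∃ u, p.1 < u ∧ u ≤ p.2 ∧ φ u ≤ φ p.1} := by
    have e : {p : ℝ × ℝ | ∃ u, p.1 < u ∧ u ≤ p.2 ∧ φ u ≤ φ p.1} =
        Prod.fst '' (({q | q.2 ≤ q.1.2} ∩ {q | φ q.2 ≤ φ q.1.1}) ∩ {q | q.1.1 < q.2}) := by
      ext p; simp
      constructor <;> rintro ⟨u, h⟩ <;> exact ⟨u, by tauto⟩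
    rw [e]
    exact measurable_proj ((isClosed_le p3 p2).inter (isClosed_le c3 c1)) (isOpen_lt p1 p3)
  have e3 : MeasurableSet {p : ℝ × ℝ | ∃ u, p.1 ≤ u ∧ u < p.2 ∧ φ u ≤ φ p.2} := by
    have e : {p : ℝ × ℝ | ∃ u, p.1 ≤ u ∧ u < p.2 ∧ φ u ≤ φ p.2} =
        Prod.fst '' (({q | q.1.1 ≤ q.2} ∩ {q | φ q.2 ≤ φ q.1.2}) ∩ {q | q.2 < q.1.2}) := by
      ext p; simp
      constructor <;> rintro ⟨u, h⟩ <;> exact ⟨u, by tauto⟩
    rw [e]
    exact measurable_proj ((isClosed_le p1 p3).inter (isClosed_le c3 c2)) (isOpen_lt p3 p2)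
  have e2 : MeasurableSet {p : ℝ × ℝ |
      ∃ t', p.2 < t' ∧ (∀ u ∈ Icc p.2 t', φ p.1 ≤ φ u) ∧ φ p.2 ≤ φ t'} := by
    have e : {p : ℝ × ℝ | ∃ t', p.2 < t' ∧ (∀ u ∈ Icc p.2 t', φ p.1 ≤ φ u) ∧ φ p.2 ≤ φ t'} =
        Prod.fst '' (({q | φ q.1.2 ≤ φ q.2} ∩
          ⋂ l ∈ Icc (0 : ℝ) 1, {q | φ q.1.1 ≤ φ (q.1.2 + l * (q.2 - q.1.2))}) ∩
            {q | q.1.2 < q.2}) := by
      ext p; simp
      constructor
      · rintro ⟨u, h1, h2, h3⟩
        exact ⟨u, ⟨h3, fun l hl0 hl1 => (forall_Icc_iff h1 (fun v => φ p.1 ≤ φ v)).mp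
          (fun v hv => h2 v hv.1 hv.2) l ⟨hl0, hl1⟩⟩, h1⟩
      · rintro ⟨u, ⟨h3, h2⟩, h1⟩
        exact ⟨u, h1, fun v hv0 hv1 => (forall_Icc_iff h1 (fun v => φ p.1 ≤ φ v)).mpr
          (fun l hl => h2 l hl.1 hl.2) v ⟨hv0, hv1⟩, h3⟩
    rw [e]
    exact measurable_proj ((isClosed_le c2 c3).inter (isClosed_biInter fun l _ =>
      isClosed_le c1 (hφ.comp (p2.add ((continuous_const.mul (p3.sub p2)))))))
      (isOpen_lt p2 p3)
  have e4 : MeasurableSet {p : ℝ × ℝ |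
      ∃ s', s' < p.1 ∧ (∀ u ∈ Icc s' p.1, φ p.2 ≤ φ u) ∧ φ p.1 ≤ φ s'} := by
    have e : {p : ℝ × ℝ | ∃ s', s' < p.1 ∧ (∀ u ∈ Icc s' p.1, φ p.2 ≤ φ u) ∧ φ p.1 ≤ φ s'} =
        Prod.fst '' (({q | φ q.1.1 ≤ φ q.2} ∩
          ⋂ l ∈ Icc (0 : ℝ) 1, {q | φ q.1.2 ≤ φ (q.2 + l * (q.1.1 - q.2))}) ∩
            {q | q.2 < q.1.1}) := by
      ext p; simp
      constructor
      · rintro ⟨u, h1, h2, h3⟩
        exact ⟨u, ⟨h3, fun l hl0 hl1 => (forall_Icc_iff h1 (fun v => φ p.2 ≤ φ v)).mp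
          (fun v hv => h2 v hv.1 hv.2) l ⟨hl0, hl1⟩⟩, h1⟩
      · rintro ⟨u, ⟨h3, h2⟩, h1⟩
        exact ⟨u, h1, fun v hv0 hv1 => (forall_Icc_iff h1 (fun v => φ p.2 ≤ φ v)).mpr
          (fun l hl => h2 l hl.1 hl.2) v ⟨hv0, hv1⟩, h3⟩
    rw [e]
    exact measurable_proj ((isClosed_le c1 c3).inter (isClosed_biInter fun l _ =>
      isClosed_le c2 (hφ.comp (p3.add ((continuous_const.mul (p1.sub p3)))))))
      (isOpen_lt p3 p1)
  have d1 : MeasurableSet {p : ℝ × ℝ | φ p.1 < φ p.2} :=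
    (isOpen_lt (hφ.comp continuous_fst) (hφ.comp continuous_snd)).measurableSet
  have d2 : MeasurableSet {p : ℝ × ℝ | φ p.2 < φ p.1} :=
    (isOpen_lt (hφ.comp continuous_snd) (hφ.comp continuous_fst)).measurableSet
  have d0 : MeasurableSet {p : ℝ × ℝ | p.1 < p.2} :=
    (isOpen_lt continuous_fst continuous_snd).measurableSet
  convert d0.inter ((d1.inter (e1.compl.inter e2.compl)).union (d2.inter (e3.compl.inter e4.compl)))
    using 1
  ext p
  simp only [matched, Set.mem_ofPred_eq, mem_inter_iff, mem_union, mem_compl_iff, not_exists, not_and,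
    not_le, mem_Ioc, mem_Ico, and_imp]

variable {φ : ℝ → ℝ}

theorem right_unique {s t₁ t₂ : ℝ} (h₁ : (s, t₁) ∈ matched φ) (h₂ : (s, t₂) ∈ matched φ)
    (he : φ t₁ = φ t₂) : t₁ = t₂ := by
  wlog hle : t₁ ≤ t₂ generalizing t₁ t₂
  · exact (this h₂ h₁ he.symm (le_of_not_ge hle)).symm
  rcases hle.eq_or_lt with h | h
  · exact h
  obtain ⟨hs1, H1⟩ := h₁
  obtain ⟨hs2, H2⟩ := h₂
  simp only at hs1 hs2 H1 H2
  rcases H1 with ⟨hlt, -, h3⟩ | ⟨hlt, -, -⟩
  · rcases H2 with ⟨-, h2, -⟩ | ⟨hgt, -, -⟩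
    · linarith [h3 t₂ h fun v hv => (h2 v ⟨hs1.trans_le hv.1, hv.2⟩).le]
    · linarith
  · rcases H2 with ⟨hgt, -, -⟩ | ⟨-, h2, -⟩
    · linarith
    · linarith [h2 t₁ ⟨hs1.le, h⟩]

theorem left_unique {s₁ s₂ t : ℝ} (h₁ : (s₁, t) ∈ matched φ) (h₂ : (s₂, t) ∈ matched φ)
    (he : φ s₁ = φ s₂) : s₁ = s₂ := by
  wlog hle : s₁ ≤ s₂ generalizing s₁ s₂
  · exact (this h₂ h₁ he.symm (le_of_not_ge hle)).symm
  rcases hle.eq_or_lt with h | h
  · exact h
  obtain ⟨hs1, H1⟩ := h₁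
  obtain ⟨hs2, H2⟩ := h₂
  simp only at hs1 hs2 H1 H2
  rcases H1 with ⟨hlt, h1, -⟩ | ⟨hlt, h1, -⟩
  · linarith [h1 s₂ ⟨h, hs2.le⟩]
  · rcases H2 with ⟨hgt, -, -⟩ | ⟨-, -, h3⟩
    · linarith
    · linarith [h3 s₁ h fun v hv => (h1 v ⟨hv.1, hv.2.trans_lt hs2⟩).le]

theorem levels_injOn (φ : ℝ → ℝ) (x : ℝ) :
    InjOn (fun p : ℝ × ℝ => (φ p.1, φ p.2)) {p | p.1 ≤ x ∧ x ≤ p.2 ∧ p ∈ matched φ} := by
  rintro ⟨s₁, t₁⟩ ⟨hs₁, ht₁, m₁⟩ ⟨s₂, t₂⟩ ⟨hs₂, ht₂, m₂⟩ he
  simp only [Prod.mk.injEq] at he hs₁ ht₁ hs₂ ht₂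
  obtain ⟨he1, he2⟩ := he
  obtain ⟨l1, H1⟩ := id m₁
  obtain ⟨l2, H2⟩ := id m₂
  simp only at l1 l2 H1 H2
  rcases H1 with ⟨hlt, h1, -⟩ | ⟨hlt, h1, -⟩
  · rcases H2 with ⟨-, h2, -⟩ | ⟨hgt, -, -⟩
    · have hs : s₁ = s₂ := by
        rcases lt_trichotomy s₁ s₂ with h | h | h
        · linarith [h1 s₂ ⟨h, hs₂.trans ht₁⟩]
        · exact h
        · linarith [h2 s₁ ⟨h, hs₁.trans ht₂⟩]
      subst hs
      rw [right_unique m₁ m₂ he2]
    · linarith
  · rcases H2 with ⟨hgt, -, -⟩ | ⟨-, h2, -⟩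
    · linarith
    · have ht : t₁ = t₂ := by
        rcases lt_trichotomy t₁ t₂ with h | h | h
        · linarith [h2 t₁ ⟨hs₂.trans ht₁, h⟩]
        · exact h
        · linarith [h1 t₂ ⟨hs₁.trans ht₂, h⟩]
      subst ht
      rw [left_unique m₁ m₂ he1]

theorem nonneg_of_right {a d : ℝ} (hd : HasDerivAt φ d a) (h : ∀ᶠ u in 𝓝[>] a, φ a ≤ φ u) :
    0 ≤ d := by
  refine ge_of_tendsto (hd.tendsto_slope.mono_left (nhdsWithin_mono a (show Ioi a ⊆ {a}ᶜ from fun u hu => ne_of_gt hu))) ?_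
  filter_upwards [h, self_mem_nhdsWithin] with u hu hu'
  rw [slope_def_field]
  exact div_nonneg (sub_nonneg.mpr hu) (sub_nonneg.mpr (le_of_lt hu'))

theorem nonneg_of_left {a d : ℝ} (hd : HasDerivAt φ d a) (h : ∀ᶠ u in 𝓝[<] a, φ u ≤ φ a) :
    0 ≤ d := by
  refine ge_of_tendsto (hd.tendsto_slope.mono_left (nhdsWithin_mono a (show Iio a ⊆ {a}ᶜ from fun u hu => ne_of_lt hu))) ?_
  filter_upwards [h, self_mem_nhdsWithin] with u hu hu'
  rw [slope_def_field]
  exact div_nonneg_of_nonpos (sub_nonpos.mpr hu) (sub_nonpos.mpr (le_of_lt hu'))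

theorem deriv_signs (hφ : ContDiff ℝ 1 φ) {p : ℝ × ℝ} (hp : p ∈ matched φ) :
    0 ≤ deriv φ p.1 ∧ deriv φ p.2 ≤ 0 := by
  obtain ⟨s, t⟩ := p
  obtain ⟨hst, H⟩ := hp
  simp only at hst H ⊢
  have hd : ∀ a, HasDerivAt φ (deriv φ a) a := fun a =>
    (hφ.differentiable (by norm_num) a).hasDerivAt
  have hneg : ∀ a d, HasDerivAt φ d a → HasDerivAt (fun u => -φ u) (-d) a := fun a d h => h.neg
  rcases H with ⟨hlt, h1, h3⟩ | ⟨hlt, h1, h3⟩
  · refine ⟨nonneg_of_right (hd s) ?_, ?_⟩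
    · filter_upwards [Ioc_mem_nhdsGT hst] with u hu
      exact (h1 u hu).le
    · have hev : ∀ᶠ u in 𝓝 t, φ s < φ u := hφ.continuous.continuousAt.eventually_const_lt hlt
      obtain ⟨ε, hε, hb⟩ := Metric.eventually_nhds_iff.mp hev
      have := nonneg_of_right (hneg t _ (hd t)) (by
        filter_upwards [Ioo_mem_nhdsGT (show t < t + ε by linarith)] with u hu
        have := h3 u hu.1 fun v hv => (hb (by
          rw [Real.dist_eq, abs_of_nonneg (by linarith [hv.1])]; linarith [hv.2, hu.2])).le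
        linarith)
      linarith
  · refine ⟨?_, ?_⟩
    · have hev : ∀ᶠ u in 𝓝 s, φ t < φ u := hφ.continuous.continuousAt.eventually_const_lt hlt
      obtain ⟨ε, hε, hb⟩ := Metric.eventually_nhds_iff.mp hev
      refine nonneg_of_left (hd s) ?_
      filter_upwards [Ioo_mem_nhdsLT (show s - ε < s by linarith)] with u hu
      exact (h3 u hu.2 fun v hv => (hb (by
        rw [Real.dist_eq, abs_of_nonpos (by linarith [hv.2])]; linarith [hv.1, hu.1])).le).le
    · have := nonneg_of_left (hneg t _ (hd t)) (by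
        filter_upwards [Ico_mem_nhdsLT hst] with u hu
        linarith [h1 u hu])
      linarith

theorem exists_pair_lt (hφ : Continuous φ) (hsupp : HasCompactSupport φ) {x u w : ℝ} (hu : 0 < u)
    (huw : u < w) (hw : w < φ x) (hreg : ∀ v, φ v = u → deriv φ v ≠ 0) :
    ∃ s t, (s, t) ∈ matched φ ∧ s ≤ x ∧ x ≤ t ∧ φ s = u ∧ φ t = w := by
  obtain ⟨M, hM⟩ := hsupp.isCompact.isBounded.subset_closedBall 0
  have hout : ∀ v, M < |v| → φ v = 0 := fun v hv => image_eq_zero_of_notMem_tsupport fun h => by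
    have := hM h
    rw [Metric.mem_closedBall, Real.dist_eq, sub_zero] at this
    linarith
  let S : Set ℝ := {v | v ≤ x ∧ φ v ≤ u}
  have hScl : IsClosed S := (isClosed_le continuous_id continuous_const).inter
    (isClosed_le hφ continuous_const)
  have hSne : S.Nonempty := by
    have a1 : min x (-|M| - 1) ≤ -|M| - 1 := min_le_right _ _
    refine ⟨min x (-|M| - 1), min_le_left _ _, ?_⟩
    rw [hout _ (by linarith [neg_le_abs (min x (-|M| - 1)), le_abs_self M])]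
    exact hu.le
  have hSbd : BddAbove S := ⟨x, fun v hv => hv.1⟩
  obtain ⟨hsx, hsu⟩ := hScl.csSup_mem hSne hSbd
  set s := sSup S
  have hsu' : φ s = u := by
    obtain ⟨v, hv, hvu⟩ := intermediate_value_Icc hsx hφ.continuousOn ⟨hsu, (huw.trans hw).le⟩
    have : v ≤ s := le_csSup hSbd ⟨hv.2, hvu.le⟩
    rwa [le_antisymm this hv.1] at hvu
  have hleft : ∀ v ∈ Ioc s x, u < φ v := fun v hv => by
    by_contra h
    linarith [le_csSup hSbd ⟨hv.2, not_lt.mp h⟩, hv.1]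
  let B : Set ℝ := {v | x ≤ v ∧ φ v ≤ u}
  have hBcl : IsClosed B := (isClosed_le continuous_const continuous_id).inter
    (isClosed_le hφ continuous_const)
  have hBne : B.Nonempty := by
    have a1 : |M| + 1 ≤ max x (|M| + 1) := le_max_right _ _
    refine ⟨max x (|M| + 1), le_max_left _ _, ?_⟩
    rw [hout _ (by linarith [le_abs_self (max x (|M| + 1)), le_abs_self M])]
    exact hu.le
  have hBbd : BddBelow B := ⟨x, fun v hv => hv.1⟩
  obtain ⟨hxb, hbu⟩ := hBcl.csInf_mem hBne hBbd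
  set b := sInf B
  have hright : ∀ v, x ≤ v → v < b → u < φ v := fun v hv hvb => by
    by_contra h
    linarith [csInf_le hBbd ⟨hv, not_lt.mp h⟩]
  let T : Set ℝ := {v | v ∈ Icc x b ∧ w ≤ φ v}
  have hTcl : IsClosed T := isClosed_Icc.inter (isClosed_le continuous_const hφ)
  have hTne : T.Nonempty := ⟨x, ⟨le_rfl, hxb⟩, hw.le⟩
  have hTbd : BddAbove T := ⟨b, fun v hv => hv.1.2⟩
  obtain ⟨⟨hxt, htb⟩, htw⟩ := hTcl.csSup_mem hTne hTbd
  set t := sSup T
  have htb' : t < b := lt_of_le_of_ne htb fun h => by rw [h] at htw; linarith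
  have htw' : φ t = w := by
    obtain ⟨v, hv, hvw⟩ := intermediate_value_Icc' htb hφ.continuousOn
      ⟨hbu.trans huw.le, htw⟩
    have : v ≤ t := le_csSup hTbd ⟨⟨hxt.trans hv.1, hv.2⟩, hvw.ge⟩
    rwa [le_antisymm this hv.1] at hvw
  have hst : s < t := lt_of_lt_of_le (lt_of_le_of_ne hsx fun h => by rw [h] at hsu; linarith) hxt
  refine ⟨s, t, ⟨hst, Or.inl ⟨?_, ?_, ?_⟩⟩, hsx, hxt, hsu', htw'⟩
  · simp only; linarith
  · intro v hv
    simp only at hv ⊢
    rw [hsu']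
    rcases le_or_gt v x with h | h
    · exact hleft v ⟨hv.1, h⟩
    · exact hright v h.le (hv.2.trans_lt htb')
  · intro t' htt' hge
    simp only at htt' hge ⊢
    rw [htw']
    rcases le_or_gt t' b with h | h
    · by_contra h'
      linarith [le_csSup hTbd ⟨⟨hxt.trans htt'.le, h⟩, not_lt.mp h'⟩]
    · exfalso
      have hbu' : φ b = u := le_antisymm hbu (hsu' ▸ hge b ⟨htb, h.le⟩)
      refine hreg b hbu' ((?_ : IsLocalMin φ b).deriv_eq_zero)
      filter_upwards [Ioo_mem_nhds htb' h] with v hv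
      rw [hbu', ← hsu']
      exact hge v ⟨hv.1.le, hv.2.le⟩

theorem matched_neg {a b : ℝ} (h : (a, b) ∈ matched fun v => φ (-v)) : (-b, -a) ∈ matched φ := by
  obtain ⟨hab, H⟩ := h
  simp only at hab H
  refine ⟨neg_lt_neg hab, ?_⟩
  rcases H with ⟨hlt, h1, h3⟩ | ⟨hlt, h1, h3⟩
  · refine Or.inr ⟨hlt, fun u hu => ?_, fun s' hs' hge => ?_⟩
    · have := h1 (-u) ⟨by linarith [hu.2], by linarith [hu.1]⟩
      simpa using this
    · have := h3 (-s') (by simp only at hs'; linarith) fun u hu =>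
        hge (-u) ⟨by linarith [hu.2], by simp only; linarith [hu.1]⟩
      simpa using this
  · refine Or.inl ⟨hlt, fun u hu => ?_, fun t' ht' hge => ?_⟩
    · have := h1 (-u) ⟨by linarith [hu.2], by linarith [hu.1]⟩
      simpa using this
    · have := h3 (-t') (by simp only at ht'; linarith) fun u hu =>
        hge (-u) ⟨by simp only; linarith [hu.2], by linarith [hu.1]⟩
      simpa using this

theorem exists_pair (hφ : Continuous φ) (hsupp : HasCompactSupport φ) {x u w : ℝ} (hu : 0 < u)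
    (hux : u < φ x) (hw : 0 < w) (hwx : w < φ x) (huw : u ≠ w)
    (hu' : ∀ v, φ v = u → deriv φ v ≠ 0) (hw' : ∀ v, φ v = w → deriv φ v ≠ 0) :
    ∃ s t, (s, t) ∈ matched φ ∧ s ≤ x ∧ x ≤ t ∧ φ s = u ∧ φ t = w := by
  rcases huw.lt_or_gt with h | h
  · exact exists_pair_lt hφ hsupp hu h hwx hu'
  · have hψ : HasCompactSupport fun v => φ (-v) := hsupp.comp_homeomorph (Homeomorph.neg ℝ)
    obtain ⟨a, b, hm, ha, hb, hfa, hfb⟩ := exists_pair_lt (φ := fun v => φ (-v))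
      (hφ.comp continuous_neg) hψ (x := -x) hw h (by simpa using hux)
      (fun v hv => by rw [deriv_comp_neg]; exact neg_ne_zero.mpr (hw' _ hv))
    exact ⟨-b, -a, matched_neg hm, by linarith, by linarith, hfb, hfa⟩

theorem section_le (hφ : ContDiff ℝ 1 φ) (h01 : ∀ v, φ v ∈ Icc (0 : ℝ) 1) {S : Set ℝ}
    (hS : MeasurableSet S) (hinj : InjOn φ S) (σ : ℝ) (hσ : |σ| = 1) :
    ∫⁻ v in S, ENNReal.ofReal (σ * deriv φ v) ≤ 1 := by
  calc ∫⁻ v in S, ENNReal.ofReal (σ * deriv φ v)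
      ≤ ∫⁻ v in S, ENNReal.ofReal |deriv φ v| * 1 := by
        refine lintegral_mono fun v => ?_
        rw [mul_one]
        refine ENNReal.ofReal_le_ofReal ((le_abs_self _).trans_eq ?_)
        rw [abs_mul, hσ, one_mul]
    _ = ∫⁻ v in φ '' S, 1 := (lintegral_image_eq_lintegral_abs_deriv_mul hS
        (fun v _ => (hφ.differentiable (by norm_num) v).hasDerivAt.hasDerivWithinAt) hinj fun _ => (1 : ENNReal)).symm
    _ ≤ 1 := by
        rw [setLIntegral_one]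
        exact (measure_mono (show φ '' S ⊆ Icc 0 1 from image_subset_iff.mpr fun v _ => h01 v)).trans
          (by simp)

theorem pairs_ge (hφ : ContDiff ℝ 1 φ) (hsupp : HasCompactSupport φ) (x : ℝ) (hx : 0 ≤ φ x) :
    ENNReal.ofReal (φ x ^ 2) ≤
      ∫⁻ s in Iic x, ∫⁻ t in {t | x ≤ t ∧ (s, t) ∈ matched φ},
        ENNReal.ofReal (deriv φ s) * ENNReal.ofReal (-deriv φ t) := by
  have hM := measurableSet_matched hφ.continuous
  set P : Set (ℝ × ℝ) := {p | p.1 ≤ x ∧ x ≤ p.2 ∧ p ∈ matched φ}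
  have hP : MeasurableSet P :=
    (measurable_fst measurableSet_Iic).inter ((measurable_snd measurableSet_Ici).inter hM)
  set F : ℝ × ℝ → ENNReal := fun p =>
    ENNReal.ofReal (deriv φ p.1) * ENNReal.ofReal (-deriv φ p.2)
  have hc : Continuous (deriv φ) := hφ.continuous_deriv le_rfl
  have hFm : Measurable F :=
    ((hc.comp continuous_fst).measurable.ennreal_ofReal).mul
      ((hc.comp continuous_snd).neg.measurable.ennreal_ofReal)
  have hiter : ∫⁻ s in Iic x, ∫⁻ t in {t | x ≤ t ∧ (s, t) ∈ matched φ}, F (s, t) =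
      ∫⁻ p in P, F p := by
    rw [← lintegral_indicator hP, Measure.volume_eq_prod,
      lintegral_prod _ (hFm.indicator hP).aemeasurable, ← lintegral_indicator measurableSet_Iic]
    refine lintegral_congr fun s => ?_
    by_cases hs : s ≤ x
    · have hset : {t | x ≤ t ∧ (s, t) ∈ matched φ} = Ici x ∩ Prod.mk s ⁻¹' matched φ := rfl
      rw [indicator_of_mem (show s ∈ Iic x from hs), hset,
        ← lintegral_indicator (measurableSet_Ici.inter (measurable_prodMk_left hM))]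
      refine lintegral_congr fun t => ?_
      by_cases h : (s, t) ∈ P
      · rw [indicator_of_mem h, indicator_of_mem
          (show t ∈ Ici x ∩ Prod.mk s ⁻¹' matched φ from ⟨h.2.1, h.2.2⟩)]
      · rw [indicator_of_notMem h, indicator_of_notMem
          (show t ∉ Ici x ∩ Prod.mk s ⁻¹' matched φ from fun h' => h ⟨hs, h'.1, h'.2⟩)]
    · rw [indicator_of_notMem (show s ∉ Iic x from hs)]
      simp [indicator, P, hs]
  let D : ℝ × ℝ → ℝ × ℝ →L[ℝ] ℝ × ℝ := fun p =>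
    (ContinuousLinearMap.toSpanSingleton ℝ (deriv φ p.1)).prodMap
      (ContinuousLinearMap.toSpanSingleton ℝ (deriv φ p.2))
  have hd : ∀ a, HasFDerivAt φ (ContinuousLinearMap.toSpanSingleton ℝ (deriv φ a)) a := fun a =>
    (hφ.differentiable (by norm_num) a).hasDerivAt.hasFDerivAt
  have hD : ∀ p : ℝ × ℝ, HasFDerivAt (fun q : ℝ × ℝ => (φ q.1, φ q.2)) (D p) p := fun p =>
    (((hd p.1).comp p hasFDerivAt_fst).prodMk ((hd p.2).comp p hasFDerivAt_snd)).congr_fderiv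
      (ContinuousLinearMap.ext fun v => by simp [D, Prod.map])
  have hdet : ∀ p, (D p).det = deriv φ p.1 * deriv φ p.2 := fun p => by
    simp only [D, ContinuousLinearMap.det]
    rw [ContinuousLinearMap.coe_prodMap, LinearMap.det_prodMap]
    rw [← ContinuousLinearMap.det, ← ContinuousLinearMap.det, ContinuousLinearMap.det_toSpanSingleton,
      ContinuousLinearMap.det_toSpanSingleton]
  have hval : ∫⁻ p in P, F p = volume ((fun q : ℝ × ℝ => (φ q.1, φ q.2)) '' P) := by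
    rw [← lintegral_abs_det_fderiv_eq_addHaar_image volume hP
      (fun p _ => (hD p).hasFDerivWithinAt) (levels_injOn φ x)]
    refine setLIntegral_congr_fun hP fun p hp => ?_
    obtain ⟨h1, h2⟩ := deriv_signs hφ hp.2.2
    simp only [F, hdet, abs_mul, abs_of_nonneg h1, abs_of_nonpos h2, ENNReal.ofReal_mul h1]
  set C : Set ℝ := φ '' {v | deriv φ v = 0}
  have hC : volume C = 0 :=
    addHaar_image_eq_zero_of_det_fderivWithin_eq_zero volume
      (fun v _ => (hd v).hasFDerivWithinAt) fun v hv => by rw [ContinuousLinearMap.det_toSpanSingleton]; exact hv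
  set N : Set (ℝ × ℝ) := C ×ˢ univ ∪ univ ×ˢ C ∪ {p | p.1 = p.2}
  have hN : (volume : Measure (ℝ × ℝ)) N = 0 := by
    rw [Measure.volume_eq_prod]
    refine measure_union_null (measure_union_null ?_ ?_) ?_
    · rw [Measure.prod_prod, hC, zero_mul]
    · rw [Measure.prod_prod, hC, mul_zero]
    · rw [Measure.measure_prod_null (measurableSet_eq_fun measurable_fst measurable_snd)]
      refine Eventually.of_forall fun a => ?_
      have : Prod.mk a ⁻¹' {p : ℝ × ℝ | p.1 = p.2} = {a} := by ext b; simp [eq_comm]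
      simp [this]
  have hsub : Ioo 0 (φ x) ×ˢ Ioo 0 (φ x) \ N ⊆ (fun q : ℝ × ℝ => (φ q.1, φ q.2)) '' P := by
    rintro ⟨u, w⟩ ⟨⟨hu, hw⟩, hn⟩
    simp [N, C] at hn
    obtain ⟨⟨hu', hw'⟩, huw⟩ := hn
    obtain ⟨s, t, hm, hs, ht, hfs, hft⟩ := exists_pair hφ.continuous hsupp hu.1 hu.2 hw.1 hw.2 huw
      (fun v hv hd0 => hu' v hd0 hv) (fun v hv hd0 => hw' v hd0 hv)
    exact ⟨(s, t), ⟨hs, ht, hm⟩, by simp [hfs, hft]⟩
  have key : ENNReal.ofReal (φ x ^ 2) = volume (Ioo 0 (φ x) ×ˢ Ioo 0 (φ x) \ N) := by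
    rw [measure_sdiff_null hN, Measure.volume_eq_prod, Measure.prod_prod, Real.volume_Ioo,
      sub_zero, ← ENNReal.ofReal_mul hx, sq]
  exact key.trans_le ((measure_mono hsub).trans_eq (hval.symm.trans hiter.symm))

/-- The facts about matched pairs. -/
theorem lineStmt : LineStmt := by
  intro φ hφ hsupp h01
  have hM := measurableSet_matched hφ.continuous
  refine ⟨hM, fun s => ?_, fun t => ?_, fun x => pairs_ge hφ hsupp x (h01 x).1⟩
  · have h := section_le hφ h01 (measurable_prodMk_left hM)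
      (fun a ha b hb h => right_unique (s := s) ha hb h) (-1) (by simp)
    simp only [neg_one_mul] at h
    exact h
  · have h := section_le hφ h01 (measurable_prodMk_right hM)
      (fun a ha b hb h => left_unique (t := t) ha hb h) 1 (by simp)
    simp only [one_mul] at h
    exact h

end

end Vale.Agent.P219.CH.Core.Line
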