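import Vale.Agent.P219.CH.Core.ChordEnds
import Vale.Agent.P219.CH.Core.Line

/-!
P219: the chord bound `LineStmt → ChordStmt n`.

The double integral over level sets is symmetrised, bounded below through polar coordinates by an
integral over the tangent bundle, and compared pointwise with the matched pairs along geodesics.
-/

namespace Vale.Agent.P219.CH.Core

open MeasureTheory Set Filter Topology
open scoped ENNReal

noncomputable section

variable {n : ℕ} {G : Coeff n}

namespace Chord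

variable (Γ : Geo G) {f : E n → ℝ}

theorem logm_flow_back (p : E n × E n) :
    Γ.logm (Γ.flow 1 p).1 p.1 = -(Γ.flow 1 p).2 ∧ Γ.V (Γ.flow 1 p).1 p.1 = -p.2 := by
  have h : Γ.flow 1 ((Γ.flow 1 p).1, -(Γ.flow 1 p).2) = (p.1, -p.2) := by
    rw [← neg_one_smul ℝ (Γ.flow 1 p).2, Γ.flow_scale, mul_one, flow_neg_flow, neg_one_smul]
  have h1 : Γ.logm (Γ.flow 1 p).1 p.1 = -(Γ.flow 1 p).2 := by
    have := Γ.logm_exp (Γ.flow 1 p).1 (-(Γ.flow 1 p).2)
    rwa [h] at this
  exact ⟨h1, by rw [Geo.V, h1, h]⟩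

theorem dist_fwd (p : E n × E n) : Γ.dist p.1 (Γ.flow 1 p).1 = gnorm G p.1 p.2 := by
  rw [Geo.dist, Γ.logm_exp]

theorem dist_back (p : E n × E n) : Γ.dist (Γ.flow 1 p).1 p.1 = gnorm G p.1 p.2 := by
  rw [Geo.dist, (logm_flow_back Γ p).1, ← neg_one_smul ℝ, gnorm_smul, Γ.flow_speed]
  simp

theorem cosAt_fwd (p : E n × E n) :
    cosAt Γ f p.1 (Γ.flow 1 p).1 = cosVel G f (Γ.flow 1 p) := by
  rw [cosAt, dist_fwd, Geo.V, Γ.logm_exp, cosVel, Γ.flow_speed]

theorem cosAt_back (p : E n × E n) :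
    cosAt Γ f (Γ.flow 1 p).1 p.1 = -cosVel G f p := by
  rw [cosAt, dist_back, (logm_flow_back Γ p).2, cosVel, map_neg, neg_apply, neg_div]

theorem continuous_dist (hG : IsMetric G) : Continuous fun q : E n × E n => Γ.dist q.1 q.2 :=
  hG.continuous_gnorm.comp (continuous_fst.prodMk Γ.logm_c1.continuous)

theorem gnorm_V (x y : E n) : gnorm G y (Γ.V x y) = Γ.dist x y := by
  have h := Γ.flow_speed 1 (x, Γ.logm x y)
  rwa [Γ.exp_logm] at h

theorem abs_cosAt_le (hG : IsMetric G) (x y : E n) : |cosAt Γ f x y| ≤ 1 := by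
  have h0 : 0 ≤ Γ.dist x y := gnorm_nonneg _ _ _
  rw [cosAt, abs_div, abs_of_nonneg h0]
  refine div_le_one_of_le₀ ((hG.cauchy _ _ _).trans ?_) h0
  rw [gnorm_V]
  exact mul_le_of_le_one_right (gnorm_nonneg _ _ _) (gnorm_normal_le hG _)

theorem measurable_cosAt (hG : IsMetric G) (hf : ContDiff ℝ 1 f) :
    Measurable fun q : E n × E n => cosAt Γ f q.1 q.2 := by
  have hB : Continuous fun q : E n × E n × E n => G q.1 q.2.1 q.2.2 :=
    ((hG.smooth.continuous.comp continuous_fst).clm_apply continuous_snd.fst).clm_apply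
      continuous_snd.snd
  have hV : Measurable fun q : E n × E n => Γ.V q.1 q.2 :=
    ((continuous_flow Γ).comp
      ((continuous_fst.prodMk Γ.logm_c1.continuous).prodMk continuous_const)).snd.measurable
  exact (hB.measurable.comp (measurable_snd.prodMk
    (hV.prodMk ((measurable_normal hG hf).comp measurable_snd)))).div
      (continuous_dist Γ hG).measurable

/-- The chord hypothesis for the weight of one pair. -/
theorem pair_real (hn : 0 < n) {r a b c d σ Qc Qd gc gd : ℝ} (hr : 0 < r) (ha : 0 ≤ a) (hb : 0 ≤ b)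
    (hc : 0 < c) (hd : 0 < d)
    (h : r - σ + gc + gd ≤ r ^ (n - 1) * (Qc + Qd) / (2 * c * d)) :
    a * r * c * (b * r * d) * (r⁻¹ ^ n / n) ≤ a * b * (Qd + Qc) / (2 * n) +
      a * r * c * (b * r * d) * ((σ / 2 - gc) * r⁻¹ * (r⁻¹ ^ n / n)) +
      a * r * c * (b * r * d) * ((σ / 2 - gd) * r⁻¹ * (r⁻¹ ^ n / n)) := by
  obtain ⟨m, rfl⟩ : ∃ m, n = m + 1 := ⟨n - 1, by omega⟩
  rw [Nat.add_sub_cancel] at h
  have hrm : 0 < r ^ m := pow_pos hr m
  rw [le_div_iff₀ (by positivity)] at h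
  have h2 := mul_le_mul_of_nonneg_left h
    (show 0 ≤ a * b / (2 * (m + 1) * r ^ m) by positivity)
  have e : (r⁻¹ ^ (m + 1)) = (r ^ m)⁻¹ * r⁻¹ := by rw [inv_pow, pow_succ, mul_inv]
  push_cast
  rw [e]
  have e1 : a * r * c * (b * r * d) * ((r ^ m)⁻¹ * r⁻¹ / (m + 1)) -
      a * r * c * (b * r * d) * ((σ / 2 - gc) * r⁻¹ * ((r ^ m)⁻¹ * r⁻¹ / (m + 1))) -
      a * r * c * (b * r * d) * ((σ / 2 - gd) * r⁻¹ * ((r ^ m)⁻¹ * r⁻¹ / (m + 1))) =
      a * b / (2 * (m + 1) * r ^ m) * ((r - σ + gc + gd) * (2 * c * d)) := by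
    field_simp
    ring
  have e2 : a * b * (Qd + Qc) / (2 * (m + 1)) =
      a * b / (2 * (m + 1) * r ^ m) * (r ^ m * (Qc + Qd)) := by
    field_simp
    ring
  linarith

/-- The symmetrised kernel in the tangent bundle. -/
def chordDens (f : E n → ℝ) (q : ℝ → ℝ → ℝ) (p : E n × E n) : ℝ≥0∞ :=
  ENNReal.ofReal (gradn G f p.1) * ENNReal.ofReal (gradn G f (Γ.flow 1 p).1) *
    ((ENNReal.ofReal (q (Γ.dist p.1 (Γ.flow 1 p).1) (cosAt Γ f p.1 (Γ.flow 1 p).1)) +
      ENNReal.ofReal (q (Γ.dist (Γ.flow 1 p).1 p.1) (cosAt Γ f (Γ.flow 1 p).1 p.1))) *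
        ENNReal.ofReal (1 / 2))

/-- The double surface integral dominates the integral over the tangent bundle. -/
theorem lintegral_chordDens_le (hG : IsMetric G) (hf : ContDiff ℝ 1 f)
    (hsupp : HasCompactSupport f) {q : ℝ → ℝ → ℝ} (hq : Continuous (Function.uncurry q))
    (hq0 : ∀ r d, 0 ≤ r → |d| ≤ 1 → 0 ≤ q r d) :
    Measurable (chordDens Γ f q) ∧
      0 ≤ ∫ x, (∫ y, q (Γ.dist x y) (cosAt Γ f x y) ∂surf G f) ∂surf G f ∧
      ∫⁻ p, chordDens Γ f q p ∂liouville G ≤
        ENNReal.ofReal (∫ x, (∫ y, q (Γ.dist x y) (cosAt Γ f x y) ∂surf G f) ∂surf G f) := by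
  have hgm := measurable_gradn hG hf
  have hdm := measurable_dens hG
  set μ := surf G f with hμ
  have hfin : IsFiniteMeasure μ :=
    isFiniteMeasure_withDensity_ofReal (integrable_gradn hG hf hsupp).hasFiniteIntegral
  have hμs : ∀ᵐ x ∂μ, x ∈ tsupport f := by
    rw [hμ, surf, ae_withDensity_iff (f := fun x => ENNReal.ofReal (gnorm G x (grad G f x)))
      (measurable_gradn hG hf).ennreal_ofReal]
    refine ae_of_all _ fun x hx => ?_
    by_contra h
    refine hx ?_
    have h' : fderiv ℝ f x = 0 := by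
      by_contra hne
      exact h (tsupport_fderiv_subset ℝ (subset_tsupport _ hne))
    simp [grad, h', gnorm]
  -- the double integral
  set J : E n × E n → ℝ := fun p => q (Γ.dist p.1 p.2) (cosAt Γ f p.1 p.2) with hJ
  have hJm : Measurable J := hq.measurable.comp
    ((continuous_dist Γ hG).measurable.prodMk (measurable_cosAt Γ hG hf))
  have hJ0 : ∀ p, 0 ≤ J p := fun p => hq0 _ _ (gnorm_nonneg _ _ _) (abs_cosAt_le Γ hG _ _)
  obtain ⟨D, hD⟩ := (hsupp.isCompact.prod hsupp.isCompact).exists_bound_of_continuousOn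
    (continuous_dist Γ hG).continuousOn
  obtain ⟨B, hB⟩ := ((isCompact_Icc : IsCompact (Icc (0 : ℝ) D)).prod
    (isCompact_Icc : IsCompact (Icc (-1 : ℝ) 1))).exists_bound_of_continuousOn hq.continuousOn
  have hprod : ∀ᵐ p ∂μ.prod μ, p.1 ∈ tsupport f ∧ p.2 ∈ tsupport f := by
    exact (Measure.quasiMeasurePreserving_fst.ae hμs).and
      (Measure.quasiMeasurePreserving_snd.ae hμs)
  have hJi : Integrable J (μ.prod μ) :=
    Integrable.of_bound hJm.aestronglyMeasurable B (hprod.mono fun p hp => hB (Γ.dist p.1 p.2, cosAt Γ f p.1 p.2)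
      ⟨⟨gnorm_nonneg _ _ _, le_trans (le_abs_self _) (hD p ⟨hp.1, hp.2⟩)⟩,
        abs_le.1 (abs_cosAt_le Γ hG _ _)⟩)
  set I := ∫ x, (∫ y, q (Γ.dist x y) (cosAt Γ f x y) ∂μ) ∂μ with hI
  have hIJ : I = ∫ p, J p ∂μ.prod μ := (integral_prod J hJi).symm
  have hI0 : 0 ≤ I := hIJ ▸ integral_nonneg hJ0
  have hIl : ENNReal.ofReal I = ∫⁻ x, (∫⁻ y, ENNReal.ofReal (J (x, y)) ∂μ) ∂μ := by
    rw [hIJ, ofReal_integral_eq_lintegral_ofReal hJi (ae_of_all _ hJ0),
      lintegral_prod _ hJm.ennreal_ofReal.aemeasurable]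
  -- through polar coordinates
  set S : E n × E n → ℝ≥0∞ := fun p =>
    (ENNReal.ofReal (J p) + ENNReal.ofReal (J p.swap)) * ENNReal.ofReal (1 / 2) with hS
  have hSm : Measurable S :=
    (hJm.ennreal_ofReal.add (hJm.comp measurable_swap).ennreal_ofReal).mul measurable_const
  have hIS : ENNReal.ofReal I = ∫⁻ x, (∫⁻ y, S (x, y) ∂μ) ∂μ := by
    have hJy : ∀ x, Measurable fun y => ENNReal.ofReal (J (x, y)) := fun x =>
      (hJm.comp measurable_prodMk_left).ennreal_ofReal
    have hJx : Measurable fun x => ∫⁻ y, ENNReal.ofReal (J (x, y)) ∂μ :=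
      hJm.ennreal_ofReal.lintegral_prod_right'
    simp only [hS, Prod.swap_prod_mk]
    simp only [lintegral_mul_const' _ _ ENNReal.ofReal_ne_top, lintegral_add_left (hJy _)]
    rw [lintegral_add_left hJx,
      lintegral_lintegral_swap (f := fun x y => ENNReal.ofReal (J (y, x)))
        (hJm.comp measurable_swap).ennreal_ofReal.aemeasurable, ← hIl,
      ← ENNReal.ofReal_add hI0 hI0, ← ENNReal.ofReal_mul (by linarith)]
    congr 1
    ring
  set Fp : E n × E n → ℝ≥0∞ := chordDens Γ f q with hFp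
  have hfl : Measurable fun p : E n × E n => (Γ.flow 1 p).1 := (measurable_flow Γ 1).fst
  have hFpe : Fp = fun p => ENNReal.ofReal (gradn G f p.1) *
      ENNReal.ofReal (gradn G f (Γ.flow 1 p).1) * S (p.1, (Γ.flow 1 p).1) := by
    funext p
    simp only [hFp, chordDens, hS, hJ, Prod.swap_prod_mk]
  have hFpm : Measurable Fp := by
    rw [hFpe]
    exact (((hgm.comp measurable_fst).ennreal_ofReal).mul (hgm.comp hfl).ennreal_ofReal).mul
      (hSm.comp (measurable_fst.prodMk hfl))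
  have hlow : ∫⁻ p, Fp p ∂liouville G ≤ ENNReal.ofReal I := by
    have hsurf : ∀ F : E n → ℝ≥0∞, Measurable F →
        ∫⁻ y, F y ∂μ = ∫⁻ y, ENNReal.ofReal (gradn G f y) * F y ∂vol G := fun F hF => by
      rw [hμ]
      exact lintegral_withDensity_eq_lintegral_mul _ (measurable_gradn hG hf).ennreal_ofReal hF
    have hvol : ∀ F : E n → ℝ≥0∞, Measurable F →
        ∫⁻ y, F y ∂vol G = ∫⁻ y, ENNReal.ofReal (dens G y) * F y := fun F hF =>
      lintegral_withDensity_eq_lintegral_mul _ hdm.ennreal_ofReal hF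
    rw [hIS, lintegral_liouville hG hFpm, hsurf _ hSm.lintegral_prod_right',
      hvol (fun y => ENNReal.ofReal (gradn G f y) * ∫⁻ z, S (y, z) ∂μ)
        (hgm.ennreal_ofReal.mul hSm.lintegral_prod_right')]
    refine lintegral_mono fun x => ?_
    rw [hsurf (fun z => S (x, z)) (hSm.comp measurable_prodMk_left)]
    refine le_trans (le_of_eq ?_) (mul_le_mul_right (mul_le_mul_right (Γ.polar x _
      (hgm.ennreal_ofReal.mul (hSm.comp measurable_prodMk_left))) _) _)
    rw [← lintegral_const_mul' _ _ ENNReal.ofReal_ne_top,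
      ← lintegral_const_mul' _ _ ENNReal.ofReal_ne_top]
    refine lintegral_congr fun v => ?_
    simp only [hFpe, Pi.mul_apply, Function.comp_apply]
    rw [pow_two (dens G x), ENNReal.ofReal_mul (hG.dens_pos x).le]
    ring
  exact ⟨hFpm, hI0, hlow⟩

/-- The pairs through time zero. -/
theorem section_bounds (hL : LineStmt) (hf : ContDiff ℝ 1 f) (hsupp : HasCompactSupport f)
    (h01 : ∀ x, f x ∈ Icc (0 : ℝ) 1) (p : E n × E n) (hp : p.2 ≠ 0) :
    (∫⁻ u in Ioi (0 : ℝ), pairAt Γ f p 0 u ≤ ENNReal.ofReal (rate Γ f p 0)) ∧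
      ∫⁻ u in Ioi (0 : ℝ), pairAt Γ f p (-u) 0 ≤ ENNReal.ofReal (-rate Γ f p 0) := by
  obtain ⟨hM, h2, h3, -⟩ := hL (along Γ f p) (contDiff_along hf p)
    (hasCompactSupport_along hsupp hp) fun t => h01 _
  classical
  have hpl : MeasurableSet {t | ((0 : ℝ), t) ∈ matched (along Γ f p)} :=
    hM.preimage measurable_prodMk_left
  have hpr : MeasurableSet {s | (s, (0 : ℝ)) ∈ matched (along Γ f p)} :=
    hM.preimage measurable_prodMk_right
  constructor
  · refine (setLIntegral_le_lintegral _ _).trans (le_trans (le_of_eq ?_)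
      ((mul_le_mul_right (h2 0) _).trans_eq (mul_one _)))
    rw [← lintegral_indicator hpl, ← lintegral_const_mul' _ _ ENNReal.ofReal_ne_top]
    refine lintegral_congr fun t => ?_
    simp only [pairAt, indicator_apply, mem_ofPred_eq, deriv_along hf]
    split_ifs <;> simp
  · refine (setLIntegral_le_lintegral _ _).trans (le_trans (le_of_eq ?_)
      ((mul_le_mul_left (h3 0) _).trans_eq (one_mul _)))
    rw [(Measure.measurePreserving_neg (volume : Measure ℝ)).lintegral_comp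
      (f := fun u => pairAt Γ f p u 0) ((measurable_pairAt hf).comp
        (measurable_const.prodMk (measurable_id.prodMk measurable_const))),
      ← lintegral_indicator hpr,
      ← lintegral_mul_const' _ _ ENNReal.ofReal_ne_top]
    refine lintegral_congr fun t => ?_
    simp only [pairAt, indicator_apply, mem_ofPred_eq, deriv_along hf]
    split_ifs <;> simp

/-- The weight of one end point. -/
def endWeight (G : Coeff n) (f : E n → ℝ) (σ : ℝ) (g : ℝ → ℝ) (e : ℝ) (p : E n × E n) : ℝ≥0∞ :=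
  price σ g (e * cosVel G f p) * ENNReal.ofReal (gnorm G p.1 p.2)⁻¹ *
    ENNReal.ofReal ((gnorm G p.1 p.2)⁻¹ ^ n / n)

/-- The chord hypothesis along one geodesic. -/
theorem pair_le (hG : IsMetric G) (hn : 0 < n) {g : ℝ → ℝ}
    (hg0 : ∀ c ∈ Icc (0 : ℝ) 1, g c ≤ 0) {q : ℝ → ℝ → ℝ}
    (hq0 : ∀ r d, 0 ≤ r → |d| ≤ 1 → 0 ≤ q r d) {σ : ℝ} (hσ : 0 < σ)
    (hchord : ∀ r c d, 0 < r → 0 < c → c ≤ 1 → 0 < d → d ≤ 1 →
      r - σ + g c + g d ≤ r ^ (n - 1) * (q r c + q r d) / (2 * c * d))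
    (p : E n × E n) (hp : p.2 ≠ 0) :
    pairAt Γ f p 0 1 * ENNReal.ofReal ((gnorm G p.1 p.2)⁻¹ ^ n / n) ≤
      chordDens Γ f q p * ENNReal.ofReal (1 / n) +
        pairAt Γ f p 0 1 * endWeight G f σ g (-1) p +
        pairAt Γ f (Γ.flow 1 p) (-1) 0 * endWeight G f σ g 1 (Γ.flow 1 p) := by
  have hn' : (0 : ℝ) < n := Nat.cast_pos.2 hn
  set A : E n × E n → ℝ≥0∞ := fun p => pairAt Γ f p 0 1 with hA
  show A p * _ ≤ _ + A p * _ + _
  by_cases hM : ((0 : ℝ), (1 : ℝ)) ∈ matched (along Γ f p)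
  swap
  · rw [hA]
    simp only [pairAt]
    rw [indicator_of_notMem (show ((0 : ℝ), (1 : ℝ)) ∉ {q | q ∈ matched (along Γ f p)} from hM),
      zero_mul]
    exact zero_le
  have hAe : A p = ENNReal.ofReal (rate Γ f p 0) * ENNReal.ofReal (-rate Γ f p 1) :=
    indicator_of_mem (show ((0 : ℝ), (1 : ℝ)) ∈ {q | q ∈ matched (along Γ f p)} from hM) _
  rcases le_or_gt (rate Γ f p 0) 0 with h0 | h0
  · rw [hAe, ENNReal.ofReal_eq_zero.2 h0, zero_mul, zero_mul]; exact zero_le
  rcases le_or_gt 0 (rate Γ f p 1) with h1 | h1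
  · rw [hAe, ENNReal.ofReal_eq_zero.2 (neg_nonpos.2 h1), mul_zero, zero_mul]; exact zero_le
  set r := gnorm G p.1 p.2 with hrdef
  set a := gradn G f p.1 with hadef
  set b := gradn G f (Γ.flow 1 p).1 with hbdef
  set c := -cosVel G f p with hcdef
  set d := cosVel G f (Γ.flow 1 p) with hddef
  have hr : 0 < r := hG.gnorm_pos hp
  have e0 : rate Γ f p 0 = a * r * c := by rw [rate_zero hG]; ring
  have e1 : -rate Γ f p 1 = b * r * d := by rw [rate_eq hG]; ring
  have ha : 0 ≤ a := gnorm_nonneg _ _ _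
  have hb : 0 ≤ b := gnorm_nonneg _ _ _
  have hc : 0 < c := by
    rcases ha.lt_or_eq with h | h
    · exact (pos_iff_pos_of_mul_pos (e0 ▸ h0)).1 (mul_pos h hr)
    · rw [e0, ← h] at h0; simp at h0
  have hd : 0 < d := by
    rcases hb.lt_or_eq with h | h
    · exact (pos_iff_pos_of_mul_pos (e1 ▸ neg_pos.2 h1)).1 (mul_pos h hr)
    · have := neg_pos.2 h1; rw [e1, ← h] at this; simp at this
  have hc1 : c ≤ 1 := (neg_le_abs _).trans (abs_cosVel_le hG p)
  have hd1 : d ≤ 1 := (le_abs_self _).trans (abs_cosVel_le hG _)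
  have hreal := pair_real (n := n) hn hr ha hb hc hd (hchord r c d hr hc hc1 hd hd1)
  have hpair : pairAt Γ f (Γ.flow 1 p) (-1) 0 = A p := by
    rw [pairAt_flow, neg_add_cancel, zero_add]
  have hQd : q (Γ.dist p.1 (Γ.flow 1 p).1) (cosAt Γ f p.1 (Γ.flow 1 p).1) = q r d := by
    rw [dist_fwd, cosAt_fwd]
  have hQc : q (Γ.dist (Γ.flow 1 p).1 p.1) (cosAt Γ f (Γ.flow 1 p).1 p.1) = q r c := by
    rw [dist_back, cosAt_back]
  have hqd : 0 ≤ q r d := hq0 r d hr.le (abs_le.2 ⟨by linarith, hd1⟩)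
  have hqc : 0 ≤ q r c := hq0 r c hr.le (abs_le.2 ⟨by linarith, hc1⟩)
  have hgc : 0 ≤ σ / 2 - g c := by linarith [hg0 c ⟨hc.le, hc1⟩]
  have hgd : 0 ≤ σ / 2 - g d := by linarith [hg0 d ⟨hd.le, hd1⟩]
  simp only [chordDens, endWeight, hQd, hQc, hpair, price, Γ.flow_speed,
    ← hrdef, ← hadef, ← hbdef, neg_one_mul, one_mul, ← hcdef, ← hddef, hAe, e0, e1]
  have p1 : 0 ≤ a * r * c := by positivity
  have p2 : 0 ≤ b * r * d := by positivity
  simp only [← ENNReal.ofReal_mul' (show 0 ≤ r⁻¹ by positivity),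
    ← ENNReal.ofReal_mul' (show 0 ≤ r⁻¹ ^ n / n by positivity),
    ← ENNReal.ofReal_mul p1, ← ENNReal.ofReal_add hqd hqc]
  rw [← ENNReal.ofReal_mul' (show 0 ≤ 1 / (2 : ℝ) by norm_num), ← ENNReal.ofReal_mul ha,
    ← ENNReal.ofReal_mul' (show 0 ≤ (q r d + q r c) * (1 / 2) by positivity),
    ← ENNReal.ofReal_mul' (show 0 ≤ 1 / (n : ℝ) by positivity),
    ← ENNReal.ofReal_mul (mul_nonneg p1 p2), ← ENNReal.ofReal_mul (mul_nonneg p1 p2),
    ← ENNReal.ofReal_add (by positivity) (by positivity),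
    ← ENNReal.ofReal_add (by positivity) (by positivity)]
  clear_value a b
  refine ENNReal.ofReal_le_ofReal (hreal.trans_eq ?_)
  field_simp

end Chord

open Chord in
theorem chord_of_line (hL : LineStmt) (n : ℕ) : ChordStmt n := by
  intro hn G hCH Γ g hg hg0 q hq hq0 σ hσ hchord f hf hsupp h01
  have hG := hCH.metric
  obtain ⟨hFpm, hI0, hlow⟩ := lintegral_chordDens_le Γ hG hf hsupp hq hq0
  set I := ∫ x, (∫ y, q (Γ.dist x y) (cosAt Γ f x y) ∂surf G f) ∂surf G f
  set Kp := ENNReal.ofReal (σ / 2 * omega n - gInt hn g) * ENNReal.ofReal (tvar G f) with hKp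
  have hn' : (0 : ℝ) < n := Nat.cast_pos.2 hn
  have hwm : ∀ e : ℝ, Measurable (endWeight G f σ g e) := fun e => by
    have hgn : Measurable fun p : E n × E n => gnorm G p.1 p.2 := hG.continuous_gnorm.measurable
    have hpr : Measurable (price σ g) := (measurable_const.sub hg.measurable).ennreal_ofReal
    exact ((hpr.comp (measurable_const.mul (measurable_cosVel hG hf))).mul
      hgn.inv.ennreal_ofReal).mul ((hgn.inv.pow_const n).div_const _).ennreal_ofReal
  have hpm : ∀ {b c : ℝ → ℝ}, Measurable b → Measurable c →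
      Measurable (Function.uncurry fun p u => pairAt Γ f p (b u) (c u)) := fun hb hc =>
    (measurable_pairAt hf).comp
      (measurable_fst.prodMk ((hb.comp measurable_snd).prodMk (hc.comp measurable_snd)))
  set C : E n × E n → ℝ≥0∞ := fun p => pairAt Γ f p 0 1 * endWeight G f σ g (-1) p with hC
  set D : E n × E n → ℝ≥0∞ := fun p => pairAt Γ f p (-1) 0 * endWeight G f σ g 1 p with hD
  have hCm : Measurable C := ((measurable_pairAt hf).comp
    (measurable_id.prodMk (measurable_const (a := ((0 : ℝ), (1 : ℝ)))))).mul (hwm _)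
  have hDm : Measurable D := ((measurable_pairAt hf).comp
    (measurable_id.prodMk (measurable_const (a := ((-1 : ℝ), (0 : ℝ)))))).mul (hwm _)
  have hCb : ∫⁻ p, C p ∂liouville G ≤ Kp := by
    refine end_bound hG hf hsupp hn hg hg0 hσ.le (Or.inr rfl)
      (P := fun p u => pairAt Γ f p 0 u) (hpm measurable_const measurable_id)
      (fun x v u hu => ?_)
      (fun p hp => by simpa using (section_bounds Γ hL hf hsupp h01 p hp).1)
    rw [pairAt_smul (inv_pos.2 hu), mul_zero, inv_mul_cancel₀ hu.ne']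
  have hDb : ∫⁻ p, D p ∂liouville G ≤ Kp := by
    refine end_bound hG hf hsupp hn hg hg0 hσ.le (Or.inl rfl)
      (P := fun p u => pairAt Γ f p (-u) 0) (hpm measurable_neg measurable_const)
      (fun x v u hu => ?_)
      (fun p hp => by simpa using (section_bounds Γ hL hf hsupp h01 p hp).2)
    rw [pairAt_smul (inv_pos.2 hu), mul_zero, mul_neg, inv_mul_cancel₀ hu.ne']
  -- assembly
  have hlen := length_bound hG hf hsupp h01 hn hL (Γ := Γ)
  have hall : ENNReal.ofReal (omega n) * ∫⁻ x, ENNReal.ofReal (f x ^ 2) ∂vol G ≤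
      ENNReal.ofReal I * ENNReal.ofReal (1 / n) + Kp + Kp := by
    refine hlen.trans ((lintegral_mono_ae ((ae_vel_ne_zero hn).mono fun p hp =>
      pair_le Γ hG hn hg0 hq0 hσ hchord p hp)).trans ?_)
    show ∫⁻ p, chordDens Γ f q p * ENNReal.ofReal (1 / n) + C p + D (Γ.flow 1 p) ∂liouville G ≤ _
    have h1 : Measurable fun p => chordDens Γ f q p * ENNReal.ofReal (1 / (n : ℝ)) := hFpm.mul measurable_const
    rw [lintegral_add_left (h1.fun_add hCm), lintegral_add_left h1,
      lintegral_mul_const _ hFpm, (Γ.liouville_inv 1).lintegral_comp hDm]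
    gcongr
  have hf2 : Integrable (fun x => f x ^ 2) (vol G) := by
    have : IsFiniteMeasureOnCompacts (vol G) := isFiniteMeasureOnCompacts_vol hG
    have hc : Continuous fun x => f x ^ 2 := by
      have := hf.continuous
      fun_prop
    have hs : HasCompactSupport fun x => f x ^ 2 := hsupp.mono fun x hx h => hx (by simp [h])
    exact hc.integrable_of_hasCompactSupport hs
  have hS0 : 0 ≤ ∫ x, f x ^ 2 ∂vol G := integral_nonneg fun x => sq_nonneg _
  have hK0 : 0 ≤ σ / 2 * omega n - gInt hn g := by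
    have : gInt hn g ≤ 0 := gInt_nonpos hn hg0
    have : 0 ≤ omega n := ENNReal.toReal_nonneg
    have := mul_nonneg (show 0 ≤ σ / 2 by linarith) this
    linarith
  have hA0 : 0 ≤ tvar G f := integral_nonneg fun x => gnorm_nonneg _ _ _
  rw [← ofReal_integral_eq_lintegral_ofReal hf2 (ae_of_all _ fun x => sq_nonneg _),
    ← ENNReal.ofReal_mul (show 0 ≤ omega n from ENNReal.toReal_nonneg)] at hall
  simp only [hKp] at hall
  rw [← ENNReal.ofReal_mul hI0, ← ENNReal.ofReal_mul hK0,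
    ← ENNReal.ofReal_add (by positivity) (by positivity),
    ← ENNReal.ofReal_add (by positivity) (by positivity),
    ENNReal.ofReal_le_ofReal_iff (by positivity)] at hall
  have h3 := mul_le_mul_of_nonneg_left hall hn'.le
  have h4 : (n : ℝ) * (I * (1 / n)) = I := by field_simp
  show _ ≤ I
  linarith

/-- The chord bound. -/
theorem chordStmt (n : ℕ) : ChordStmt n := chord_of_line Line.lineStmt n

end

end Vale.Agent.P219.CH.Core
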