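import Vale.Agent.P219.CH.Core.ChordLines

/-!
P219, the chord bound: the prices of the two end points of matched pairs.
-/

namespace Vale.Agent.P219.CH.Core.Chord

open MeasureTheory Set Filter Topology
open scoped ENNReal

noncomputable section

variable {n : ℕ} {G : Coeff n} {Γ : Geo G} {f : E n → ℝ} (hG : IsMetric G)

/-- The size of the gradient. -/
def gradn (G : Coeff n) (f : E n → ℝ) (x : E n) : ℝ := gnorm G x (grad G f x)

/-- The price of an end point. -/
def price (σ : ℝ) (g : ℝ → ℝ) (c : ℝ) : ℝ≥0∞ := ENNReal.ofReal (σ / 2 - g c)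

include hG

theorem normal_unit {x : E n} (h : grad G f x ≠ 0) :
    G x (normal G f x) (normal G f x) = 1 := by
  have hp := hG.pos x _ h
  simp only [normal, map_smul, smul_apply, smul_eq_mul, gnorm]
  rw [← mul_assoc, neg_mul_neg, ← mul_inv, Real.mul_self_sqrt hp.le, inv_mul_cancel₀ hp.ne']

theorem gnorm_normal_le (x : E n) : gnorm G x (normal G f x) ≤ 1 := by
  by_cases h : grad G f x = 0
  · simp [normal, h, gnorm]
  · rw [gnorm, normal_unit hG h, Real.sqrt_one]

theorem fderiv_eq_normal (x v : E n) :
    fderiv ℝ f x v = -gradn G f x * G x v (normal G f x) := by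
  by_cases h : grad G f x = 0
  · rw [← hG.G_grad f x v, gradn, h]; simp [gnorm]
  · rw [← hG.G_grad f x v, gradn, normal, map_smul, smul_eq_mul, ← mul_assoc, neg_mul_neg,
      mul_inv_cancel₀ (hG.gnorm_pos h).ne', one_mul, hG.symm]

/-- The rate at time `t` through the cosine there. -/
theorem rate_eq (p : E n × E n) (t : ℝ) :
    rate Γ f p t = -gradn G f (Γ.flow t p).1 * gnorm G p.1 p.2 * cosVel G f (Γ.flow t p) := by
  rcases eq_or_ne (gnorm G p.1 p.2) 0 with h | h
  · have h0 : (Γ.flow t p).2 = 0 := hG.gnorm_eq_zero.1 ((Γ.flow_speed t p).trans h)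
    simp [rate, h0, h]
  · rw [rate, fderiv_eq_normal hG, cosVel, Γ.flow_speed]
    field_simp

theorem rate_zero (p : E n × E n) :
    rate Γ f p 0 = -gradn G f p.1 * gnorm G p.1 p.2 * cosVel G f p := by
  rw [rate_eq hG, Γ.flow_zero]

theorem abs_cosVel_le (p : E n × E n) : |cosVel G f p| ≤ 1 := by
  rw [cosVel, abs_div, abs_of_nonneg (gnorm_nonneg _ _ _)]
  refine div_le_one_of_le₀ ((hG.cauchy _ _ _).trans ?_) (gnorm_nonneg _ _ _)
  exact mul_le_of_le_one_right (gnorm_nonneg _ _ _) (gnorm_normal_le hG _)

omit hG in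
theorem cosVel_smul {c : ℝ} (hc : 0 < c) (x v : E n) :
    cosVel G f (x, c • v) = cosVel G f (x, v) := by
  simp only [cosVel, map_smul, smul_apply, smul_eq_mul, gnorm_smul, abs_of_pos hc]
  rw [mul_div_mul_left _ _ hc.ne']

theorem isFiniteMeasureOnCompacts_vol : IsFiniteMeasureOnCompacts (vol G) := by
  have hd : Continuous (dens G) := hG.contDiff_dens.continuous
  refine ⟨fun K hK => ?_⟩
  rw [vol, withDensity_apply _ hK.measurableSet]
  exact ((hd.continuousOn.integrableOn_compact hK).hasFiniteIntegral.trans_le' (lintegral_mono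
    fun x => (Real.ofReal_le_enorm (dens G x))))

omit hG in
theorem gInt_nonpos (hn : 0 < n) {g : ℝ → ℝ} (hg0 : ∀ c ∈ Icc (0 : ℝ) 1, g c ≤ 0) :
    gInt hn g ≤ 0 := by
  refine setIntegral_nonpos
    (measurableSet_ball.inter (measurableSet_lt measurable_const (by fun_prop))) fun z hz => ?_
  have h0 : 0 ≤ z ⟨0, hn⟩ / ‖z‖ := div_nonneg (le_of_lt hz.2) (norm_nonneg _)
  exact mul_nonpos_of_nonpos_of_nonneg (hg0 _ ⟨h0, div_le_one_of_le₀
    ((le_abs_self _).trans (PiLp.norm_apply_le z _)) (norm_nonneg _)⟩) h0

variable (hf : ContDiff ℝ 1 f)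

include hf

theorem measurable_gradn : Measurable (gradn G f) :=
  (hG.continuous_gnorm.comp (continuous_id.prodMk (hG.continuous_grad hf))).measurable

theorem measurable_normal : Measurable (normal G f) :=
  ((measurable_gradn hG hf).inv.neg).smul (hG.continuous_grad hf).measurable

theorem measurable_cosVel : Measurable (cosVel G f) := by
  have hB : Continuous fun q : E n × E n × E n => G q.1 q.2.1 q.2.2 :=
    ((hG.smooth.continuous.comp continuous_fst).clm_apply continuous_snd.fst).clm_apply
      continuous_snd.snd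
  exact (hB.measurable.comp (measurable_fst.prodMk
    (measurable_snd.prodMk ((measurable_normal hG hf).comp measurable_fst)))).div
      hG.continuous_gnorm.measurable

variable (hsupp : HasCompactSupport f)

include hsupp

theorem integrable_gradn : Integrable (gradn G f) (vol G) := by
  have := isFiniteMeasureOnCompacts_vol hG
  refine Continuous.integrable_of_hasCompactSupport
    (hG.continuous_gnorm.comp (continuous_id.prodMk (hG.continuous_grad hf))) ?_
  refine hsupp.mono' fun x hx => ?_
  by_contra h
  refine hx ?_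
  have : fderiv ℝ f x = 0 := by
    by_contra h'
    exact h (tsupport_fderiv_subset ℝ (subset_tsupport _ h'))
  show gnorm G x (grad G f x) = 0
  simp [grad, this, gnorm]

theorem lintegral_gradn :
    ∫⁻ x, ENNReal.ofReal (gradn G f x) ∂vol G = ENNReal.ofReal (tvar G f) :=
  (ofReal_integral_eq_lintegral_ofReal (integrable_gradn hG hf hsupp)
    (ae_of_all _ fun _ => gnorm_nonneg _ _ _)).symm

/-- One end point: `P` carries the weights of pairs with an end at time zero. -/
theorem end_bound (hn : 0 < n) {g : ℝ → ℝ} (hg : Continuous g)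
    (hg0 : ∀ c ∈ Icc (0 : ℝ) 1, g c ≤ 0) {σ : ℝ} (hσ : 0 ≤ σ) {e : ℝ} (he : e = 1 ∨ e = -1)
    {P : E n × E n → ℝ → ℝ≥0∞} (hP : Measurable (Function.uncurry P))
    (hom : ∀ x v, ∀ u : ℝ, 0 < u → P (x, u⁻¹ • v) u = ENNReal.ofReal (u⁻¹ ^ 2) * P (x, v) 1)
    (hsec : ∀ p : E n × E n, p.2 ≠ 0 →
      ∫⁻ u in Ioi (0 : ℝ), P p u ≤ ENNReal.ofReal (-e * rate Γ f p 0)) :
    ∫⁻ p, P p 1 * (price σ g (e * cosVel G f p) * ENNReal.ofReal (gnorm G p.1 p.2)⁻¹ *
        ENNReal.ofReal ((gnorm G p.1 p.2)⁻¹ ^ n / n)) ∂liouville G ≤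
      ENNReal.ofReal (σ / 2 * omega n - gInt hn g) * ENNReal.ofReal (tvar G f) := by
  have hB := measurableSet_ball₂ hG
  set B : Set (E n × E n) := {p | gnorm G p.1 p.2 < 1} with hBdef
  set wt : E n × E n → ℝ≥0∞ :=
    fun p => price σ g (e * cosVel G f p) * ENNReal.ofReal (gnorm G p.1 p.2)⁻¹ with hwt
  have hwtm : Measurable wt := by
    have h := measurable_cosVel hG hf
    have h2 : Measurable (price σ g) := (measurable_const.sub hg.measurable).ennreal_ofReal
    exact (h2.comp (measurable_const.mul h)).mul hG.continuous_gnorm.measurable.inv.ennreal_ofReal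
  set K : E n × E n → ℝ → ℝ≥0∞ := fun p u => P p u * wt p with hK
  have hKm : Measurable (Function.uncurry K) := hP.mul (hwtm.comp measurable_fst)
  have hhom : ∀ x v, ∀ u : ℝ, 0 < u → K (x, u⁻¹ • v) u = ENNReal.ofReal u⁻¹ * K (x, v) 1 := by
    intro x v u hu
    simp only [hK, hwt, hom x v u hu, cosVel_smul (inv_pos.2 hu), gnorm_smul,
      abs_of_pos (inv_pos.2 hu)]
    rw [mul_inv, inv_inv, ENNReal.ofReal_mul hu.le]
    have : ENNReal.ofReal (u⁻¹ ^ 2) * ENNReal.ofReal u = ENNReal.ofReal u⁻¹ := by
      rw [← ENNReal.ofReal_mul (by positivity)]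
      congr 1
      field_simp
    rw [← this]
    ring
  have h1 := lintegral_scale hG hn hKm hhom
  calc _ = ∫⁻ p, K p 1 * ENNReal.ofReal ((gnorm G p.1 p.2)⁻¹ ^ n / n) ∂liouville G :=
        lintegral_congr fun p => by simp only [hK, hwt]; ring
    _ = ∫⁻ p in B, (∫⁻ u in Ioi (0 : ℝ), K p u) ∂liouville G := h1.symm
    _ ≤ ∫⁻ p, B.indicator (fun p => ENNReal.ofReal (gradn G f p.1) *
          ENNReal.ofReal (max (e * cosVel G f p) 0 * (σ / 2 - g (e * cosVel G f p)))) p
          ∂liouville G := by
        rw [← lintegral_indicator hB]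
        refine lintegral_mono_ae ((ae_vel_ne_zero hn).mono fun p hp => ?_)
        by_cases hpB : p ∈ B
        swap
        · simp [hpB]
        simp only [indicator_of_mem hpB, hK]
        rw [lintegral_mul_const (wt p)
          (show Measurable fun u => P p u from hP.comp measurable_prodMk_left)]
        refine (mul_le_mul_left (hsec p hp) _).trans ?_
        have ha := hG.gnorm_pos (x := p.1) hp
        have hr : -e * rate Γ f p 0 = gradn G f p.1 * gnorm G p.1 p.2 * (e * cosVel G f p) := by
          rw [rate_zero hG]; ring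
        set c := e * cosVel G f p
        rw [hr]
        simp only [hwt, price]
        rcases le_or_gt c 0 with hc | hc
        · rw [ENNReal.ofReal_eq_zero.2 (show gradn G f p.1 * gnorm G p.1 p.2 * c ≤ 0 from
            mul_nonpos_of_nonneg_of_nonpos (mul_nonneg (gnorm_nonneg _ _ _) ha.le) hc), zero_mul]
          exact zero_le
        · have hc1 : c ≤ 1 := by
            have := abs_le.1 (abs_cosVel_le hG (f := f) p)
            rcases he with rfl | rfl <;> simp only [c] <;> linarith [this.1, this.2]
          have hh : 0 ≤ σ / 2 - g c := by linarith [hg0 c ⟨hc.le, hc1⟩]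
          have hg1 : 0 ≤ gradn G f p.1 := gnorm_nonneg _ _ _
          rw [max_eq_left hc.le, ← ENNReal.ofReal_mul hh, ← ENNReal.ofReal_mul (by positivity),
            ← ENNReal.ofReal_mul hg1]
          refine le_of_eq (congrArg _ ?_)
          field_simp
    _ = ∫⁻ x, ENNReal.ofReal (dens G x) * ENNReal.ofReal (gradn G f x) *
          ∫⁻ v in {v | gnorm G x v < 1},
            ENNReal.ofReal (max (e * cosVel G f (x, v)) 0 * (σ / 2 - g (e * cosVel G f (x, v)))) *
              ENNReal.ofReal (dens G x) := by
        have hm : Measurable fun p : E n × E n => ENNReal.ofReal (gradn G f p.1) *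
            ENNReal.ofReal (max (e * cosVel G f p) 0 * (σ / 2 - g (e * cosVel G f p))) := by
          have := measurable_gradn hG hf
          have := measurable_cosVel hG hf
          have := hg.measurable
          fun_prop
        rw [lintegral_liouville hG (hm.indicator hB)]
        refine lintegral_congr fun x => ?_
        have hs : MeasurableSet {v | gnorm G x v < 1} := hB.preimage measurable_prodMk_left
        rw [← lintegral_indicator hs, ← lintegral_const_mul' _ _ (by finiteness)]
        refine lintegral_congr fun v => ?_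
        classical
        simp only [indicator_apply, hBdef, mem_ofPred_eq]
        split_ifs
        · rw [pow_two (dens G x), ENNReal.ofReal_mul (hG.dens_pos x).le]; ring
        · simp
    _ ≤ ∫⁻ x, ENNReal.ofReal (σ / 2 * omega n - gInt hn g) *
          (ENNReal.ofReal (dens G x) * ENNReal.ofReal (gradn G f x)) := by
        refine lintegral_mono fun x => ?_
        rw [mul_comm (ENNReal.ofReal (σ / 2 * omega n - gInt hn g))]
        by_cases h : grad G f x = 0
        · simp [gradn, h, gnorm]
        refine mul_le_mul_right ?_ _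
        have he' : G x (e • normal G f x) (e • normal G f x) = 1 := by
          simp only [map_smul, smul_apply, smul_eq_mul, normal_unit hG h]
          rcases he with rfl | rfl <;> norm_num
        refine le_trans (le_of_eq ?_) (lintegral_price_le hn hg hg0 hσ)
        rw [← lintegral_hemisphere hG hn x he'
          (h := fun t => ENNReal.ofReal (max t 0 * (σ / 2 - g t))) (by fun_prop)]
        refine lintegral_congr fun v => ?_
        simp only [cosVel, map_smul, smul_eq_mul, mul_div_assoc]
    _ = _ := by
        rw [lintegral_const_mul' _ _ ENNReal.ofReal_ne_top, ← lintegral_gradn hG hf hsupp, vol,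
          lintegral_withDensity_eq_lintegral_mul _ (measurable_dens hG).ennreal_ofReal
            (measurable_gradn hG hf).ennreal_ofReal]
        rfl

end

end Vale.Agent.P219.CH.Core.Chord
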