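import Vale.Agent.P219.CH.Core.Defs
import Vale.Agent.P219.CH.Geo.Basic

/-!
P219, the chord bound: orthonormal frames and hemisphere integrals in a tangent space.
-/

namespace Vale.Agent.P219.CH.Core.Chord

open MeasureTheory Set Filter Topology
open scoped ENNReal RealInnerProductSpace Matrix MatrixOrder

noncomputable section

variable {n : ℕ} {G : Coeff n} (hG : IsMetric G)

include hG

/-- An orthonormal frame, with the density as determinant. -/
theorem exists_frame (x : E n) : ∃ S : E n →ₗ[ℝ] E n,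
    (∀ u v, ⟪S u, S v⟫ = G x u v) ∧ |LinearMap.det S| = dens G x ∧ LinearMap.det S ≠ 0 := by
  classical
  set b := EuclideanSpace.basisFun (Fin n) ℝ with hb
  set M : Matrix (Fin n) (Fin n) ℝ := Matrix.of fun i j => G x (b i) (b j) with hM
  have key : ∀ c : Fin n → ℝ, c ⬝ᵥ M *ᵥ c = G x (∑ i, c i • b i) (∑ i, c i • b i) := fun c => by
    simp only [map_sum, map_smul, sum_apply, smul_apply, smul_eq_mul, dotProduct, Matrix.mulVec,
      hM, Matrix.of_apply]
    simp only [Finset.mul_sum]
    rw [Finset.sum_comm]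
    exact Finset.sum_congr rfl fun i _ => Finset.sum_congr rfl fun j _ => by
      rw [hG.symm x (b j) (b i)]; ring
  have hpsd : M.PosSemidef := Matrix.PosSemidef.of_dotProduct_mulVec_nonneg
    (Matrix.IsHermitian.ext fun i j => hG.symm x (b j) (b i)) fun c => by
      rw [star_trivial, key]
      rcases eq_or_ne (∑ i, c i • b i) 0 with h | h
      · simp [h]
      · exact (hG.pos x _ h).le
  obtain ⟨B, hB⟩ := CStarAlgebra.nonneg_iff_eq_star_mul_self.mp hpsd.nonneg
  set S : E n →ₗ[ℝ] E n := Matrix.toLin b.toBasis b.toBasis B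
  have hSb : ∀ i j, ⟪S (b i), S (b j)⟫ = G x (b i) (b j) := fun i j => by
    have h : ∀ i, S (b i) = ∑ k, B k i • b k := fun i => by
      rw [← OrthonormalBasis.coe_toBasis, Matrix.toLin_self]
    rw [h, h, b.orthonormal.inner_sum, show G x (b i) (b j) = M i j from rfl, hB]
    simp [Matrix.mul_apply, Matrix.star_eq_conjTranspose]
  have hinner : ∀ u v, ⟪S u, S v⟫ = G x u v := fun u v => by
    conv_lhs => rw [← b.sum_repr u, ← b.sum_repr v]
    conv_rhs => rw [← b.sum_repr u, ← b.sum_repr v]
    simp only [map_sum, map_smul, sum_inner, inner_sum, real_inner_smul_left, inner_smul_right,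
      hSb, sum_apply, smul_apply, smul_eq_mul]
  have hdet : LinearMap.det S = B.det := LinearMap.det_toLin _ _
  refine ⟨S, hinner, ?_, ?_⟩
  · have : M.det = B.det ^ 2 := by
      rw [hB, Matrix.det_mul, Matrix.star_eq_conjTranspose, Matrix.det_conjTranspose, star_trivial,
        sq]
    rw [hdet, dens, show (Matrix.of fun i j => G x (EuclideanSpace.single i 1)
      (EuclideanSpace.single j 1)) = M by ext i j; simp [hM, hb], this, Real.sqrt_sq_eq_abs]
  · intro h0
    obtain ⟨u, hu, hu0⟩ := (Submodule.ne_bot_iff _).1 (LinearMap.bot_lt_ker_of_det_eq_zero h0).ne'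
    have := hG.pos x u hu0
    rw [← hinner, LinearMap.mem_ker.1 hu] at this
    simp at this

/-- A function of the angle with a unit vector, integrated over the unit tangent ball. -/
theorem lintegral_hemisphere (hn : 0 < n) (x : E n) {e : E n} (he : G x e e = 1)
    {h : ℝ → ℝ≥0∞} (hh : Measurable h) :
    ∫⁻ v in {v | gnorm G x v < 1}, h (G x v e / gnorm G x v) * ENNReal.ofReal (dens G x) =
      ∫⁻ z in Metric.ball (0 : E n) 1, h (z ⟨0, hn⟩ / ‖z‖) := by
  obtain ⟨S, hS, hd, h0⟩ := exists_frame hG x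
  set e₀ : E n := EuclideanSpace.single ⟨0, hn⟩ 1
  have hse : ‖S e‖ = ‖e₀‖ := by
    rw [norm_eq_sqrt_real_inner (S e), hS, he]
    simp [e₀]
  set R := (ℝ ∙ (S e - e₀))ᗮ.reflection
  have hR : R (S e) = e₀ := Submodule.reflection_sub hse
  set F : E n → ℝ≥0∞ := fun z => (Metric.ball (0 : E n) 1).indicator
    (fun z => h (z ⟨0, hn⟩ / ‖z‖)) z with hF
  have hFm : Measurable F := by
    refine Measurable.indicator ?_ measurableSet_ball
    exact hh.comp ((by fun_prop : Measurable fun z : E n => z ⟨0, hn⟩).div (by fun_prop))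
  have hS' : ∀ v, F (R (S v)) =
      ({v | gnorm G x v < 1}.indicator (fun v => h (G x v e / gnorm G x v))) v := fun v => by
    have h1 : ‖R (S v)‖ = gnorm G x v := by
      rw [R.norm_map, norm_eq_sqrt_real_inner, hS, gnorm]
    have h2 : R (S v) ⟨0, hn⟩ = G x v e := by
      rw [← hS v e, ← R.inner_map_map (S v) (S e), hR]
      simp [e₀, EuclideanSpace.inner_single_right]
    by_cases hv : gnorm G x v < 1
    · simp only [hF]
      rw [indicator_of_mem (show v ∈ {v | gnorm G x v < 1} from hv),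
        indicator_of_mem (mem_ball_zero_iff.2 (h1 ▸ hv)), h1, h2]
    · simp only [hF]
      rw [indicator_of_notMem (show v ∉ {v | gnorm G x v < 1} from hv),
        indicator_of_notMem (fun hz => hv (h1 ▸ mem_ball_zero_iff.1 hz))]
  have hms : MeasurableSet {v | gnorm G x v < 1} := by
    refine (isOpen_lt ?_ continuous_const).measurableSet
    unfold gnorm; fun_prop
  have hmap := Measure.map_linearMap_addHaar_eq_smul_addHaar (μ := (volume : Measure (E n))) h0
  have hm : Measurable fun z => F (R z) := hFm.comp R.continuous.measurable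
  calc ∫⁻ v in {v | gnorm G x v < 1}, h (G x v e / gnorm G x v) * ENNReal.ofReal (dens G x)
      = (∫⁻ v, F (R (S v))) * ENNReal.ofReal (dens G x) := by
        rw [lintegral_mul_const' _ _ ENNReal.ofReal_ne_top, ← lintegral_indicator hms]
        simp only [hS']
    _ = (∫⁻ z, F (R z) ∂(Measure.map S volume)) * ENNReal.ofReal (dens G x) := by
        rw [lintegral_map hm S.continuous_of_finiteDimensional.measurable]
    _ = ∫⁻ z, F (R z) := by
        rw [hmap, lintegral_smul_measure, smul_eq_mul, mul_right_comm, ← ENNReal.ofReal_mul (abs_nonneg _),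
          abs_inv, hd, inv_mul_cancel₀ (hG.dens_pos x).ne', ENNReal.ofReal_one, one_mul]
    _ = ∫⁻ z, F z := by
        rw [R.measurePreserving.lintegral_comp hFm]
    _ = _ := by rw [hF, lintegral_indicator measurableSet_ball]

/-- The volume of the unit tangent ball. -/
theorem lintegral_tangent_ball (hn : 0 < n) (x : E n) :
    ∫⁻ _v in {v | gnorm G x v < 1}, ENNReal.ofReal (dens G x) = ENNReal.ofReal (omega n) := by
  set e₀ : E n := EuclideanSpace.single ⟨0, hn⟩ 1
  have h0 : e₀ ≠ 0 := by simp [e₀]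
  have hp := hG.pos x e₀ h0
  have he : G x ((gnorm G x e₀)⁻¹ • e₀) ((gnorm G x e₀)⁻¹ • e₀) = 1 := by
    simp only [map_smul, smul_apply, smul_eq_mul, gnorm]
    rw [← mul_assoc, ← mul_inv, Real.mul_self_sqrt hp.le, inv_mul_cancel₀ hp.ne']
  have h := lintegral_hemisphere hG hn x he (h := fun _ => 1) measurable_const
  simp only [one_mul] at h
  rw [h, omega, ENNReal.ofReal_toReal measure_ball_lt_top.ne, setLIntegral_one]

omit hG

/-- The average of the price of an end point. -/
theorem lintegral_price_le (hn : 0 < n) {g : ℝ → ℝ} (hg : Continuous g)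
    (hg0 : ∀ c ∈ Icc (0 : ℝ) 1, g c ≤ 0) {σ : ℝ} (hσ : 0 ≤ σ) :
    ∫⁻ z in Metric.ball (0 : E n) 1,
        ENNReal.ofReal (max (z ⟨0, hn⟩ / ‖z‖) 0 * (σ / 2 - g (z ⟨0, hn⟩ / ‖z‖))) ≤
      ENNReal.ofReal (σ / 2 * omega n - gInt hn g) := by
  set T : E n → ℝ := fun z => z ⟨0, hn⟩ / ‖z‖ with hT
  have hTm : Measurable T := (by fun_prop : Measurable fun z : E n => z ⟨0, hn⟩).div (by fun_prop)
  have hT1 : ∀ z, |T z| ≤ 1 := fun z => by
    rw [hT, abs_div, abs_norm]
    exact div_le_one_of_le₀ (PiLp.norm_apply_le z _) (norm_nonneg _)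
  obtain ⟨B, hB⟩ := isCompact_Icc.exists_bound_of_continuousOn
    (hg.continuousOn : ContinuousOn g (Icc (-1 : ℝ) 1))
  have hfin : volume (Metric.ball (0 : E n) 1) ≠ ∞ := measure_ball_lt_top.ne
  have int : ∀ F : ℝ → ℝ, Continuous F → ∀ C, (∀ t ∈ Icc (-1 : ℝ) 1, |F t| ≤ C) →
      IntegrableOn (fun z => F (T z)) (Metric.ball (0 : E n) 1) := fun F hF C hC =>
    Measure.integrableOn_of_bounded hfin (hF.measurable.comp hTm).aestronglyMeasurable (M := C)
      (ae_of_all _ fun z => hC _ (abs_le.1 (hT1 z)))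
  have hp : IntegrableOn (fun z => max (T z) 0 * (σ / 2 - g (T z))) (Metric.ball (0 : E n) 1) :=
    int (fun t => max t 0 * (σ / 2 - g t)) (by fun_prop) (σ / 2 + B) fun t ht => by
      rw [abs_mul, abs_of_nonneg (le_max_right t 0)]
      have h1 : |σ / 2 - g t| ≤ σ / 2 + B :=
        (abs_sub _ _).trans (add_le_add (by rw [abs_of_nonneg (by positivity)]) (hB t ht))
      have h2 : max t 0 ≤ 1 := max_le ht.2 zero_le_one
      nlinarith [abs_nonneg (σ / 2 - g t), le_max_right t 0]
  have hpos : ∀ z, 0 ≤ max (T z) 0 * (σ / 2 - g (T z)) := fun z => by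
    rcases le_total (T z) 0 with h | h
    · simp [h]
    · exact mul_nonneg (le_max_right _ _)
        (by linarith [hg0 _ ⟨h, (abs_le.1 (hT1 z)).2⟩])
  rw [← ofReal_integral_eq_lintegral_ofReal hp (ae_of_all _ hpos)]
  refine ENNReal.ofReal_le_ofReal ?_
  have hsplit : ∫ z in Metric.ball (0 : E n) 1, max (T z) 0 * (σ / 2 - g (T z)) =
      ∫ z in Metric.ball (0 : E n) 1 ∩ {z | 0 < z ⟨0, hn⟩},
        max (T z) 0 * (σ / 2 - g (T z)) := by
    refine setIntegral_eq_of_subset_of_forall_sdiff_eq_zero measurableSet_ball inter_subset_left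
      (fun z hz => ?_)
    have hz0 : z ⟨0, hn⟩ ≤ 0 := not_lt.1 fun h => hz.2 ⟨hz.1, h⟩
    rw [max_eq_right (div_nonpos_of_nonpos_of_nonneg hz0 (norm_nonneg _)), zero_mul]
  set A := Metric.ball (0 : E n) 1 ∩ {z | 0 < z ⟨0, hn⟩}
  have hA : MeasurableSet A :=
    measurableSet_ball.inter (measurableSet_lt measurable_const (by fun_prop))
  have i1 : IntegrableOn T A := (int id continuous_id 1 fun t ht => abs_le.2 ht).mono_set
    inter_subset_left
  have i2 : IntegrableOn (fun z => g (T z) * T z) A :=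
    (int (fun t => g t * t) (by fun_prop) B fun t ht => by
      rw [abs_mul]
      exact (mul_le_mul (hB t ht) (abs_le.2 ht) (abs_nonneg _)
        ((norm_nonneg _).trans (hB t ht))).trans (mul_one B).le).mono_set inter_subset_left
  have hAeq : ∫ z in A, max (T z) 0 * (σ / 2 - g (T z)) =
      σ / 2 * (∫ z in A, T z) - ∫ z in A, g (T z) * T z := by
    rw [← integral_const_mul, ← integral_sub (i1.const_mul _) i2]
    refine setIntegral_congr_fun hA fun z hz => ?_
    rw [max_eq_left (div_nonneg (le_of_lt hz.2) (norm_nonneg _))]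
    ring
  have hK : ∫ z in A, T z ≤ omega n := by
    have hAf : volume A ≠ ∞ := ne_top_of_le_ne_top hfin (measure_mono inter_subset_left)
    calc ∫ z in A, T z ≤ ∫ _z in A, (1 : ℝ) :=
          setIntegral_mono_on i1 (integrableOn_const hAf) hA fun z _ => (abs_le.1 (hT1 z)).2
      _ = (volume A).toReal := by simp [Measure.real]
      _ ≤ omega n := ENNReal.toReal_mono hfin (measure_mono inter_subset_left)
  rw [hsplit, hAeq]
  show σ / 2 * (∫ z in A, T z) - gInt hn g ≤ _
  have := mul_le_mul_of_nonneg_left hK (by positivity : 0 ≤ σ / 2)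
  linarith

end

end Vale.Agent.P219.CH.Core.Chord
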