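import Vale.Agent.P219.CH.Core.ChordPairs
import Vale.Agent.P219.CH.Core.ChordFrame

/-!
P219, the chord bound: the matched pairs of a function along geodesics, integrated over the tangent
bundle. The anchor is moved by the geodesic flow and the scale by the radial substitution.
-/

namespace Vale.Agent.P219.CH.Core.Chord

open MeasureTheory Set Filter Topology
open scoped ENNReal

noncomputable section

variable {n : ℕ} {G : Coeff n}

/-- The function along the geodesic. -/
def along (Γ : Geo G) (f : E n → ℝ) (p : E n × E n) (t : ℝ) : ℝ := f (Γ.flow t p).1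

/-- Its derivative. -/
def rate (Γ : Geo G) (f : E n → ℝ) (p : E n × E n) (t : ℝ) : ℝ :=
  fderiv ℝ f (Γ.flow t p).1 (Γ.flow t p).2

/-- The pair at times `s`, `t`, with its weight. -/
def pairAt (Γ : Geo G) (f : E n → ℝ) (p : E n × E n) (s t : ℝ) : ℝ≥0∞ :=
  {q : ℝ × ℝ | q ∈ matched (along Γ f p)}.indicator
    (fun q => ENNReal.ofReal (rate Γ f p q.1) * ENNReal.ofReal (-rate Γ f p q.2)) (s, t)

/-- The cosine of the velocity with the normal. -/
def cosVel (G : Coeff n) (f : E n → ℝ) (p : E n × E n) : ℝ :=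
  G p.1 p.2 (normal G f p.1) / gnorm G p.1 p.2

variable {Γ : Geo G} {f : E n → ℝ}

section Basic

theorem continuous_flow (Γ : Geo G) :
    Continuous fun q : (E n × E n) × ℝ => Γ.flow q.2 q.1 :=
  Γ.flow_c1.continuous.comp (continuous_snd.prodMk continuous_fst)

theorem measurable_flow (Γ : Geo G) (t : ℝ) : Measurable (Γ.flow t) :=
  ((continuous_flow Γ).comp (continuous_id.prodMk continuous_const)).measurable

theorem hasDerivAt_along (hf : ContDiff ℝ 1 f) (p : E n × E n) (t : ℝ) :
    HasDerivAt (along Γ f p) (rate Γ f p t) t := by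
  have h := ((Γ.flow_geodesic p).1 t).1
  rw [(Γ.flow_geodesic p).2 t] at h
  exact (hf.differentiable one_ne_zero _).hasFDerivAt.comp_hasDerivAt t h

theorem deriv_along (hf : ContDiff ℝ 1 f) (p : E n × E n) : deriv (along Γ f p) = rate Γ f p :=
  funext fun t => (hasDerivAt_along hf p t).deriv

theorem contDiff_along (hf : ContDiff ℝ 1 f) (p : E n × E n) : ContDiff ℝ 1 (along Γ f p) :=
  hf.comp (contDiff_fst.comp (Γ.flow_c1.comp (contDiff_id.prodMk contDiff_const)))

theorem continuous_along (hf : ContDiff ℝ 1 f) :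
    Continuous (Function.uncurry (along Γ f)) :=
  hf.continuous.comp ((continuous_flow Γ).fst)

theorem continuous_rate (hf : ContDiff ℝ 1 f) : Continuous (Function.uncurry (rate Γ f)) :=
  ((hf.continuous_fderiv one_ne_zero).comp (continuous_flow Γ).fst).clm_apply
    (continuous_flow Γ).snd

theorem measurable_pairAt (hf : ContDiff ℝ 1 f) :
    Measurable fun q : (E n × E n) × ℝ × ℝ => pairAt Γ f q.1 q.2.1 q.2.2 := by
  have hr := (continuous_rate (Γ := Γ) hf).measurable
  have h : (fun q : (E n × E n) × ℝ × ℝ => pairAt Γ f q.1 q.2.1 q.2.2) =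
      {q : (E n × E n) × ℝ × ℝ | q.2 ∈ matched (along Γ f q.1)}.indicator fun q =>
        ENNReal.ofReal (rate Γ f q.1 q.2.1) * ENNReal.ofReal (-rate Γ f q.1 q.2.2) := by
    funext q
    classical
    simp only [pairAt, indicator_apply, mem_ofPred_eq]
  rw [h]
  refine Measurable.indicator ?_ (measurableSet_matched (continuous_along hf))
  exact ((hr.comp (measurable_fst.prodMk measurable_snd.fst)).ennreal_ofReal).mul
    ((hr.comp (measurable_fst.prodMk measurable_snd.snd)).neg.ennreal_ofReal)

theorem along_flow (s : ℝ) (p : E n × E n) :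
    along Γ f (Γ.flow s p) = fun t => along Γ f p (t + s) := by
  funext t; rw [along, along, Γ.flow_add]

theorem rate_flow (s : ℝ) (p : E n × E n) (t : ℝ) :
    rate Γ f (Γ.flow s p) t = rate Γ f p (t + s) := by
  rw [rate, rate, Γ.flow_add]

theorem pairAt_flow (r : ℝ) (p : E n × E n) (s t : ℝ) :
    pairAt Γ f (Γ.flow r p) s t = pairAt Γ f p (s + r) (t + r) := by
  classical
  simp only [pairAt, indicator_apply, mem_ofPred_eq, along_flow, rate_flow, mem_matched_shift]

theorem pairAt_smul {c : ℝ} (hc : 0 < c) (x v : E n) (s t : ℝ) :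
    pairAt Γ f (x, c • v) s t = ENNReal.ofReal (c ^ 2) * pairAt Γ f (x, v) (c * s) (c * t) := by
  classical
  have ha : along Γ f (x, c • v) = fun t => along Γ f (x, v) (c * t) := by
    funext t; rw [along, along, Γ.flow_scale]
  have hr : ∀ t, rate Γ f (x, c • v) t = c * rate Γ f (x, v) (c * t) := fun t => by
    rw [rate, rate, Γ.flow_scale, map_smul, smul_eq_mul]
  simp only [pairAt, indicator_apply, mem_ofPred_eq, ha, hr, mem_matched_scale _ hc, ← mul_neg,
    ENNReal.ofReal_mul hc.le, pow_two]
  split_ifs <;> ring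

theorem gnorm_flow (t : ℝ) (p : E n × E n) :
    gnorm G (Γ.flow t p).1 (Γ.flow t p).2 = gnorm G p.1 p.2 := Γ.flow_speed t p

theorem flow_neg_flow (Γ : Geo G) (p : E n × E n) : Γ.flow (-1) (Γ.flow 1 p) = p := by
  rw [← Γ.flow_add, neg_add_cancel, Γ.flow_zero]

end Basic

variable (hG : IsMetric G)

include hG

theorem measurable_dens : Measurable (dens G) := hG.contDiff_dens.continuous.measurable

omit hG in
instance sfinite_liouville : SFinite (liouville G) := by
  unfold liouville; infer_instance

/-- Integrals for the Liouville measure. -/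
theorem lintegral_liouville {F : E n × E n → ℝ≥0∞} (hF : Measurable F) :
    ∫⁻ p, F p ∂liouville G = ∫⁻ x, ∫⁻ v, ENNReal.ofReal (dens G x ^ 2) * F (x, v) := by
  have hd : Measurable fun p : E n × E n => ENNReal.ofReal (dens G p.1 ^ 2) :=
    (((measurable_dens hG).comp measurable_fst).pow_const 2).ennreal_ofReal
  rw [liouville, lintegral_withDensity_eq_lintegral_mul _ hd hF,
    lintegral_prod _ (hd.mul hF).aemeasurable]
  rfl

omit hG in
theorem ae_vel_ne_zero (hn : 0 < n) : ∀ᵐ p ∂liouville G, p.2 ≠ 0 := by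
  have : Nonempty (Fin n) := ⟨⟨0, hn⟩⟩
  have h : ∀ᵐ p ∂((volume : Measure (E n)).prod (volume : Measure (E n))), p.2 ≠ 0 := by
    rw [ae_iff]
    simp only [not_not]
    rw [show {p : E n × E n | p.2 = 0} = univ ×ˢ {0} by ext; simp, Measure.prod_prod]
    simp
  exact (withDensity_absolutelyContinuous _ _).ae_le h

theorem measurableSet_ball₂ : MeasurableSet {p : E n × E n | gnorm G p.1 p.2 < 1} :=
  (isOpen_lt hG.continuous_gnorm continuous_const).measurableSet

/-- The change of scale. -/
theorem lintegral_scale (hn : 0 < n) {K : E n × E n → ℝ → ℝ≥0∞}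
    (hK : Measurable (Function.uncurry K))
    (hom : ∀ x v, ∀ u : ℝ, 0 < u → K (x, u⁻¹ • v) u = ENNReal.ofReal u⁻¹ * K (x, v) 1) :
    ∫⁻ p in {p | gnorm G p.1 p.2 < 1}, (∫⁻ u in Ioi (0 : ℝ), K p u) ∂liouville G =
      ∫⁻ p, K p 1 * ENNReal.ofReal ((gnorm G p.1 p.2)⁻¹ ^ n / n) ∂liouville G := by
  have hB := measurableSet_ball₂ hG
  set B : Set (E n × E n) := {p | gnorm G p.1 p.2 < 1}
  have hK1 : Measurable fun p => K p 1 := hK.comp (measurable_id.prodMk measurable_const)
  have hg : Measurable fun q : (E n × E n) × ℝ => gnorm G q.1.1 q.1.2 :=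
    (hG.continuous_gnorm.comp continuous_fst).measurable
  set w : (E n × E n) → ℝ → ℝ≥0∞ := fun p u =>
    (Ioi (gnorm G p.1 p.2)).indicator (fun u => ENNReal.ofReal (u⁻¹ ^ (n + 1))) u with hw
  have hwm : Measurable (Function.uncurry w) := by
    have e : Function.uncurry w = {q : (E n × E n) × ℝ | gnorm G q.1.1 q.1.2 < q.2}.indicator
        fun q => ENNReal.ofReal (q.2⁻¹ ^ (n + 1)) := by
      funext q; classical simp only [Function.uncurry, hw, indicator_apply, mem_Ioi, mem_ofPred_eq]
    rw [e]
    exact Measurable.indicator (by fun_prop) (measurableSet_lt hg measurable_snd)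
  have hfib : ∀ u : ℝ, 0 < u →
      ∫⁻ p, B.indicator (fun p => K p u) p ∂liouville G =
        ∫⁻ p, K p 1 * w p u ∂liouville G := by
    intro u hu
    have hm : Measurable (B.indicator fun p => K p u) :=
      (hK.comp (measurable_id.prodMk measurable_const)).indicator hB
    rw [lintegral_liouville hG hm, lintegral_liouville hG (F := fun p => K p 1 * w p u)
      (hK1.mul (hwm.comp (measurable_id.prodMk measurable_const)))]
    refine lintegral_congr fun x => ?_
    have hsc := Measure.map_addHaar_smul (volume : Measure (E n)) (inv_ne_zero hu.ne')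
    rw [finrank_euclideanSpace_fin] at hsc
    set F : E n → ℝ≥0∞ := fun v => ENNReal.ofReal (dens G x ^ 2) * B.indicator (fun p => K p u) (x, v)
    have hFm : Measurable F := (hm.comp measurable_prodMk_left).const_mul _
    have h1 : ∫⁻ v, F (u⁻¹ • v) = ENNReal.ofReal (u ^ n) * ∫⁻ v, F v := by
      rw [← lintegral_map hFm (by fun_prop), hsc, lintegral_smul_measure, smul_eq_mul, inv_pow,
        inv_inv, abs_of_pos (pow_pos hu n)]
    have h2 : ∫⁻ v, F v = ENNReal.ofReal (u⁻¹ ^ n) * ∫⁻ v, F (u⁻¹ • v) := by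
      rw [h1, ← mul_assoc, ← ENNReal.ofReal_mul (by positivity), ← mul_pow,
        inv_mul_cancel₀ hu.ne', one_pow, ENNReal.ofReal_one, one_mul]
    rw [h2, ← lintegral_const_mul' _ _ ENNReal.ofReal_ne_top]
    refine lintegral_congr fun v => ?_
    have hmem : (x, u⁻¹ • v) ∈ B ↔ u ∈ Ioi (gnorm G x v) := by
      simp only [B, mem_ofPred_eq, mem_Ioi, gnorm_smul, abs_inv, abs_of_pos hu]
      rw [inv_mul_lt_iff₀ hu, mul_one]
    classical
    simp only [F, hw, indicator_apply, hmem, hom x v u hu]
    split_ifs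
    · rw [pow_succ u⁻¹ n, ENNReal.ofReal_mul (by positivity)]; ring
    · simp
  calc ∫⁻ p in B, (∫⁻ u in Ioi (0 : ℝ), K p u) ∂liouville G
      = ∫⁻ p, (∫⁻ u in Ioi (0 : ℝ), B.indicator (fun p => K p u) p) ∂liouville G := by
        rw [← lintegral_indicator hB]
        refine lintegral_congr fun p => ?_
        by_cases hp : p ∈ B <;> simp [hp]
    _ = ∫⁻ u in Ioi (0 : ℝ), ∫⁻ p, B.indicator (fun p => K p u) p ∂liouville G := by
        refine lintegral_lintegral_swap ?_
        have e : (Function.uncurry fun p u => B.indicator (fun p => K p u) p) =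
            (Prod.fst ⁻¹' B : Set ((E n × E n) × ℝ)).indicator (Function.uncurry K) := by
          funext q; classical simp [Function.uncurry, indicator_apply]
        rw [e]
        exact (hK.indicator (measurable_fst hB)).aemeasurable
    _ = ∫⁻ u in Ioi (0 : ℝ), ∫⁻ p, K p 1 * w p u ∂liouville G :=
        setLIntegral_congr_fun measurableSet_Ioi fun u hu => hfib u hu
    _ = ∫⁻ p, (∫⁻ u in Ioi (0 : ℝ), K p 1 * w p u) ∂liouville G := by
        refine (lintegral_lintegral_swap ?_).symm
        exact ((hK1.comp measurable_fst).mul hwm).aemeasurable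
    _ = _ := by
        refine lintegral_congr_ae ((ae_vel_ne_zero hn).mono fun p hp => ?_)
        have ha := hG.gnorm_pos (x := p.1) hp
        dsimp only
        rw [lintegral_const_mul (K p 1)
          (show Measurable fun u => w p u from hwm.comp measurable_prodMk_left)]
        congr 1
        simp only [hw]
        rw [setLIntegral_indicator measurableSet_Ioi,
          inter_eq_left.2 (Ioi_subset_Ioi ha.le), lintegral_scale_tail hn ha]

omit hG in
/-- Functions along geodesics have compact support. -/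
theorem hasCompactSupport_along (hsupp : HasCompactSupport f) {p : E n × E n} (hv : p.2 ≠ 0) :
    HasCompactSupport (along Γ f p) := by
  obtain ⟨M, hM⟩ := hsupp.exists_bound_of_continuousOn (f := Γ.logm p.1)
    (Γ.logm_c1.continuous.comp (continuous_const.prodMk continuous_id)).continuousOn
  refine HasCompactSupport.of_support_subset_isCompact
    (isCompact_closedBall (0 : ℝ) (M / ‖p.2‖)) fun t ht => ?_
  have h := hM _ (subset_tsupport f ht)
  have e : (Γ.flow t p).1 = (Γ.flow 1 (p.1, t • p.2)).1 := by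
    rw [Γ.flow_scale]; simp
  rw [e, Γ.logm_exp, norm_smul] at h
  rw [mem_closedBall_zero_iff, le_div_iff₀ (norm_pos_iff.2 hv)]
  exact h

variable (hf : ContDiff ℝ 1 f) (hsupp : HasCompactSupport f) (h01 : ∀ x, f x ∈ Icc (0 : ℝ) 1)

include hf hsupp h01

/-- A function of the origin bounded by matched pairs. -/
theorem length_bound (hn : 0 < n) (hL : LineStmt) :
    ENNReal.ofReal (omega n) * ∫⁻ x, ENNReal.ofReal (f x ^ 2) ∂vol G ≤
      ∫⁻ p, pairAt Γ f p 0 1 * ENNReal.ofReal ((gnorm G p.1 p.2)⁻¹ ^ n / n) ∂liouville G := by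
  have hB := measurableSet_ball₂ hG
  set B : Set (E n × E n) := {p | gnorm G p.1 p.2 < 1}
  have hpm : ∀ {α : Type} [MeasurableSpace α] {a : α → E n × E n} {b c : α → ℝ}, Measurable a →
      Measurable b → Measurable c → Measurable fun q => pairAt Γ f (a q) (b q) (c q) :=
    fun ha hb hc => (measurable_pairAt hf).comp (ha.prodMk (hb.prodMk hc))
  set K : E n × E n → ℝ → ℝ≥0∞ := fun p u => ENNReal.ofReal u * pairAt Γ f p 0 u with hK
  have hKm : Measurable (Function.uncurry K) :=
    measurable_snd.ennreal_ofReal.mul (hpm measurable_fst measurable_const measurable_snd)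
  have hhom : ∀ x v, ∀ u : ℝ, 0 < u → K (x, u⁻¹ • v) u = ENNReal.ofReal u⁻¹ * K (x, v) 1 := by
    intro x v u hu
    simp only [hK]
    rw [pairAt_smul (inv_pos.2 hu), mul_zero, inv_mul_cancel₀ hu.ne', ← mul_assoc,
      ← ENNReal.ofReal_mul hu.le, ENNReal.ofReal_one, one_mul]
    congr 2
    field_simp
  refine le_trans ?_ (le_of_eq ((lintegral_scale hG hn hKm hhom).trans (by simp [hK])))
  have hd := measurable_dens hG
  have hfm := hf.continuous.measurable
  have hlhs : ∫⁻ p in B, ENNReal.ofReal (along Γ f p 0 ^ 2) ∂liouville G =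
      ENNReal.ofReal (omega n) * ∫⁻ x, ENNReal.ofReal (f x ^ 2) ∂vol G := by
    have hm : Measurable fun p : E n × E n => ENNReal.ofReal (f p.1 ^ 2) := by fun_prop
    simp only [along, Γ.flow_zero]
    rw [← lintegral_indicator hB, lintegral_liouville hG (hm.indicator hB), vol,
      lintegral_withDensity_eq_lintegral_mul _ hd.ennreal_ofReal (hfm.pow_const 2).ennreal_ofReal,
      ← lintegral_const_mul' _ _ ENNReal.ofReal_ne_top]
    refine lintegral_congr fun x => ?_
    have e : ∀ v, ENNReal.ofReal (dens G x ^ 2) * B.indicator (fun p => ENNReal.ofReal (f p.1 ^ 2))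
        (x, v) = ENNReal.ofReal (dens G x) * ENNReal.ofReal (f x ^ 2) *
          {v | gnorm G x v < 1}.indicator (fun _ => ENNReal.ofReal (dens G x)) v := fun v => by
      classical
      simp only [indicator_apply, B, mem_ofPred_eq]
      split_ifs
      · rw [pow_two (dens G x), ENNReal.ofReal_mul (hG.dens_pos x).le]; ring
      · simp
    simp only [e, Pi.mul_apply]
    rw [lintegral_const_mul' _ _ (by finiteness), lintegral_indicator, lintegral_tangent_ball hG hn x]
    · ring
    · exact hB.preimage measurable_prodMk_left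
  rw [← hlhs]
  set S : ℝ → Set ℝ := fun u => Icc (-u) 0 with hS
  have step : ∀ᵐ p ∂liouville G, B.indicator (fun p => ENNReal.ofReal (along Γ f p 0 ^ 2)) p ≤
      ∫⁻ s, ∫⁻ u, (S u).indicator
        (fun s => B.indicator (fun p => pairAt Γ f p 0 u) (Γ.flow s p)) s := by
    refine (ae_vel_ne_zero hn).mono fun p hp => ?_
    by_cases hpB : p ∈ B
    swap
    · simp [hpB]
    have hBs : ∀ s, Γ.flow s p ∈ B := fun s => by
      show gnorm G _ _ < 1
      rw [gnorm_flow]; exact hpB
    have hM := (hL (along Γ f p) (contDiff_along hf p) (hasCompactSupport_along hsupp hp)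
      fun t => h01 _)
    rw [indicator_of_mem hpB]
    refine (hM.2.2.2 0).trans (le_trans ?_ (le_of_eq (lintegral_congr fun s =>
      lintegral_sub_right_eq_self (fun u => (S u).indicator
        (fun s => B.indicator (fun p => pairAt Γ f p 0 u) (Γ.flow s p)) s) s)))
    rw [← lintegral_indicator measurableSet_Iic]
    refine lintegral_mono fun s => ?_
    by_cases hs : s ≤ 0
    swap
    · simp [hs]
    rw [indicator_of_mem (show s ∈ Iic 0 from hs)]
    rw [← lintegral_indicator (by
      exact measurableSet_Ici.inter (hM.1.preimage measurable_prodMk_left))]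
    refine lintegral_mono fun t => ?_
    by_cases ht : 0 ≤ t ∧ (s, t) ∈ matched (along Γ f p)
    · rw [indicator_of_mem (show t ∈ {t | 0 ≤ t ∧ (s, t) ∈ matched (along Γ f p)} from ht),
        indicator_of_mem (show s ∈ S (t - s) from ⟨by linarith [ht.1], hs⟩),
        indicator_of_mem (hBs s), pairAt_flow, zero_add, sub_add_cancel, pairAt,
        indicator_of_mem (show (s, t) ∈ {q | q ∈ matched (along Γ f p)} from ht.2), deriv_along hf]
    · rw [indicator_of_notMem (show t ∉ {t | 0 ≤ t ∧ (s, t) ∈ matched (along Γ f p)} from ht)]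
      exact zero_le
  rw [← lintegral_indicator hB]
  refine (lintegral_mono_ae step).trans (le_of_eq ?_)
  have hBm : Measurable fun q : (E n × E n) × ℝ × ℝ =>
      (S q.2.2).indicator
        (fun s => B.indicator (fun p => pairAt Γ f p 0 q.2.2) (Γ.flow s q.1)) q.2.1 := by
    have hfl : Measurable fun q : (E n × E n) × ℝ × ℝ => Γ.flow q.2.1 q.1 :=
      ((continuous_flow Γ).comp (continuous_fst.prodMk continuous_snd.fst)).measurable
    have e : (fun q : (E n × E n) × ℝ × ℝ => (S q.2.2).indicator
        (fun s => B.indicator (fun p => pairAt Γ f p 0 q.2.2) (Γ.flow s q.1)) q.2.1) =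
        ({q : (E n × E n) × ℝ × ℝ | -q.2.2 ≤ q.2.1} ∩ {q | q.2.1 ≤ 0} ∩
          (fun q => Γ.flow q.2.1 q.1) ⁻¹' B).indicator
        fun q => pairAt Γ f (Γ.flow q.2.1 q.1) 0 q.2.2 := by
      funext q
      classical
      simp only [indicator_apply, hS, mem_Icc, mem_inter_iff, mem_ofPred_eq, mem_preimage]
      split_ifs <;> first | rfl | tauto
    rw [e]
    exact Measurable.indicator (hpm hfl measurable_const measurable_snd.snd)
      (((measurableSet_le measurable_snd.snd.neg measurable_snd.fst).inter
        (measurableSet_le measurable_snd.fst measurable_const)).inter (hfl hB))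
  set F : E n × E n → ℝ → ℝ → ℝ≥0∞ := fun p s u =>
    (S u).indicator (fun s => B.indicator (fun p => pairAt Γ f p 0 u) (Γ.flow s p)) s with hF
  have hFm : Measurable fun q : (E n × E n) × ℝ × ℝ => F q.1 q.2.1 q.2.2 := hBm
  have sw1 : ∀ p, ∫⁻ s, ∫⁻ u, F p s u = ∫⁻ u, ∫⁻ s, F p s u := fun p =>
    lintegral_lintegral_swap (hFm.comp measurable_prodMk_left).aemeasurable
  have sw2 : ∫⁻ p, (∫⁻ u, ∫⁻ s, F p s u) ∂liouville G =
      ∫⁻ u, ∫⁻ p, (∫⁻ s, F p s u) ∂liouville G :=
    lintegral_lintegral_swap (Measurable.lintegral_prod_right'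
      (f := fun q : ((E n × E n) × ℝ) × ℝ => F q.1.1 q.2 q.1.2)
      (hFm.comp (measurable_fst.fst.prodMk (measurable_snd.prodMk measurable_fst.snd)))).aemeasurable
  show ∫⁻ p, (∫⁻ s, ∫⁻ u, F p s u) ∂liouville G = _
  rw [lintegral_congr sw1, sw2]
  have key : ∀ u, ∫⁻ p, (∫⁻ s, (S u).indicator
      (fun s => B.indicator (fun p => pairAt Γ f p 0 u) (Γ.flow s p)) s) ∂liouville G =
      ENNReal.ofReal u * ∫⁻ p in B, pairAt Γ f p 0 u ∂liouville G := by
    intro u
    rw [lintegral_lintegral_swap (f := fun (p : E n × E n) (s : ℝ) => (S u).indicator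
        (fun s => B.indicator (fun p => pairAt Γ f p 0 u) (Γ.flow s p)) s)
      (hBm.comp (measurable_fst.prodMk (measurable_snd.prodMk measurable_const))).aemeasurable]
    have hSm : MeasurableSet (S u) := measurableSet_Icc
    rw [← lintegral_indicator hB]
    have hin : Measurable (B.indicator fun p => pairAt Γ f p 0 u) :=
      (hpm measurable_id measurable_const measurable_const).indicator hB
    have e : ∀ s, ∫⁻ p, (S u).indicator
        (fun s => B.indicator (fun p => pairAt Γ f p 0 u) (Γ.flow s p)) s ∂liouville G =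
        (S u).indicator (fun _ => ∫⁻ p, B.indicator (fun p => pairAt Γ f p 0 u) p ∂liouville G) s := by
      intro s
      by_cases hs : s ∈ S u
      · simp only [indicator_of_mem hs]
        exact (Γ.liouville_inv s).lintegral_comp hin
      · simp [indicator_of_notMem hs]
    simp only [e]
    rw [lintegral_indicator hSm, setLIntegral_const, hS, Real.volume_Icc, mul_comm, zero_sub,
      neg_neg]
  simp only [hF, key]
  have hinner : ∀ u, ENNReal.ofReal u * ∫⁻ p in B, pairAt Γ f p 0 u ∂liouville G =
      (Ioi (0 : ℝ)).indicator (fun u => ∫⁻ p in B, K p u ∂liouville G) u := fun u => by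
    by_cases hu : u ∈ Ioi (0 : ℝ)
    · rw [indicator_of_mem hu, ← lintegral_const_mul' _ _ ENNReal.ofReal_ne_top]
    · rw [indicator_of_notMem hu, ENNReal.ofReal_eq_zero.2 (not_lt.1 hu), zero_mul]
  simp only [hinner]
  rw [lintegral_indicator measurableSet_Ioi, lintegral_lintegral_swap]
  exact (hKm.comp measurable_swap).aemeasurable

end

end Vale.Agent.P219.CH.Core.Chord
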