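import Vale.Agent.P219.CH.Core.Defs

/-!
P219, the chord bound: matched pairs under changes of time, their joint measurability, and the
radial integrals of the change of scale.
-/

namespace Vale.Agent.P219.CH.Core.Chord

open MeasureTheory Set Filter Topology
open scoped ENNReal

noncomputable section

/-- Matched pairs follow an increasing change of time. -/
theorem mem_matched_comp (φ : ℝ → ℝ) (e : ℝ ≃o ℝ) (s t : ℝ) :
    (s, t) ∈ matched (fun u => φ (e u)) ↔ (e s, e t) ∈ matched φ := by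
  have key : ∀ (ψ : ℝ → ℝ) (e : ℝ ≃o ℝ) (s t : ℝ),
      (s, t) ∈ matched (fun u => ψ (e u)) → (e s, e t) ∈ matched ψ := by
    intro ψ e s t h
    simp only [matched, mem_ofPred_eq] at h ⊢
    obtain ⟨hst, ⟨h1, h2, h3⟩ | ⟨h1, h2, h3⟩⟩ := h
    · refine ⟨e.strictMono hst, Or.inl ⟨h1, fun u hu => ?_, fun t' ht' hw => ?_⟩⟩
      · simpa using h2 (e.symm u) ⟨e.lt_symm_apply.2 hu.1, e.symm_apply_le.2 hu.2⟩
      · simpa using h3 (e.symm t') (e.lt_symm_apply.2 ht') fun u hu =>
          hw _ ⟨e.monotone hu.1, e.le_symm_apply.1 hu.2⟩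
    · refine ⟨e.strictMono hst, Or.inr ⟨h1, fun u hu => ?_, fun s' hs' hw => ?_⟩⟩
      · simpa using h2 (e.symm u) ⟨e.le_symm_apply.2 hu.1, e.symm_apply_lt.2 hu.2⟩
      · simpa using h3 (e.symm s') (e.symm_apply_lt.2 hs') fun u hu =>
          hw _ ⟨e.symm_apply_le.1 hu.1, e.monotone hu.2⟩
  refine ⟨key φ e s t, fun h => ?_⟩
  have := key (fun u => φ (e u)) e.symm (e s) (e t) (by simpa using h)
  simpa using this

/-- The translation of time. -/
theorem mem_matched_shift (φ : ℝ → ℝ) (b s t : ℝ) :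
    (s, t) ∈ matched (fun u => φ (u + b)) ↔ (s + b, t + b) ∈ matched φ :=
  mem_matched_comp φ (OrderIso.addRight b) s t

/-- The scaling of time. -/
theorem mem_matched_scale (φ : ℝ → ℝ) {c : ℝ} (hc : 0 < c) (s t : ℝ) :
    (s, t) ∈ matched (fun u => φ (c * u)) ↔ (c * s, c * t) ∈ matched φ :=
  mem_matched_comp φ (OrderIso.mulLeft₀ c hc) s t

section Measurable

variable {X : Type*} [TopologicalSpace X]

/-- A projection along a compact interval of a closed set is closed. -/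
theorem isClosed_exists_mem_Icc {a b : ℝ} {P : X → ℝ → Prop}
    (hP : IsClosed {q : X × ℝ | P q.1 q.2}) : IsClosed {x | ∃ l ∈ Icc a b, P x l} := by
  have h := isClosedMap_fst_of_compactSpace (X := X) (Y := Icc a b) _
    (hP.preimage (show Continuous fun q : X × Icc a b => (q.1, (q.2 : ℝ)) by fun_prop))
  convert h using 1
  ext x
  simp only [mem_ofPred_eq, mem_image, mem_preimage, Prod.exists, Subtype.exists]
  constructor
  · rintro ⟨l, hl, h⟩; exact ⟨x, l, hl, h, rfl⟩
  · rintro ⟨y, l, hl, h, rfl⟩; exact ⟨l, hl, h⟩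

variable [MeasurableSpace X] [OpensMeasurableSpace X] {Φ : X → ℝ → ℝ}

omit [MeasurableSpace X] [OpensMeasurableSpace X] in
theorem isClosed_dip {h s t : X → ℝ} (hΦ : Continuous (Function.uncurry Φ)) (hh : Continuous h)
    (hs : Continuous s) (ht : Continuous t) (a b : ℝ) :
    IsClosed {x | ∃ l ∈ Icc a b, Φ x (s x + l * (t x - s x)) ≤ h x} :=
  isClosed_exists_mem_Icc (isClosed_le (hΦ.comp (continuous_fst.prodMk
    (show Continuous fun q : X × ℝ => s q.1 + q.2 * (t q.1 - s q.1) by fun_prop))) (by fun_prop))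

omit [MeasurableSpace X] [OpensMeasurableSpace X] in
theorem isClosed_later {h s : X → ℝ} (hΦ : Continuous (Function.uncurry Φ)) (hh : Continuous h)
    (hs : Continuous s) (σ a b : ℝ) :
    IsClosed {x | ∃ l ∈ Icc a b, (∀ w ∈ Icc (0 : ℝ) 1, h x ≤ Φ x (s x + σ * (w * l))) ∧
      Φ x (s x) ≤ Φ x (s x + σ * l)} := by
  refine isClosed_exists_mem_Icc (IsClosed.inter ?_ ?_)
  · have e : {q : X × ℝ | ∀ w ∈ Icc (0 : ℝ) 1, h q.1 ≤ Φ q.1 (s q.1 + σ * (w * q.2))} =
        ⋂ w ∈ Icc (0 : ℝ) 1, {q | h q.1 ≤ Φ q.1 (s q.1 + σ * (w * q.2))} := by ext; simp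
    refine (congrArg IsClosed e).mpr ?_
    exact isClosed_biInter fun w _ => isClosed_le (by fun_prop) (hΦ.comp (continuous_fst.prodMk
      (show Continuous fun q : X × ℝ => s q.1 + σ * (w * q.2) by fun_prop)))
  · exact isClosed_le (hΦ.comp (continuous_fst.prodMk
      (show Continuous fun q : X × ℝ => s q.1 by fun_prop))) (hΦ.comp (continuous_fst.prodMk
      (show Continuous fun q : X × ℝ => s q.1 + σ * q.2 by fun_prop)))

/-- Matched pairs of a continuous family of functions form a measurable set. -/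
theorem measurableSet_matched [SecondCountableTopology X]
    (hΦ : Continuous (Function.uncurry Φ)) :
    MeasurableSet {q : X × ℝ × ℝ | q.2 ∈ matched (Φ q.1)} := by
  have : OpensMeasurableSpace (X × ℝ × ℝ) := inferInstance
  set Ψ : X × ℝ × ℝ → ℝ → ℝ := fun q u => Φ q.1 u with hΨ
  have hΨc : Continuous (Function.uncurry Ψ) :=
    hΦ.comp (show Continuous fun p : (X × ℝ × ℝ) × ℝ => (p.1.1, p.2) by fun_prop)
  have hs : Continuous fun q : X × ℝ × ℝ => q.2.1 := by fun_prop
  have ht : Continuous fun q : X × ℝ × ℝ => q.2.2 := by fun_prop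
  have hfs : Continuous fun q : X × ℝ × ℝ => Ψ q q.2.1 := hΨc.comp (continuous_id.prodMk hs)
  have hft : Continuous fun q : X × ℝ × ℝ => Ψ q q.2.2 := hΨc.comp (continuous_id.prodMk ht)
  have e : {q : X × ℝ × ℝ | q.2 ∈ matched (Φ q.1)} = {q | q.2.1 < q.2.2} ∩
      (({q | Ψ q q.2.1 < Ψ q q.2.2} ∩
          (⋃ k : ℕ, {q | ∃ l ∈ Icc (1 / ((k : ℝ) + 1)) 1,
            Ψ q (q.2.1 + l * (q.2.2 - q.2.1)) ≤ Ψ q q.2.1})ᶜ ∩
          (⋃ k : ℕ, {q | ∃ l ∈ Icc (1 / ((k : ℝ) + 1)) (k + 1),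
            (∀ w ∈ Icc (0 : ℝ) 1, Ψ q q.2.1 ≤ Ψ q (q.2.2 + 1 * (w * l))) ∧
              Ψ q q.2.2 ≤ Ψ q (q.2.2 + 1 * l)})ᶜ) ∪
       ({q | Ψ q q.2.2 < Ψ q q.2.1} ∩
          (⋃ k : ℕ, {q | ∃ l ∈ Icc (1 / ((k : ℝ) + 1)) 1,
            Ψ q (q.2.2 + l * (q.2.1 - q.2.2)) ≤ Ψ q q.2.2})ᶜ ∩
          (⋃ k : ℕ, {q | ∃ l ∈ Icc (1 / ((k : ℝ) + 1)) (k + 1),
            (∀ w ∈ Icc (0 : ℝ) 1, Ψ q q.2.2 ≤ Ψ q (q.2.1 + -1 * (w * l))) ∧
              Ψ q q.2.1 ≤ Ψ q (q.2.1 + -1 * l)})ᶜ)) := by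
    have hk : ∀ l : ℝ, 0 < l → ∃ k : ℕ, 1 / ((k : ℝ) + 1) ≤ l ∧ l ≤ (k : ℝ) + 1 := by
      intro l hl
      obtain ⟨k, hk⟩ := exists_nat_gt (max l (1 / l))
      refine ⟨k, ?_, by linarith [le_max_left l (1 / l)]⟩
      rw [div_le_iff₀ (by positivity)]
      have := (div_lt_iff₀ hl).1 ((le_max_right l (1 / l)).trans_lt hk)
      nlinarith
    have hkp : ∀ k : ℕ, (0 : ℝ) < 1 / ((k : ℝ) + 1) := fun k => by positivity
    ext ⟨x, s, t⟩
    simp only [matched, hΨ, mem_ofPred_eq, mem_inter_iff, mem_union, mem_compl_iff, mem_iUnion,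
      not_exists, not_and, not_le]
    refine and_congr_right fun hst => or_congr ?_ ?_
    · rw [and_assoc]
      refine and_congr_right fun _ => and_congr ⟨fun H k l hl => ?_, fun H u hu => ?_⟩
        ⟨fun H k l hl hw => ?_, fun H t' ht' hw => ?_⟩
      · have := hkp k
        refine H _ ⟨?_, ?_⟩ <;> nlinarith [hl.1, hl.2]
      · obtain ⟨k, h1, -⟩ := hk ((u - s) / (t - s)) (div_pos (by linarith [hu.1]) (by linarith))
        have h2 : (u - s) / (t - s) ≤ 1 := (div_le_one (by linarith)).2 (by linarith [hu.2])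
        have := H k _ ⟨h1, h2⟩
        rwa [div_mul_cancel₀ _ (by linarith), add_sub_cancel] at this
      · have hl0 : 0 < l := (hkp k).trans_le hl.1
        simp only [one_mul] at hw ⊢
        refine H _ (by linarith) fun u hu => ?_
        have := hw ((u - t) / l) ⟨div_nonneg (by linarith [hu.1]) hl0.le,
          (div_le_one hl0).2 (by linarith [hu.2])⟩
        rwa [div_mul_cancel₀ _ hl0.ne', add_sub_cancel] at this
      · obtain ⟨k, h1, h2⟩ := hk (t' - t) (by linarith)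
        have := H k _ ⟨h1, h2⟩ fun w hw' =>
          hw _ ⟨by nlinarith [hw'.1], by nlinarith [hw'.2]⟩
        rwa [one_mul, add_sub_cancel] at this
    · rw [and_assoc]
      refine and_congr_right fun _ => and_congr ⟨fun H k l hl => ?_, fun H u hu => ?_⟩
        ⟨fun H k l hl hw => ?_, fun H t' ht' hw => ?_⟩
      · have := hkp k
        refine H _ ⟨?_, ?_⟩ <;> nlinarith [hl.1, hl.2]
      · obtain ⟨k, h1, -⟩ := hk ((t - u) / (t - s)) (div_pos (by linarith [hu.2]) (by linarith))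
        have h2 : (t - u) / (t - s) ≤ 1 := (div_le_one (by linarith)).2 (by linarith [hu.1])
        have := H k _ ⟨h1, h2⟩
        rwa [show s - t = -(t - s) by ring, mul_neg, div_mul_cancel₀ _ (by linarith),
          ← sub_eq_add_neg, sub_sub_cancel] at this
      · have hl0 : 0 < l := (hkp k).trans_le hl.1
        simp only [neg_mul, one_mul, ← sub_eq_add_neg] at hw ⊢
        refine H _ (by linarith) fun u hu => ?_
        have := hw ((s - u) / l) ⟨div_nonneg (by linarith [hu.2]) hl0.le,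
          (div_le_one hl0).2 (by linarith [hu.1])⟩
        rwa [div_mul_cancel₀ _ hl0.ne', sub_sub_cancel] at this
      · obtain ⟨k, h1, h2⟩ := hk (s - t') (by linarith)
        have := H k _ ⟨h1, h2⟩ fun w hw' =>
          hw _ ⟨by nlinarith [hw'.2], by nlinarith [hw'.1]⟩
        rwa [neg_mul, one_mul, ← sub_eq_add_neg, sub_sub_cancel] at this
  rw [e]
  refine (measurableSet_lt hs.measurable ht.measurable).inter (MeasurableSet.union ?_ ?_) <;>
    refine ((measurableSet_lt ?_ ?_).inter (MeasurableSet.iUnion fun k => IsClosed.measurableSet ?_).compl).inter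
      (MeasurableSet.iUnion fun k => IsClosed.measurableSet ?_).compl
  all_goals first
    | exact hfs.measurable
    | exact hft.measurable
    | exact isClosed_dip hΨc hfs hs ht _ _
    | exact isClosed_dip hΨc hft ht hs _ _
    | exact isClosed_later hΨc hfs ht _ _ _
    | exact isClosed_later hΨc hft hs _ _ _

end Measurable

/-- The radial integral of the change of scale. -/
theorem lintegral_scale_tail {n : ℕ} (hn : 0 < n) {a : ℝ} (ha : 0 < a) :
    ∫⁻ u in Ioi a, ENNReal.ofReal (u⁻¹ ^ (n + 1)) = ENNReal.ofReal (a⁻¹ ^ n / n) := by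
  have hn' : (0 : ℝ) < n := Nat.cast_pos.2 hn
  have h : ∀ u ∈ Ioi a, u ^ (-((n : ℝ) + 1)) = u⁻¹ ^ (n + 1) := fun u hu => by
    rw [Real.rpow_neg (ha.trans hu).le, inv_pow,
      show (n : ℝ) + 1 = ((n + 1 : ℕ) : ℝ) by push_cast; ring, Real.rpow_natCast]
  rw [← setLIntegral_congr_fun measurableSet_Ioi fun u hu => congrArg ENNReal.ofReal (h u hu),
    ← ofReal_integral_eq_lintegral_ofReal (integrableOn_Ioi_rpow_of_lt (by linarith) ha)
      ((ae_restrict_mem measurableSet_Ioi).mono fun u hu => Real.rpow_nonneg (ha.trans hu).le _),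
    integral_Ioi_rpow_of_lt (by linarith) ha]
  congr 1
  rw [show -((n : ℝ) + 1) + 1 = -(n : ℝ) by ring, Real.rpow_neg ha.le, Real.rpow_natCast, inv_pow]
  field_simp

end

end Vale.Agent.P219.CH.Core.Chord
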