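import Vale.Agent.P219.CH.Interfaces

/-!
P219: statements of the parts of the core.
-/

namespace Vale.Agent.P219.CH.Core

open MeasureTheory Set Filter Topology
open scoped ContDiff

noncomputable section

variable {n : ℕ}

/-- Pairs `s < t` matching an entry of a level set of `φ` at `s` with an exit at `t`: if the level
at `s` is lower, `t` is the last exit at its level inside the component, and dually. -/
def matched (φ : ℝ → ℝ) : Set (ℝ × ℝ) :=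
  {p | p.1 < p.2 ∧
    ((φ p.1 < φ p.2 ∧ (∀ u ∈ Ioc p.1 p.2, φ p.1 < φ u) ∧
        ∀ t', p.2 < t' → (∀ u ∈ Icc p.2 t', φ p.1 ≤ φ u) → φ t' < φ p.2) ∨
      (φ p.2 < φ p.1 ∧ (∀ u ∈ Ico p.1 p.2, φ p.2 < φ u) ∧
        ∀ s', s' < p.1 → (∀ u ∈ Icc s' p.1, φ p.2 ≤ φ u) → φ s' < φ p.1))}

/-- The facts about matched pairs. -/
def LineStmt : Prop := ∀ φ : ℝ → ℝ, ContDiff ℝ 1 φ → HasCompactSupport φ →
  (∀ t, φ t ∈ Icc (0 : ℝ) 1) →
    MeasurableSet (matched φ) ∧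
    (∀ s, ∫⁻ t in {t | (s, t) ∈ matched φ}, ENNReal.ofReal (-deriv φ t) ≤ 1) ∧
    (∀ t, ∫⁻ s in {s | (s, t) ∈ matched φ}, ENNReal.ofReal (deriv φ s) ≤ 1) ∧
    ∀ x, ENNReal.ofReal (φ x ^ 2) ≤
      ∫⁻ s in Iic x, ∫⁻ t in {t | x ≤ t ∧ (s, t) ∈ matched φ},
        ENNReal.ofReal (deriv φ s) * ENNReal.ofReal (-deriv φ t)

/-- The cosine between the geodesic from `x` and the normal at `y`. -/
def cosAt {G : Coeff n} (Γ : Geo G) (f : E n → ℝ) (x y : E n) : ℝ :=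
  G y (Γ.V x y) (normal G f y) / Γ.dist x y

/-- The hemisphere average of `g`, times the volume of the ball. -/
def gInt (hn : 0 < n) (g : ℝ → ℝ) : ℝ :=
  ∫ v in Metric.ball (0 : E n) 1 ∩ {v | 0 < v ⟨0, hn⟩},
    g (v ⟨0, hn⟩ / ‖v‖) * (v ⟨0, hn⟩ / ‖v‖)

/-- The chord bound: pairs of surface points see at least the volume and the prices of end
points. -/
def ChordStmt (n : ℕ) : Prop := ∀ (hn : 0 < n) (G : Coeff n), IsCH G → ∀ Γ : Geo G,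
  ∀ (g : ℝ → ℝ), Continuous g → (∀ c ∈ Icc (0 : ℝ) 1, g c ≤ 0) →
  ∀ (q : ℝ → ℝ → ℝ), Continuous (Function.uncurry q) → (∀ r d, 0 ≤ r → |d| ≤ 1 → 0 ≤ q r d) →
  ∀ σ : ℝ, 0 < σ →
    (∀ r c d, 0 < r → 0 < c → c ≤ 1 → 0 < d → d ≤ 1 →
      r - σ + g c + g d ≤ r ^ (n - 1) * (q r c + q r d) / (2 * c * d)) →
  ∀ f : E n → ℝ, ContDiff ℝ 1 f → HasCompactSupport f → (∀ x, f x ∈ Icc (0 : ℝ) 1) →
    (n * omega n) * (∫ x, f x ^ 2 ∂vol G) +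
      (2 * n * gInt hn g - σ * (n * omega n)) * tvar G f ≤
      ∫ x, (∫ y, q (Γ.dist x y) (cosAt Γ f x y) ∂surf G f) ∂surf G f

/-- A family of fields with common support, bounds and modulus of continuity of the derivative. -/
def FieldBound (K : Set (E n)) (M : ℝ) (η : ℝ → ℝ) (X : E n → E n) : Prop :=
  ContDiff ℝ 1 X ∧ tsupport X ⊆ K ∧ (∀ x, ‖X x‖ ≤ M ∧ ‖fderiv ℝ X x‖ ≤ M) ∧
    ∀ x y, ‖fderiv ℝ X x - fderiv ℝ X y‖ ≤ η ‖x - y‖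

/-- First variation along `x ↦ x + t • X x`, uniform over the family. -/
def VariationStmt (n : ℕ) : Prop := ∀ G : Coeff n, IsMetric G →
  ∀ (K : Set (E n)), IsCompact K → ∀ (M : ℝ) (η : ℝ → ℝ), Tendsto η (𝓝 0) (𝓝 0) →
  ∀ ε : ℝ, 0 < ε → ∃ t₀ : ℝ, 0 < t₀ ∧ ∀ t : ℝ, 0 < t → t ≤ t₀ → ∀ X, FieldBound K M η X →
    ∀ f : E n → ℝ, ContDiff ℝ 1 f → HasCompactSupport f →
      |tvar G (fun x => f (x + t • X x)) - tvar G f + t * ∫ x, divTan G f X x ∂surf G f| ≤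
        ε * t * tvar G f ∧
      ∀ P : ℝ → ℝ, Continuous P → P 0 = 0 →
        |(∫ x, P (f (x + t • X x)) ∂vol G) - (∫ x, P (f x) ∂vol G) +
            t * ∫ x, P (f x) * divg G X x ∂vol G| ≤ ε * t * ∫ x, |P (f x)| ∂vol G

/-- The closed geodesic ball. -/
def gball {G : Coeff n} (Γ : Geo G) (o : E n) (R : ℝ) : Set (E n) := {y | Γ.dist o y ≤ R}

/-- The averaged field `y ↦ ∫ φ (dist²) V x y` over the level sets of `f`, corrected so that it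
points out of the ball: uniform bounds, support, and the two integrals it produces. -/
def AvgFieldStmt (n : ℕ) : Prop := ∀ G : Coeff n, IsCH G → ∀ (Γ : Geo G) (φ : ℝ → ℝ),
  ContDiff ℝ 1 φ → (∀ s, 0 ≤ s → 0 ≤ φ s) → ∀ (o : E n) (R A : ℝ), 0 < R → ∀ τ : ℝ, 0 < τ →
  ∃ (K : Set (E n)) (M : ℝ) (η : ℝ → ℝ) (t₀ B : ℝ), IsCompact K ∧ Tendsto η (𝓝 0) (𝓝 0) ∧
    0 < t₀ ∧ ∀ f : E n → ℝ, ContDiff ℝ 1 f → tsupport f ⊆ gball Γ o R →
      (∀ x, f x ∈ Icc (0 : ℝ) 1) → tvar G f ≤ A → ∃ X, FieldBound K M η X ∧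
        (∀ x, |divg G X x| ≤ B) ∧
        (∀ t, 0 < t → t ≤ t₀ → tsupport (fun x => f (x + t • X x)) ⊆ gball Γ o R) ∧
        (∫ x, (∫ y,
            (1 - cosAt Γ f x y ^ 2) *
                (φ (Γ.dist x y ^ 2) + 2 * Γ.dist x y ^ 2 * deriv φ (Γ.dist x y ^ 2)) +
              φ (Γ.dist x y ^ 2) * ((n : ℝ) - 2 + cosAt Γ f x y ^ 2) ∂surf G f) ∂surf G f) ≤
          (∫ y, divTan G f X y ∂surf G f) ∧
        |(∫ y, f y * divg G X y ∂vol G) -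
            ∫ x, (∫ y, Γ.dist x y * φ (Γ.dist x y ^ 2) * cosAt Γ f x y ∂surf G f) ∂surf G f| ≤ τ

end

end Vale.Agent.P219.CH.Core
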