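import Vale.Agent.P219.CH.Core.Field.Surf

/-!
P219: the averaged field of the core.

`X y = χ y • (∫ φ (dist x y ²) V x y dsurf x + τ' V o y)`: on the ball the cut-off is one, so the
tangential divergence is at least the kernel; the small term makes `X` point out of the ball.
-/

namespace Vale.Agent.P219.CH.Core.Field

open MeasureTheory Set Filter Topology
open scoped ContDiff

noncomputable section

variable {n : ℕ} {G : Coeff n} (Γ : Geo G)

/-- The family averaged over the level sets, cut off. -/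
def famX (χ : E n → ℝ) (φ : ℝ → ℝ) (p : E n × E n) : E n := χ p.2 • radial Γ φ p.1 p.2

theorem contDiff_famX (hG : IsMetric G) {χ : E n → ℝ} (hχ : ContDiff ℝ 1 χ) {φ : ℝ → ℝ}
    (hφ : ContDiff ℝ 1 φ) : ContDiff ℝ 1 (famX Γ χ φ) :=
  (hχ.comp contDiff_snd).smul (contDiff_radial Γ hG hφ)

theorem famX_eventuallyEq {χ : E n → ℝ} {φ : ℝ → ℝ} {y : E n} (hχ : χ =ᶠ[𝓝 y] 1) (x : E n) :
    (fun z => famX Γ χ φ (x, z)) =ᶠ[𝓝 y] radial Γ φ x := by
  filter_upwards [hχ] with z hz
  simp [famX, hz]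

/-- The jet of the averaged field is the average of the jets. -/
theorem jetTan_avg {P : Type*} [NormedAddCommGroup P] [NormedSpace ℝ P] [MeasurableSpace P]
    [BorelSpace P] {Ψ : P × E n → E n} (hΨ : ContDiff ℝ 1 Ψ)
    {S : Set P} (hS : IsCompact S) {μ : Measure P} [IsFiniteMeasure μ] (hμ : ∀ᵐ x ∂μ, x ∈ S)
    (y ν : E n) :
    jetTan G y ν (fderiv ℝ (avg Ψ μ) y, avg Ψ μ y) =
      ∫ x, jetTan G y ν (D2 Ψ (x, y), Ψ (x, y)) ∂μ := by
  have h1 : Integrable (fun x => D2 Ψ (x, y)) μ :=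
    integrable_cont hS hμ ((continuous_D2 hΨ).comp (by fun_prop))
  have h2 : Integrable (fun x => Ψ (x, y)) μ :=
    integrable_cont hS hμ (hΨ.continuous.comp (by fun_prop))
  rw [(hasFDerivAt_avg hΨ hS hμ y).fderiv, avg, ← integral_pair h1 h2]
  exact ((jetTan G y ν).toContinuousLinearMap.integral_comp_comm (h1.prodMk h2)).symm

theorem avg_dirac (Ψ : E n × E n → E n) (o : E n) :
    avg Ψ (Measure.dirac o) = fun y => Ψ (o, y) := funext fun _ => integral_dirac _ _

theorem rho_le_iff (hG : IsMetric G) {R : ℝ} (hR : 0 ≤ R) (o y : E n) :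
    y ∈ gball Γ o R ↔ rho Γ o y ≤ R ^ 2 := by
  rw [← dist_sq Γ hG, gball, Set.mem_ofPred_eq]
  exact (pow_le_pow_iff_left₀ (dist_nonneg Γ o y) hR two_ne_zero).symm

/-- Fields pointing out of the ball keep it invariant, with a uniform time. -/
theorem exists_time (hG : IsMetric G) (o : E n) {R ρ₀ M τ' : ℝ} (hR : 0 < R) (hM : 0 ≤ M)
    (hτ : 0 < τ') (hρ₀ : ∀ y ∈ gball Γ o R, ‖y‖ ≤ ρ₀) :
    ∃ t₀ : ℝ, 0 < t₀ ∧ ∀ X : E n → E n, (∀ x, ‖X x‖ ≤ M) →
      (∀ x, ‖x‖ ≤ ρ₀ + 1 → R ^ 2 ≤ rho Γ o x → τ' * R ^ 2 ≤ fderiv ℝ (rho Γ o) x (X x)) →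
      ∀ (f : E n → ℝ), tsupport f ⊆ gball Γ o R → ∀ t, 0 < t → t ≤ t₀ →
        tsupport (fun x => f (x + t • X x)) ⊆ gball Γ o R := by
  have hr : ContDiff ℝ 1 (rho Γ o) := (contDiff_rho Γ hG).comp (contDiff_prodMk_right o)
  obtain ⟨δ, hδ, hu⟩ := Metric.uniformContinuousOn_iff.1
    ((isCompact_closedBall (0 : E n) (ρ₀ + 2)).uniformContinuousOn_of_continuous
      (hr.continuous_fderiv one_ne_zero).continuousOn) (τ' * R ^ 2 / (2 * (M + 1))) (by positivity)
  refine ⟨min (δ / 2) (1 / 2) / (M + 1), by positivity, fun X hX hout f hf t ht htt => ?_⟩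
  have htM : t * (M + 1) ≤ min (δ / 2) (1 / 2) := by rwa [le_div_iff₀ (by positivity)] at htt
  refine closure_minimal (fun x hx => ?_) (isCompact_gball Γ hG o R).isClosed
  by_contra hxS
  refine hx (image_eq_zero_of_notMem_tsupport fun h => ?_)
  have hy := hf h
  have hstep : ‖t • X x‖ ≤ t * M := by
    rw [norm_smul, Real.norm_eq_abs, abs_of_pos ht]
    exact mul_le_mul_of_nonneg_left (hX x) ht.le
  have h1 : t * M < 1 := by nlinarith [min_le_right (δ / 2) (1 / 2)]
  have h2 : t * M < δ := by nlinarith [min_le_left (δ / 2) (1 / 2)]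
  rcases lt_or_ge (ρ₀ + 1) ‖x‖ with h3 | h3
  · have h4 := hρ₀ _ hy
    have h5 := norm_sub_le (x + t • X x) (t • X x)
    rw [add_sub_cancel_right] at h5
    linarith
  rw [rho_le_iff Γ hG hR.le] at hxS hy
  push Not at hxS
  have hmem : ∀ z ∈ Metric.closedBall x (t * M), z ∈ Metric.closedBall (0 : E n) (ρ₀ + 2) := by
    intro z hz
    rw [Metric.mem_closedBall, dist_eq_norm] at hz
    rw [Metric.mem_closedBall, dist_zero_right]
    have := norm_add_le (z - x) x
    rw [sub_add_cancel] at this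
    linarith
  have hmv := (convex_closedBall x (t * M)).norm_image_sub_le_of_norm_fderiv_le'
    (f := rho Γ o) (φ := fderiv ℝ (rho Γ o) x) (C := τ' * R ^ 2 / (2 * (M + 1)))
    (fun z _ => hr.differentiable one_ne_zero z) (fun z hz => by
      rw [← dist_eq_norm]
      exact (hu z (hmem z hz) x
        (hmem x (Metric.mem_closedBall_self (by positivity)))
        (lt_of_le_of_lt (Metric.mem_closedBall.1 hz) h2)).le)
    (Metric.mem_closedBall_self (by positivity))
    (show x + t • X x ∈ Metric.closedBall x (t * M) by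
      rw [Metric.mem_closedBall, dist_eq_norm, add_sub_cancel_left]; exact hstep)
  rw [add_sub_cancel_left, map_smul, smul_eq_mul, Real.norm_eq_abs] at hmv
  have h6 : τ' * R ^ 2 / (2 * (M + 1)) * ‖t • X x‖ ≤ t * (τ' * R ^ 2) / 2 := by
    refine (mul_le_mul_of_nonneg_left hstep (by positivity)).trans ?_
    rw [div_mul_eq_mul_div, div_le_div_iff₀ (by positivity) two_pos]
    nlinarith [mul_nonneg (mul_nonneg hτ.le (sq_nonneg R)) ht.le]
  have h7 := mul_le_mul_of_nonneg_left (hout x h3 hxS.le) ht.le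
  have h8 := (abs_le.1 hmv).1
  nlinarith [mul_pos ht (mul_pos hτ (pow_pos hR 2))]

/-- A bound for the divergence of fields bounded in `C¹` with support in a compact set. -/
theorem exists_divg_bound (hG : IsMetric G) {K : Set (E n)} (hK : IsCompact K) (M : ℝ)
    (η : ℝ → ℝ) : ∃ B, ∀ X, FieldBound K M η X → ∀ x, |divg G X x| ≤ B := by
  set F : E n × (E n →L[ℝ] E n) × E n → ℝ := fun q => ∑ i,
    (q.2.1 (EuclideanSpace.single i 1) + chr G q.1 (EuclideanSpace.single i 1) q.2.2) i
  have hF : Continuous F := continuous_finsetSum _ fun i _ => by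
    have hc : Continuous fun q : E n × (E n →L[ℝ] E n) × E n =>
        chr G q.1 (EuclideanSpace.single i 1) q.2.2 :=
      hG.contDiff_chr.continuous.comp (by fun_prop : Continuous fun q : E n × (E n →L[ℝ] E n) × E n =>
        (q.1, EuclideanSpace.single i (1 : ℝ), q.2.2))
    exact (EuclideanSpace.proj (𝕜 := ℝ) i).continuous.comp
      (((continuous_snd.fst).clm_apply continuous_const).add hc)
  obtain ⟨B, hB⟩ := (hK.prod ((isCompact_closedBall (0 : E n →L[ℝ] E n) M).prod
    (isCompact_closedBall (0 : E n) M))).exists_bound_of_continuousOn hF.continuousOn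
  refine ⟨max B 0, fun X hX x => ?_⟩
  by_cases hx : x ∈ K
  · refine le_max_of_le_left (hB (x, fderiv ℝ X x, X x) ⟨hx, ?_, ?_⟩) <;>
      rw [Metric.mem_closedBall, dist_zero_right]
    exacts [(hX.2.2.1 x).2, (hX.2.2.1 x).1]
  · have h0 : X x = 0 := image_eq_zero_of_notMem_tsupport fun h => hx (hX.2.1 h)
    have h1 : fderiv ℝ X x = 0 := by
      by_contra h
      exact hx (hX.2.1 (tsupport_fderiv_subset ℝ (subset_tsupport _ h)))
    simp [divg, covd, h0, h1, chr_zero_right]

end

end Vale.Agent.P219.CH.Core.Field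

namespace Vale.Agent.P219.CH.Core

open MeasureTheory Set Filter Topology Vale.Agent.P219.CH.Core.Field
open scoped ContDiff

/-- The averaged field. -/
theorem avgFieldStmt (n : ℕ) : AvgFieldStmt n := by
  intro G hCH Γ φ hφ hφ0 o R A hR τ hτ
  have hG := hCH.metric
  set S := gball Γ o R with hSdef
  have hS : IsCompact S := isCompact_gball Γ hG o R
  obtain ⟨r, hr⟩ := hS.isBounded.subset_closedBall (0 : E n)
  set ρ₀ := max r 0
  have hρ₀ : ∀ y ∈ S, ‖y‖ ≤ ρ₀ := fun y hy => by
    have := hr hy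
    rw [Metric.mem_closedBall, dist_zero_right] at this
    exact this.trans (le_max_left _ _)
  have hρ0 : 0 ≤ ρ₀ := le_max_right _ _
  let χ : ContDiffBump (0 : E n) := ⟨ρ₀ + 2, ρ₀ + 3, by linarith, by linarith⟩
  have hχ1 : ∀ y : E n, ‖y‖ ≤ ρ₀ + 1 → (χ : E n → ℝ) =ᶠ[𝓝 y] 1 := fun y hy =>
    χ.eventuallyEq_one_of_mem_ball (by rw [Metric.mem_ball, dist_zero_right]; linarith)
  have hχS : ∀ y ∈ S, (χ : E n → ℝ) =ᶠ[𝓝 y] 1 := fun y hy => hχ1 y (by linarith [hρ₀ y hy])
  set K := Metric.closedBall (0 : E n) (ρ₀ + 3)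
  set A' := max A 0
  set τ' := τ / (R * (A' + 1)) with hτ'
  have hτ'0 : 0 < τ' := by positivity
  set Ψ₁ := famX Γ χ φ
  set Ψ₂ := famX Γ χ fun _ => τ'
  have hΨ₁ : ContDiff ℝ 1 Ψ₁ := contDiff_famX Γ hG χ.contDiff hφ
  have hΨ₂ : ContDiff ℝ 1 Ψ₂ := contDiff_famX Γ hG χ.contDiff contDiff_const
  have hsupp : ∀ (ψ : ℝ → ℝ) (x y : E n), y ∉ K → famX Γ χ ψ (x, y) = 0 := fun ψ x y hy => by
    rw [Metric.mem_closedBall, not_le] at hy
    simp [famX, χ.zero_of_le_dist hy.le]
  obtain ⟨M₁, η₁, hη₁, hb₁⟩ :=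
    exists_avg_bounds hΨ₁ hS (isCompact_closedBall _ _) (hsupp φ) A'
  obtain ⟨M₂, η₂, hη₂, hb₂⟩ :=
    exists_avg_bounds hΨ₂ (isCompact_singleton (x := o)) (isCompact_closedBall _ _)
      (hsupp fun _ => τ') 1
  have hb₂' := hb₂ (Measure.dirac o) (by simp [measureReal_def]) (by
    rw [ae_dirac_eq]; exact rfl)
  set M := max (M₁ + M₂) 0
  set η := fun s => η₁ s + η₂ s
  obtain ⟨B, hB⟩ := exists_divg_bound (K := K) hG (isCompact_closedBall _ _) M η
  obtain ⟨t₀, ht₀, hkeep⟩ := exists_time Γ hG o hR (le_max_right (M₁ + M₂) 0) hτ'0 hρ₀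
  refine ⟨K, M, η, t₀, B, isCompact_closedBall _ _, by simpa using hη₁.add hη₂, ht₀,
    fun f hf hfS _ hA => ?_⟩
  obtain ⟨hfin, hmass, hμ⟩ := surf_facts hG hf hS hfS
  set μ := surf G f with hμdef
  have hA' : μ.real univ ≤ A' := hmass.le.trans (hA.trans (le_max_left _ _))
  have h1 := hb₁ μ hA' hμ
  rw [avg_dirac] at hb₂'
  set X₁ := avg Ψ₁ μ
  set X₂ := fun y => Ψ₂ (o, y)
  have hd1 : Differentiable ℝ X₁ := h1.1.differentiable one_ne_zero
  have hd2 : Differentiable ℝ X₂ := hb₂'.1.differentiable one_ne_zero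
  have hX : FieldBound K M η (fun y => X₁ y + X₂ y) := by
    refine ⟨h1.1.add hb₂'.1, (tsupport_add X₁ X₂).trans (union_subset h1.2.1 hb₂'.2.1),
      fun y => ⟨?_, ?_⟩, fun y y' => ?_⟩
    · exact ((norm_add_le _ _).trans (add_le_add (h1.2.2.1 y).1 (hb₂'.2.2.1 y).1)).trans
        (le_max_left _ _)
    · rw [fderiv_fun_add (hd1 y) (hd2 y)]
      exact ((norm_add_le _ _).trans (add_le_add (h1.2.2.1 y).2 (hb₂'.2.2.1 y).2)).trans
        (le_max_left _ _)
    · rw [fderiv_fun_add (hd1 y) (hd2 y), fderiv_fun_add (hd1 y') (hd2 y'), add_sub_add_comm]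
      exact (norm_add_le _ _).trans (add_le_add (h1.2.2.2 y y') (hb₂'.2.2.2 y y'))
  set X := fun y => X₁ y + X₂ y with hXdef
  -- values of the pairing of `X` with a covector
  have hpair : ∀ (y : E n) (L : E n →L[ℝ] ℝ), (χ : E n → ℝ) y = 1 →
      L (X y) = (∫ x, φ (rho Γ x y) * L (Γ.V x y) ∂μ) + τ' * L (Γ.V o y) := by
    intro y L hy
    have hi : Integrable (fun x => Ψ₁ (x, y)) μ := integrable_cont hS hμ
      (hΨ₁.continuous.comp (by fun_prop : Continuous fun x : E n => (x, y)))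
    simp only [hXdef, map_add, X₁, X₂, avg]
    rw [← L.integral_comp_comm hi]
    simp [Ψ₁, Ψ₂, famX, radial, hy]
  -- outside the ball `X` points away from `o`
  have hout : ∀ x, ‖x‖ ≤ ρ₀ + 1 → R ^ 2 ≤ rho Γ o x →
      τ' * R ^ 2 ≤ fderiv ℝ (rho Γ o) x (X x) := by
    intro x hx hxR
    have e : fderiv ℝ (rho Γ o) x (X x) = 2 * G x (Γ.V o x) (X x) := Γ.grad_dist o x (X x)
    rw [e, hpair x (G x (Γ.V o x)) (hχ1 x hx).eq_of_nhds, sq_V Γ hG]
    have h0 : 0 ≤ ∫ z, φ (rho Γ z x) * G x (Γ.V o x) (Γ.V z x) ∂μ := by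
      refine integral_nonneg_of_ae ?_
      filter_upwards [hμ] with z hz
      exact mul_nonneg (hφ0 _ (rho_nonneg Γ hG z x))
        (inner_V_nonneg Γ hG o z x (((rho_le_iff Γ hG hR.le o z).1 hz).trans hxR))
    nlinarith [mul_le_mul_of_nonneg_left hxR hτ'0.le, mul_pos hτ'0 (pow_pos hR 2)]
  refine ⟨X, hX, hB X hX, fun t ht htt => hkeep X (fun x => (hX.2.2.1 x).1) hout f hfS t ht htt,
    ?_, ?_⟩
  · -- the tangential divergence
    set I := fun x y => (1 - cosAt Γ f x y ^ 2) *
        (φ (Γ.dist x y ^ 2) + 2 * Γ.dist x y ^ 2 * deriv φ (Γ.dist x y ^ 2)) +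
      φ (Γ.dist x y ^ 2) * ((n : ℝ) - 2 + cosAt Γ f x y ^ 2)
    have hI : Integrable (Function.uncurry I) (μ.prod μ) :=
      integrable_kernel hG hf hS hμ Γ hφ
    change ∫ x, ∫ y, I x y ∂μ ∂μ ≤ _
    rw [integral_integral_swap hI]
    have hdiv : Integrable (fun y => divTan G f X y) μ := by
      have hDX := hX.1.continuous_fderiv one_ne_zero
      have hXc := hX.1.continuous
      have hc : ∀ {u : E n × E n → E n}, Continuous u →
          Continuous fun q : E n × E n => chr G q.1 (u q) (X q.1) := fun hu =>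
        hG.contDiff_chr.continuous.comp (continuous_fst.prodMk (hu.prodMk (hXc.comp continuous_fst)))
      refine integrable_normal (F := fun q => divg G X q.1 -
        G q.1 (covd G X q.1 q.2) q.2) hG hf hS hμ (Continuous.sub ?_ ?_)
      · refine continuous_finsetSum _ fun i _ => ?_
        exact (EuclideanSpace.proj (𝕜 := ℝ) i).continuous.comp
          (((hDX.comp continuous_fst).clm_apply
            (continuous_const (y := EuclideanSpace.single i (1 : ℝ)))).add (hc continuous_const))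
      · exact ((hG.smooth.continuous.comp continuous_fst).clm_apply
          (((hDX.comp continuous_fst).clm_apply continuous_snd).add (hc continuous_snd))).clm_apply
          continuous_snd
    refine integral_mono_ae hI.integral_prod_right hdiv ?_
    filter_upwards [hμ, hI.prod_left_ae] with y hy hIy
    set ν := normal G f y
    have e1 : ∀ x, jetTan G y ν (D2 Ψ₁ (x, y), Ψ₁ (x, y)) =
        divTan G f (radial Γ φ x) y := fun x => by
      rw [divTan_eq_jet G, ← (hasFDerivAt_D2 hΨ₁ x y).fderiv]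
      have h := famX_eventuallyEq Γ (φ := φ) (hχS y hy) x
      rw [h.fderiv_eq, show Ψ₁ (x, y) = radial Γ φ x y from h.eq_of_nhds]
    have e2 : jetTan G y ν (fderiv ℝ X₂ y, X₂ y) =
        divTan G f (radial Γ (fun _ => τ') o) y := by
      have h := famX_eventuallyEq Γ (φ := fun _ => τ') (hχS y hy) o
      rw [divTan_eq_jet G, show fderiv ℝ X₂ y = _ from h.fderiv_eq,
        show X₂ y = radial Γ (fun _ => τ') o y from h.eq_of_nhds]
    have hsplit : divTan G f X y =
        (∫ x, divTan G f (radial Γ φ x) y ∂μ) + divTan G f (radial Γ (fun _ => τ') o) y := by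
      rw [divTan_eq_jet G, hXdef, fderiv_fun_add (hd1 y) (hd2 y)]
      change jetTan G y ν ((fderiv ℝ X₁ y, X₁ y) + (fderiv ℝ X₂ y, X₂ y)) = _
      rw [map_add, jetTan_avg hΨ₁ hS hμ, e2]
      simp only [e1]
    have hpos : 0 ≤ divTan G f (radial Γ (fun _ => τ') o) y :=
      divTan_const_radial_nonneg Γ hG hτ'0.le f o y
    rw [hsplit]
    have hcont : Continuous fun x => jetTan G y ν (D2 Ψ₁ (x, y), Ψ₁ (x, y)) :=
      ((jetTan G y ν).continuous_of_finiteDimensional).comp
        (((continuous_D2 hΨ₁).comp (by fun_prop)).prodMk (hΨ₁.continuous.comp (by fun_prop)))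
    simp only [e1] at hcont
    have hle : ∫ x, I x y ∂μ ≤ ∫ x, divTan G f (radial Γ φ x) y ∂μ :=
      integral_mono hIy (integrable_cont hS hμ hcont) fun x => divTan_radial_ge Γ hG hφ hφ0 f x y
    linarith
  · -- the flux
    rw [integral_mul_divg hG hf (hS.of_isClosed_subset (isClosed_tsupport f) hfS) hX.1, ← hμdef]
    set H := fun x y => φ (rho Γ x y) * G y (Γ.V x y) (normal G f y)
    have hρ := (contDiff_rho Γ hG).continuous
    have hV := (contDiff_V Γ).continuous
    have hH : Integrable (Function.uncurry H) (μ.prod μ) := by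
      refine integrable_normal₂ (F := fun q =>
        φ (rho Γ q.1 q.2.1) * G q.2.1 (Γ.V q.1 q.2.1) q.2.2) hG hf hS hμ ?_
      exact (hφ.continuous.comp (hρ.comp (by fun_prop : Continuous fun q : E n × E n × E n =>
        (q.1, q.2.1)))).mul (((hG.smooth.continuous.comp continuous_snd.fst).clm_apply
          (hV.comp (by fun_prop : Continuous fun q : E n × E n × E n => (q.1, q.2.1)))).clm_apply
          continuous_snd.snd)
    have hH2 : Integrable (fun y => τ' * G y (Γ.V o y) (normal G f y)) μ := by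
      refine integrable_normal (F := fun q => τ' * G q.1 (Γ.V o q.1) q.2) hG hf hS hμ ?_
      exact continuous_const.mul (((hG.smooth.continuous.comp continuous_fst).clm_apply
        (hV.comp (continuous_const.prodMk continuous_fst))).clm_apply continuous_snd)
    have e : ∫ y, G y (X y) (normal G f y) ∂μ =
        (∫ x, ∫ y, H x y ∂μ ∂μ) + ∫ y, τ' * G y (Γ.V o y) (normal G f y) ∂μ := by
      have hHr : Integrable (fun y => ∫ x, H x y ∂μ) μ := hH.integral_prod_right
      rw [integral_integral_swap hH, ← integral_add hHr hH2]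
      refine integral_congr_ae ?_
      filter_upwards [hμ] with y hy
      exact hpair y ((G y).flip (normal G f y)) (hχS y hy).eq_of_nhds
    have e' : ∀ x y, Γ.dist x y * φ (Γ.dist x y ^ 2) * cosAt Γ f x y = H x y := fun x y => by
      simp only [H, ← dist_mul_cosAt Γ hG f x y, dist_sq Γ hG]
      ring
    simp only [e']
    rw [e, add_sub_cancel_left, ← Real.norm_eq_abs]
    refine (norm_integral_le_of_norm_le_const (C := τ' * R) ?_).trans ?_
    · filter_upwards [hμ] with y hy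
      have hc := inner_normal_sq_le hG f y (Γ.V o y)
      rw [sq_V Γ hG] at hc
      have hy' := (rho_le_iff Γ hG hR.le o y).1 hy
      rw [Real.norm_eq_abs, abs_mul, abs_of_pos hτ'0]
      exact mul_le_mul_of_nonneg_left (abs_le_of_sq_le_sq (hc.trans hy') hR.le) hτ'0.le
    · calc τ' * R * μ.real univ ≤ τ' * R * A' := mul_le_mul_of_nonneg_left hA' (by positivity)
        _ ≤ τ' * R * (A' + 1) := mul_le_mul_of_nonneg_left (by linarith) (by positivity)
        _ = τ := by
          rw [hτ']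
          have : A' + 1 ≠ 0 := by positivity
          field_simp

end Vale.Agent.P219.CH.Core
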