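import Vale.Agent.P219.CH.Core.Defs

/-!
P219: elementary facts used by the minimising argument: continuity, compactness of geodesic balls,
integrability against the surface measure, and the profile.
-/

namespace Vale.Agent.P219.CH.Core

open MeasureTheory Set Filter Topology
open scoped ContDiff RealInnerProductSpace

noncomputable section

namespace Mini

variable {n : ℕ} {G : Coeff n}

theorem inner_le (hG : IsMetric G) (x u v : E n) : |G x u v| ≤ gnorm G x u * gnorm G x v := by
  have hnn : ∀ w, 0 ≤ G x w w := fun w => by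
    rcases eq_or_ne w 0 with rfl | hw
    · simp
    · exact (hG.pos x w hw).le
  have key : ∀ t : ℝ, 0 ≤ G x u u * (t * t) + 2 * G x u v * t + G x v v := fun t => by
    have h := hnn (t • u + v)
    simp only [map_add, map_smul, add_apply, smul_apply, smul_eq_mul] at h
    rw [hG.symm x v u] at h
    linarith
  have hd := discrim_le_zero key
  rw [discrim] at hd
  rw [gnorm, gnorm, ← Real.sqrt_mul (hnn u), ← Real.sqrt_sq_eq_abs]
  exact Real.sqrt_le_sqrt (by nlinarith)

theorem continuous_apply₂ (hG : IsMetric G) :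
    Continuous fun p : E n × E n × E n => G p.1 p.2.1 p.2.2 :=
  ((hG.smooth.continuous.comp continuous_fst).clm_apply
    (continuous_fst.comp continuous_snd)).clm_apply (continuous_snd.comp continuous_snd)

theorem continuous_gnorm (hG : IsMetric G) {α : Type*} [TopologicalSpace α] {x u : α → E n}
    (hx : Continuous x) (hu : Continuous u) : Continuous fun a => gnorm G (x a) (u a) :=
  ((continuous_apply₂ hG).comp (hx.prodMk (hu.prodMk hu))).sqrt

theorem isUnit_sharp (hG : IsMetric G) (x : E n) : IsUnit (sharp G x) := by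
  rw [ContinuousLinearMap.isUnit_iff_isUnit_toLinearMap, LinearMap.isUnit_iff_ker_eq_bot,
    LinearMap.ker_eq_bot']
  intro u hu
  by_contra h
  have h1 : G x u = 0 := by
    have := congrArg (InnerProductSpace.toDual ℝ (E n)) hu
    simpa [sharp] using this
  have := hG.pos x u h
  simp [h1] at this

theorem continuous_grad (hG : IsMetric G) {f : E n → ℝ} (hf : ContDiff ℝ 1 f) :
    Continuous (grad G f) := by
  have hs : Continuous (sharp G) := continuous_const.clm_comp hG.smooth.continuous
  have hi : Continuous fun x => Ring.inverse (sharp G x) := continuous_iff_continuousAt.2 fun x => by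
    obtain ⟨u, hu⟩ := isUnit_sharp hG x
    have := NormedRing.inverse_continuousAt u
    rw [hu] at this
    exact this.comp hs.continuousAt
  exact hi.clm_apply ((InnerProductSpace.toDual ℝ (E n)).symm.continuous.comp
    (hf.continuous_fderiv one_ne_zero))

theorem grad_eq_zero {f : E n → ℝ} {x : E n} (hx : x ∉ tsupport f) : grad G f x = 0 := by
  simp [grad, fderiv_of_notMem_tsupport (𝕜 := ℝ) hx]

theorem continuous_dens (hG : IsMetric G) : Continuous (dens G) := by
  refine Continuous.sqrt (Continuous.matrix_det (continuous_matrix fun i j => ?_))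
  exact (hG.smooth.continuous.clm_apply continuous_const).clm_apply continuous_const

theorem locallyFinite_vol (hG : IsMetric G) : IsLocallyFiniteMeasure (vol G) :=
  IsLocallyFiniteMeasure.withDensity_ofReal (continuous_dens hG)

theorem measurable_normal (hG : IsMetric G) {f : E n → ℝ} (hf : ContDiff ℝ 1 f) :
    Measurable (normal G f) :=
  ((continuous_gnorm hG continuous_id (continuous_grad hG hf)).measurable.inv.neg).smul
    (continuous_grad hG hf).measurable

theorem tvar_nonneg (G : Coeff n) (f : E n → ℝ) : 0 ≤ tvar G f :=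
  integral_nonneg fun _ => Real.sqrt_nonneg _

theorem integrable_of_supp (hG : IsMetric G) {w : E n → ℝ} (hw : Continuous w)
    (hs : HasCompactSupport w) : Integrable w (vol G) := by
  have := locallyFinite_vol hG
  exact hw.integrable_of_hasCompactSupport hs

theorem integrable_gnorm_grad (hG : IsMetric G) {f : E n → ℝ} (hf : ContDiff ℝ 1 f)
    (hs : HasCompactSupport f) : Integrable (fun x => gnorm G x (grad G f x)) (vol G) := by
  refine integrable_of_supp hG (continuous_gnorm hG continuous_id (continuous_grad hG hf)) ?_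
  refine HasCompactSupport.intro hs fun x hx => ?_
  simp [gnorm, grad_eq_zero hx]

theorem surf_univ (hG : IsMetric G) {f : E n → ℝ} (hf : ContDiff ℝ 1 f)
    (hs : HasCompactSupport f) : surf G f univ = ENNReal.ofReal (tvar G f) := by
  rw [surf, withDensity_apply _ MeasurableSet.univ, Measure.restrict_univ, tvar,
    ofReal_integral_eq_lintegral_ofReal (integrable_gnorm_grad hG hf hs)
      (ae_of_all _ fun _ => Real.sqrt_nonneg _)]

theorem finite_surf (hG : IsMetric G) {f : E n → ℝ} (hf : ContDiff ℝ 1 f)
    (hs : HasCompactSupport f) : IsFiniteMeasure (surf G f) :=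
  ⟨by rw [surf_univ hG hf hs]; exact ENNReal.ofReal_lt_top⟩

theorem surf_real (hG : IsMetric G) {f : E n → ℝ} (hf : ContDiff ℝ 1 f)
    (hs : HasCompactSupport f) : (surf G f).real univ = tvar G f := by
  rw [measureReal_def, surf_univ hG hf hs, ENNReal.toReal_ofReal (tvar_nonneg G f)]

theorem surf_ae_mem (hG : IsMetric G) {f : E n → ℝ} (hf : ContDiff ℝ 1 f) :
    ∀ᵐ x ∂surf G f, x ∈ tsupport f := by
  rw [surf, ae_withDensity_iff]
  · refine ae_of_all _ fun x hx => ?_
    by_contra h
    exact hx (by simp [gnorm, grad_eq_zero h])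
  · exact (continuous_gnorm hG continuous_id (continuous_grad hG hf)).measurable.ennreal_ofReal

variable (Γ : Geo G)

theorem continuous_logm {α : Type*} [TopologicalSpace α] {x y : α → E n} (hx : Continuous x)
    (hy : Continuous y) : Continuous fun a => Γ.logm (x a) (y a) :=
  Γ.logm_c1.continuous.comp (hx.prodMk hy)

theorem continuous_dist (hG : IsMetric G) :
    Continuous fun p : E n × E n => Γ.dist p.1 p.2 :=
  continuous_gnorm hG continuous_fst (continuous_logm Γ continuous_fst continuous_snd)

theorem continuous_V : Continuous fun p : E n × E n => Γ.V p.1 p.2 :=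
  continuous_snd.comp (Γ.flow_c1.continuous.comp
    (continuous_const.prodMk (continuous_fst.prodMk (continuous_logm Γ continuous_fst continuous_snd))))

theorem gnorm_V (x y : E n) : gnorm G y (Γ.V x y) = Γ.dist x y := by
  have h := Γ.flow_speed 1 (x, Γ.logm x y)
  rw [Γ.exp_logm x y] at h
  exact h

theorem abs_cosAt_le (hG : IsMetric G) (f : E n → ℝ) (x y : E n) : |cosAt Γ f x y| ≤ 1 := by
  have hd : (0 : ℝ) ≤ Γ.dist x y := Real.sqrt_nonneg _
  have hn : gnorm G y (normal G f y) ≤ 1 := by
    set g := grad G f y with hg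
    have e : G y (normal G f y) (normal G f y) = (gnorm G y g)⁻¹ ^ 2 * G y g g := by
      simp [normal, ← hg]; ring
    rcases eq_or_ne g 0 with h | h
    · rw [gnorm, e, h]; simp
    · have hp := hG.pos y g h
      rw [gnorm, e, gnorm, inv_pow, Real.sq_sqrt hp.le, inv_mul_cancel₀ hp.ne', Real.sqrt_one]
  have h := inner_le hG y (Γ.V x y) (normal G f y)
  rw [gnorm_V] at h
  rw [cosAt, abs_div, abs_of_nonneg hd]
  exact div_le_one_of_le₀ (h.trans (mul_le_of_le_one_right hd hn)) hd

theorem measurable_cosAt (hG : IsMetric G) {f : E n → ℝ} (hf : ContDiff ℝ 1 f) :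
    Measurable fun p : E n × E n => cosAt Γ f p.1 p.2 := by
  refine Measurable.div ?_ (continuous_dist Γ hG).measurable
  have h := (continuous_apply₂ hG).measurable.comp (measurable_snd.prodMk
    ((continuous_V Γ).measurable.prodMk ((measurable_normal hG hf).comp measurable_snd)))
  exact h

theorem exists_euclid_bound (hG : IsMetric G) (o : E n) :
    ∃ c : ℝ, 0 < c ∧ ∀ v, c * ‖v‖ ≤ gnorm G o v := by
  rcases (Metric.sphere (0 : E n) 1).eq_empty_or_nonempty with he | hne
  · refine ⟨1, one_pos, fun v => ?_⟩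
    rcases eq_or_ne v 0 with rfl | hv
    · simp [gnorm]
    · have hmem : ‖v‖⁻¹ • v ∈ Metric.sphere (0 : E n) 1 := by
        simp [norm_smul, hv]
      rw [he] at hmem
      exact hmem.elim
  obtain ⟨w, hw, hmin⟩ := (isCompact_sphere (0 : E n) 1).exists_isMinOn hne
    (continuous_gnorm hG continuous_const continuous_id).continuousOn
  have hw0 : w ≠ 0 := fun h => by simp [h] at hw
  refine ⟨gnorm G o w, Real.sqrt_pos.2 (hG.pos o w hw0), fun v => ?_⟩
  rcases eq_or_ne v 0 with rfl | hv
  · simp [gnorm]
  · have hm : gnorm G o w ≤ gnorm G o (‖v‖⁻¹ • v) := hmin (by simp [norm_smul, hv])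
    have e : gnorm G o (‖v‖⁻¹ • v) = ‖v‖⁻¹ * gnorm G o v := by
      simp only [gnorm, map_smul, smul_apply, smul_eq_mul]
      rw [← mul_assoc, Real.sqrt_mul (mul_self_nonneg _), Real.sqrt_mul_self (by positivity)]
    rw [e, ← div_eq_inv_mul, le_div_iff₀ (norm_pos_iff.2 hv)] at hm
    exact hm

theorem isCompact_gball (hG : IsMetric G) (o : E n) (R : ℝ) : IsCompact (gball Γ o R) := by
  obtain ⟨c, hc, hcv⟩ := exists_euclid_bound hG o
  refine IsCompact.of_isClosed_subset ((isCompact_closedBall (0 : E n) (R / c)).image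
    (f := fun v => (Γ.flow 1 (o, v)).1) ?_) ?_ fun y hy => ?_
  · exact continuous_fst.comp (Γ.flow_c1.continuous.comp
      (continuous_const.prodMk (continuous_const.prodMk continuous_id)))
  · exact isClosed_le ((continuous_dist Γ hG).comp (continuous_const.prodMk continuous_id))
      continuous_const
  · refine ⟨Γ.logm o y, ?_, Γ.exp_logm o y⟩
    rw [mem_closedBall_zero_iff, le_div_iff₀ hc, mul_comm]
    exact (hcv _).trans hy

theorem exists_gball_superset (hG : IsMetric G) (o : E n) {K : Set (E n)} (hK : IsCompact K) :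
    ∃ R, 0 < R ∧ K ⊆ gball Γ o R := by
  obtain ⟨D, hD⟩ := hK.bddAbove_image
    ((continuous_dist Γ hG).comp (continuous_const.prodMk continuous_id) :
      Continuous fun y => Γ.dist o y).continuousOn
  exact ⟨max D 1, lt_max_of_lt_right one_pos, fun y hy =>
    (hD (mem_image_of_mem _ hy)).trans (le_max_left _ _)⟩

/-- A continuous kernel of distance and cosine is integrable on pairs of surface points. -/
theorem integrable_pair (hG : IsMetric G) {f : E n → ℝ} (hf : ContDiff ℝ 1 f)
    (hs : HasCompactSupport f) {w : ℝ → ℝ → ℝ} (hw : Continuous (Function.uncurry w)) :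
    Integrable (fun p : E n × E n => w (Γ.dist p.1 p.2) (cosAt Γ f p.1 p.2))
      ((surf G f).prod (surf G f)) := by
  have := finite_surf hG hf hs
  obtain ⟨D, hD⟩ := (hs.prod hs).bddAbove_image (continuous_dist Γ hG).continuousOn
  obtain ⟨C, hC⟩ := (isCompact_Icc (a := (0 : ℝ)) (b := D)).prod
    (isCompact_Icc (a := (-1 : ℝ)) (b := 1)) |>.exists_bound_of_continuousOn hw.continuousOn
  refine Integrable.of_bound ((hw.measurable.comp (((continuous_dist Γ hG).measurable).prodMk
    (measurable_cosAt Γ hG hf))).aestronglyMeasurable) C ?_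
  filter_upwards [Measure.quasiMeasurePreserving_fst.ae (surf_ae_mem hG hf),
    Measure.quasiMeasurePreserving_snd.ae (surf_ae_mem hG hf)] with p h1 h2
  exact hC (Γ.dist p.1 p.2, cosAt Γ f p.1 p.2)
    ⟨⟨Real.sqrt_nonneg _, hD (mem_image_of_mem _ ⟨h1, h2⟩)⟩,
      abs_le.1 (abs_cosAt_le Γ hG f p.1 p.2)⟩

theorem omega_pos (n : ℕ) : 0 < omega n :=
  ENNReal.toReal_pos (Metric.measure_ball_pos volume (0 : E n) one_pos).ne' measure_ball_lt_top.ne

theorem continuous_profile (hn : 1 ≤ n) : Continuous (profile n) :=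
  continuous_const.mul (Real.continuous_rpow_const
    (div_nonneg (sub_nonneg.2 (Nat.one_le_cast.2 hn)) (Nat.cast_nonneg n)))

theorem profile_mono (hn : 1 ≤ n) {v w : ℝ} (hv : 0 ≤ v) (h : v ≤ w) :
    profile n v ≤ profile n w := by
  refine mul_le_mul_of_nonneg_left (Real.rpow_le_rpow hv h ?_) ?_
  · exact div_nonneg (sub_nonneg.2 (Nat.one_le_cast.2 hn)) (Nat.cast_nonneg n)
  · have := (omega_pos n).le
    positivity

theorem profile_zero (hn : 2 ≤ n) : profile n 0 = 0 := by
  have hn' : (2 : ℝ) ≤ n := by exact_mod_cast hn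
  rw [profile, Real.zero_rpow (div_ne_zero (by linarith) (by linarith)), mul_zero]

/-- With `V = ω Rⁿ` the profile is `n ω Rⁿ⁻¹` and has derivative `(n - 1) / R`. -/
theorem profile_radius (hn : 1 ≤ n) {R : ℝ} (hR : 0 < R) :
    profile n (omega n * R ^ n) = n * omega n * R ^ (n - 1) ∧
      HasStrictDerivAt (profile n) (((n : ℝ) - 1) / R) (omega n * R ^ n) := by
  have hn0 : (0 : ℝ) < n := by exact_mod_cast hn
  have hw := omega_pos n
  have hm : ((n - 1 : ℕ) : ℝ) = (n : ℝ) - 1 := by rw [Nat.cast_sub hn]; simp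
  constructor
  · rw [profile, Real.mul_rpow hw.le (by positivity), ← Real.rpow_natCast R n,
      ← Real.rpow_mul hR.le, mul_div_cancel₀ _ hn0.ne', ← Real.rpow_natCast R (n - 1), hm]
    rw [show (n : ℝ) * omega n ^ (1 / (n : ℝ)) * (omega n ^ (((n : ℝ) - 1) / n) * R ^ ((n : ℝ) - 1)) =
      n * (omega n ^ (1 / (n : ℝ)) * omega n ^ (((n : ℝ) - 1) / n)) * R ^ ((n : ℝ) - 1) by ring,
      ← Real.rpow_add hw, ← add_div, add_sub_cancel, div_self hn0.ne', Real.rpow_one]
  · have hV : omega n * R ^ n ≠ 0 := by positivity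
    have h : HasStrictDerivAt (profile n) (n * omega n ^ (1 / (n : ℝ)) *
        ((((n : ℝ) - 1) / n) * (omega n * R ^ n) ^ (((n : ℝ) - 1) / n - 1))) (omega n * R ^ n) :=
      (Real.hasStrictDerivAt_rpow_const_of_ne hV _).const_mul _
    convert h using 1
    rw [show ((n : ℝ) - 1) / n - 1 = -(1 / (n : ℝ)) by field_simp; ring,
      Real.rpow_neg (by positivity), Real.mul_rpow hw.le (by positivity), ← Real.rpow_natCast R n,
      ← Real.rpow_mul hR.le, mul_one_div_cancel hn0.ne', Real.rpow_one]
    have := (Real.rpow_pos_of_pos hw (1 / (n : ℝ))).ne'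
    field_simp

end Mini

end

end Vale.Agent.P219.CH.Core
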