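import Vale.Agent.P219.CH.Core.MinTools
import Vale.Agent.P219.CH.Theta.Defs

/-!
P219: the core theorem from its four parts, by contradiction along almost minimisers of the
penalised deficit, without regularity theory. `Mini.sobolev_of_step` is the argument for any
certificate; `core_stmt` supplies the step for kernels of one cosine.

For a limit `(A, V)` of areas and volumes of almost minimisers, with `V = ω Rⁿ`, the first
variation along the averaged field and the chord bound for the certificate scaled to radius `R`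
give `n ω V + 2 n R gI A ≤ a A² / Rⁿ⁻²`; with the balance of the certificate this forces
`A ≥ profile V`.
-/

namespace Vale.Agent.P219.CH.Core

open MeasureTheory Set Filter Topology
open scoped ContDiff

noncomputable section

namespace Mini

variable {n : ℕ}

/-- The volume `∫ f`. -/
def mass (G : Coeff n) (f : E n → ℝ) : ℝ := ∫ x, f x ∂vol G

/-- The penalty `∫ f (1 - f)`. -/
def mid (G : Coeff n) (f : E n → ℝ) : ℝ := ∫ x, f x * (1 - f x) ∂vol G

/-- The penalised deficit. -/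
def deficit (G : Coeff n) (θ L : ℝ) (f : E n → ℝ) : ℝ :=
  tvar G f + L * mid G f - θ * profile n (mass G f)

/-- The admissible functions. -/
def class' (B : Set (E n)) : Set (E n → ℝ) :=
  {f | ContDiff ℝ 1 f ∧ tsupport f ⊆ B ∧ ∀ x, f x ∈ Icc (0 : ℝ) 1}

section

variable {G : Coeff n} (hG : IsMetric G) {B : Set (E n)} (hB : IsCompact B)
include hG hB

omit hG in
theorem hasCompactSupport {f : E n → ℝ} (hf : f ∈ class' B) : HasCompactSupport f :=
  HasCompactSupport.intro hB fun _ hx => image_eq_zero_of_notMem_tsupport fun h => hx (hf.2.1 h)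

theorem integrable_mass {f : E n → ℝ} (hf : f ∈ class' B) : Integrable f (vol G) :=
  integrable_of_supp hG hf.1.continuous (hasCompactSupport hB hf)

theorem mass_mem {f : E n → ℝ} (hf : f ∈ class' B) :
    0 ≤ mass G f ∧ mass G f ≤ (vol G B).toReal := by
  refine ⟨integral_nonneg fun x => (hf.2.2 x).1, ?_⟩
  have hfin : IsLocallyFiniteMeasure (vol G) := locallyFinite_vol hG
  calc mass G f ≤ ∫ x, B.indicator (fun _ => (1 : ℝ)) x ∂vol G := by
        refine integral_mono (integrable_mass hG hB hf)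
          ((integrableOn_const hB.measure_lt_top.ne).integrable_indicator hB.measurableSet)
          fun x => ?_
        by_cases hx : x ∈ B
        · simpa [hx] using (hf.2.2 x).2
        · simp [hx, image_eq_zero_of_notMem_tsupport fun h => hx (hf.2.1 h)]
    _ = (vol G B).toReal := by
        rw [integral_indicator_const _ hB.measurableSet, smul_eq_mul, mul_one, measureReal_def]

omit hG hB in
theorem mid_nonneg {f : E n → ℝ} (hf : f ∈ class' B) : 0 ≤ mid G f :=
  integral_nonneg fun x => mul_nonneg (hf.2.2 x).1 (sub_nonneg.2 (hf.2.2 x).2)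

theorem deficit_ge (hn : 1 ≤ n) {θ : ℝ} (hθ : 0 ≤ θ) {L : ℝ} (hL : 0 ≤ L) {f : E n → ℝ}
    (hf : f ∈ class' B) : -(θ * profile n (vol G B).toReal) ≤ deficit G θ L f := by
  have h := mul_le_mul_of_nonneg_left
    (profile_mono hn (mass_mem hG hB hf).1 (mass_mem hG hB hf).2) hθ
  have := tvar_nonneg G f
  have := mul_nonneg hL (mid_nonneg (G := G) hf)
  unfold deficit
  linarith

/-- An almost minimiser at a penalty so large that its penalty term is negligible. -/
theorem exists_almost (hn : 1 ≤ n) {θ : ℝ} (hθ : 0 ≤ θ) {δ : ℝ}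
    (hbad : ∀ L, 0 ≤ L → ∃ f ∈ class' B, deficit G θ L f < -δ) {η : ℝ} (hη : 0 < η) :
    ∃ L, 1 ≤ L ∧ ∃ f ∈ class' B, deficit G θ L f ≤ -δ + η ∧ L * mid G f ≤ 4 * η ∧
      ∀ g ∈ class' B, deficit G θ L f ≤ deficit G θ L g + η := by
  set m : ℝ → ℝ := fun L => sInf (deficit G θ L '' class' B) with hm
  have hbdd : ∀ L, 0 ≤ L → BddBelow (deficit G θ L '' class' B) := fun L hL =>
    ⟨_, forall_mem_image.2 fun f hf => deficit_ge hG hB hn hθ hL hf⟩
  have hle : ∀ L, 0 ≤ L → ∀ f ∈ class' B, m L ≤ deficit G θ L f := fun L hL f hf =>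
    csInf_le (hbdd L hL) (mem_image_of_mem _ hf)
  have hne : ∀ L, 0 ≤ L → (deficit G θ L '' class' B).Nonempty := fun L hL => by
    obtain ⟨f, hf, -⟩ := hbad L hL
    exact ⟨_, mem_image_of_mem _ hf⟩
  have hup : ∀ L, 0 ≤ L → m L ≤ -δ := fun L hL => by
    obtain ⟨f, hf, h⟩ := hbad L hL
    exact (hle L hL f hf).trans h.le
  obtain ⟨k, hk⟩ : ∃ k : ℕ, m (2 ^ (k + 1)) - m (2 ^ k) ≤ η := by
    by_contra hc
    push Not at hc
    have hgrow : ∀ k : ℕ, m 1 + k * η ≤ m (2 ^ k) := fun k => by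
      induction k with
      | zero => simp
      | succ k ih => push_cast; linarith [hc k]
    obtain ⟨k, hk⟩ := exists_nat_gt ((-δ - m 1) / η)
    rw [div_lt_iff₀ hη] at hk
    linarith [hgrow k, hup (2 ^ k) (by positivity)]
  set L : ℝ := 2 ^ k with hL
  have hL0 : 0 < L := by positivity
  have h2L : (2 : ℝ) ^ (k + 1) = 2 * L := by rw [hL, pow_succ]; ring
  rw [h2L] at hk
  obtain ⟨_, ⟨f, hf, rfl⟩, hlt⟩ := exists_lt_of_csInf_lt (hne (2 * L) (by positivity))
    (show m (2 * L) < m (2 * L) + η by linarith)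
  refine ⟨2 * L, by linarith [one_le_pow₀ (M₀ := ℝ) (a := 2) (n := k) (by norm_num)], f, hf,
    by linarith [hup (2 * L) (by positivity)], ?_, fun g hg => ?_⟩
  · have h1 := hle L hL0.le f hf
    have e : deficit G θ (2 * L) f = deficit G θ L f + L * mid G f := by unfold deficit; ring
    linarith
  · linarith [hle (2 * L) (by positivity) g hg]

end

/-- The scaled kernel `φ_R`. -/
def scaleφ (n : ℕ) (R : ℝ) (φ : ℝ → ℝ) (s : ℝ) : ℝ := (R ^ (n - 2))⁻¹ * φ (s / R ^ 2)

/-- The three parts of the scaled `kernelQ`. -/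
def geomPart (n : ℕ) (φ : ℝ → ℝ) (r d : ℝ) : ℝ :=
  (1 - d ^ 2) * (φ (r ^ 2) + 2 * r ^ 2 * deriv φ (r ^ 2)) + φ (r ^ 2) * ((n : ℝ) - 2 + d ^ 2)

theorem scaleφ_deriv {φ : ℝ → ℝ} (hφ : ContDiff ℝ 1 φ) (R s : ℝ) :
    deriv (scaleφ n R φ) s = (R ^ (n - 2))⁻¹ * (deriv φ (s / R ^ 2) / R ^ 2) := by
  have h := ((hφ.differentiable one_ne_zero) (s / R ^ 2)).hasDerivAt.comp s
    ((hasDerivAt_id s).div_const (R ^ 2))
  exact ((h.const_mul _).congr_deriv (by ring)).deriv

theorem kernelQ_scale {φ : ℝ → ℝ} (hφ : ContDiff ℝ 1 φ) {R : ℝ} (hR : 0 < R) (a r d : ℝ) :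
    (R ^ (n - 2))⁻¹ * kernelQ n a φ (r / R) d =
      (R ^ (n - 2))⁻¹ * a + geomPart n (scaleφ n R φ) r d -
        ((n : ℝ) - 1) / R * (r * scaleφ n R φ (r ^ 2) * d) := by
  unfold geomPart kernelQ
  rw [scaleφ_deriv hφ, scaleφ, show (r / R) ^ 2 = r ^ 2 / R ^ 2 by rw [div_pow]]
  field_simp
  ring

theorem gInt_scale (hn : 0 < n) (R : ℝ) (g : ℝ → ℝ) :
    gInt hn (fun c => R * g c) = R * gInt hn g := by
  rw [gInt, gInt, ← integral_const_mul]
  simp only [mul_assoc]

theorem gInt_nonpos (hn : 0 < n) {g : ℝ → ℝ} (hg : ∀ c ∈ Icc (0 : ℝ) 1, g c ≤ 0) :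
    gInt hn g ≤ 0 := by
  refine setIntegral_nonpos (measurableSet_ball.inter
    (measurableSet_lt measurable_const (by fun_prop))) fun v hv => ?_
  have h0 : 0 ≤ v ⟨0, hn⟩ / ‖v‖ := div_nonneg hv.2.le (norm_nonneg _)
  have h1 : v ⟨0, hn⟩ / ‖v‖ ≤ 1 :=
    div_le_one_of_le₀ ((le_abs_self _).trans (PiLp.norm_apply_le v _)) (norm_nonneg _)
  exact mul_nonpos_of_nonpos_of_nonneg (hg _ ⟨h0, h1⟩) h0

/-- The certificate and its balance exclude a deficit. -/
theorem no_deficit (hn : 2 ≤ n) {a : ℝ} (ha0 : 0 ≤ a) {g : ℝ → ℝ}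
    (hgp : ∀ c ∈ Icc (0 : ℝ) 1, g c ≤ 0)
    (hbal : a * n * omega n = omega n + 2 * n * gInt (show 0 < n from lt_of_lt_of_le two_pos hn) g)
    {R A : ℝ} (hR : 0 < R) (hA : 0 ≤ A)
    (hdef : A < profile n (omega n * R ^ n))
    (hmain : n * omega n * (omega n * R ^ n) +
        2 * n * (R * gInt (show 0 < n from lt_of_lt_of_le two_pos hn) g) * A ≤
      (R ^ (n - 2))⁻¹ * a * A ^ 2) : False := by
  obtain ⟨hp, -⟩ := profile_radius (show 1 ≤ n by omega) hR
  rw [hp] at hdef
  have hg := gInt_nonpos (show 0 < n by omega) hgp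
  set gI := gInt (show 0 < n by omega) g
  have hw := omega_pos n
  obtain ⟨k, rfl⟩ : ∃ k, n = k + 2 := ⟨n - 2, by omega⟩
  simp only [show k + 2 - 1 = k + 1 from rfl, Nat.add_sub_cancel] at hdef hmain
  set P := (((k + 2 : ℕ) : ℝ)) * omega (k + 2) * R ^ (k + 1) with hP
  have hP0 : 0 < P := by rw [hP]; positivity
  set α := A / P
  have hA' : A = α * P := (div_mul_cancel₀ A hP0.ne').symm
  have hα0 : 0 ≤ α := div_nonneg hA hP0.le
  have hα1 : α < 1 := (div_lt_one hP0).2 hdef
  have key : omega (k + 2) + 2 * ((k + 2 : ℕ) : ℝ) * gI * α ≤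
      (omega (k + 2) + 2 * ((k + 2 : ℕ) : ℝ) * gI) * α ^ 2 := by
    rw [← hbal]
    have hc : 0 < ((k + 2 : ℕ) : ℝ) * omega (k + 2) * R ^ (k + 2) := by positivity
    refine le_of_mul_le_mul_left ?_ hc
    rw [hA', hP] at hmain
    have e : (R ^ k)⁻¹ * (R ^ (k + 1)) ^ 2 = R ^ (k + 2) := by field_simp; ring
    linear_combination hmain + a * ((k + 2 : ℕ) : ℝ) ^ 2 * omega (k + 2) ^ 2 * α ^ 2 * e
  have ha : 0 ≤ omega (k + 2) + 2 * ((k + 2 : ℕ) : ℝ) * gI := by
    rw [← hbal]; positivity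
  nlinarith [mul_pos (sub_pos.2 hα1) hw, mul_nonneg (mul_nonneg (sub_pos.2 hα1).le hα0) ha,
    mul_nonneg (sub_pos.2 hα1).le hα0]

/-- The surface pairs against the first variation. -/
theorem pair_eq {G : Coeff n} (Γ : Geo G) (hG : IsMetric G) {f : E n → ℝ} (hf : ContDiff ℝ 1 f)
    (hs : HasCompactSupport f) {φ : ℝ → ℝ} (hφ : ContDiff ℝ 1 φ) {R : ℝ} (hR : 0 < R) (a : ℝ) :
    (∫ x, (∫ y, (R ^ (n - 2))⁻¹ * kernelQ n a φ (Γ.dist x y / R) (cosAt Γ f x y) ∂surf G f)
        ∂surf G f) =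
      (R ^ (n - 2))⁻¹ * a * tvar G f ^ 2 +
        (∫ x, (∫ y,
            (1 - cosAt Γ f x y ^ 2) * (scaleφ n R φ (Γ.dist x y ^ 2) +
              2 * Γ.dist x y ^ 2 * deriv (scaleφ n R φ) (Γ.dist x y ^ 2)) +
            scaleφ n R φ (Γ.dist x y ^ 2) * ((n : ℝ) - 2 + cosAt Γ f x y ^ 2) ∂surf G f)
          ∂surf G f) -
        ((n : ℝ) - 1) / R * ∫ x, (∫ y,
            Γ.dist x y * scaleφ n R φ (Γ.dist x y ^ 2) * cosAt Γ f x y ∂surf G f) ∂surf G f := by
  have := finite_surf hG hf hs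
  set ψ := scaleφ n R φ with hψ
  have hψ1 : ContDiff ℝ 1 ψ := contDiff_const.mul (hφ.comp (contDiff_id.div_const _))
  have hψc : Continuous ψ := hψ1.continuous
  have hψd : Continuous (deriv ψ) := hψ1.continuous_deriv le_rfl
  have hwg : Continuous (Function.uncurry (geomPart n ψ)) := by
    unfold geomPart; simp only [Function.uncurry_def]; fun_prop
  have hwb : Continuous (Function.uncurry fun r d : ℝ => r * ψ (r ^ 2) * d) := by
    simp only [Function.uncurry_def]; fun_prop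
  have i1 := integrable_pair Γ hG hf hs hwg
  have i2 := integrable_pair Γ hG hf hs hwb
  have i0 : Integrable (fun _ : E n × E n => (R ^ (n - 2))⁻¹ * a) ((surf G f).prod (surf G f)) :=
    integrable_const _
  have i3 := integrable_pair Γ hG hf hs (w := fun r d => (R ^ (n - 2))⁻¹ * a + geomPart n ψ r d -
    ((n : ℝ) - 1) / R * (r * ψ (r ^ 2) * d)) (by
    simp only [Function.uncurry_def]
    exact (continuous_const.add hwg).sub (continuous_const.mul hwb))
  simp only [kernelQ_scale hφ hR, ← hψ]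
  rw [integral_integral i3, integral_integral i1, integral_integral i2]
  rw [integral_sub (i0.fun_add i1) (i2.const_mul _), integral_add i0 i1]
  rw [integral_const_mul (((n : ℝ) - 1) / R)]
  congr 2
  rw [integral_const, smul_eq_mul, measureReal_def, ← univ_prod_univ, Measure.prod_prod,
    ENNReal.toReal_mul, ← measureReal_def, surf_real hG hf hs]
  ring

/-- The first order bound on a shift. -/
theorem abs_shift {V V' F σ t B : ℝ} (ht : 0 < t) (hV : |V' - V + t * F| ≤ σ * t * V)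
    (hF : |F| ≤ B * V) : |V' - V| ≤ t * (B + σ) * V := by
  have h := mul_le_mul_of_nonneg_left hF ht.le
  have h1 := abs_le.1 hV
  have h2 : t * F ≤ t * |F| := mul_le_mul_of_nonneg_left (le_abs_self F) ht.le
  have h3 : t * (-F) ≤ t * |F| := mul_le_mul_of_nonneg_left (neg_le_abs F) ht.le
  rw [abs_le]
  constructor <;> linarith [h1.1, h1.2]

/-- Almost minimality against a competitor close in first order gives almost stationarity. -/
theorem stationary {A A' V V' J J' P P' I F1 F2 L σ t B η h ζ Amax Vm : ℝ} (ht : 0 < t)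
    (hσ : 0 ≤ σ) (hh : 0 ≤ h) (hL : 0 ≤ L) (hB : 0 ≤ B)
    (hA : |A' - A + t * I| ≤ σ * t * A) (hV : |V' - V + t * F1| ≤ σ * t * V)
    (hJ' : |J' - J + t * F2| ≤ σ * t * J) (hF2 : |F2| ≤ B * J) (hLJ : L * J ≤ 4 * η)
    (hlin : h * (V' - V) - ζ * |V' - V| ≤ P' - P) (hζ : ζ * |V' - V| ≤ σ * t)
    (hmin : A + L * J - P ≤ A' + L * J' - P' + η) (hsmall : η / t + 4 * η * (B + σ) ≤ σ)
    (hAm : A ≤ Amax) (hVm : V ≤ Vm) : I - h * F1 ≤ σ * (Amax + h * Vm + 2) := by
  have h1 : J' - J ≤ t * (B + σ) * J := by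
    have e1 := (abs_le.1 hJ').2
    have e2 := mul_le_mul_of_nonneg_left ((neg_le_abs F2).trans hF2) ht.le
    linarith
  have h2 : L * J' - L * J ≤ t * (B + σ) * (4 * η) := by
    calc L * J' - L * J = L * (J' - J) := by ring
      _ ≤ L * (t * (B + σ) * J) := mul_le_mul_of_nonneg_left h1 hL
      _ = t * (B + σ) * (L * J) := by ring
      _ ≤ _ := mul_le_mul_of_nonneg_left hLJ (by positivity)
  have h3 : η + t * (B + σ) * (4 * η) ≤ t * σ := by
    calc η + t * (B + σ) * (4 * η) = t * (η / t + 4 * η * (B + σ)) := by field_simp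
      _ ≤ _ := mul_le_mul_of_nonneg_left hsmall ht.le
  have a1 := (abs_le.1 hA).2
  have a2 := mul_le_mul_of_nonneg_left (abs_le.1 hV).1 hh
  have key : t * (I - h * F1) ≤ t * (σ * A + h * (σ * V) + 2 * σ) := by linarith
  have key' := le_of_mul_le_mul_left key ht
  have b1 : σ * A ≤ σ * Amax := mul_le_mul_of_nonneg_left hAm hσ
  have b2 : h * (σ * V) ≤ h * (σ * Vm) := by gcongr
  linarith

/-- What the argument needs for a certificate `(a, g)` at radius `R` up to `σ`: fields along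
which the variation of area less the scaled variation of volume dominates the chord bound. -/
def StepStmt {G : Coeff n} (Γ : Geo G) (a : ℝ) (g : ℝ → ℝ) : Prop :=
  ∀ (hn : 0 < n) (o : E n) (Rb A R σ : ℝ), 0 < Rb → 0 < R → 0 < σ →
  ∃ (K : Set (E n)) (M : ℝ) (η : ℝ → ℝ) (t₀ B : ℝ), IsCompact K ∧ Tendsto η (𝓝 0) (𝓝 0) ∧
    0 < t₀ ∧ ∀ f : E n → ℝ, ContDiff ℝ 1 f → tsupport f ⊆ gball Γ o Rb →
      (∀ x, f x ∈ Icc (0 : ℝ) 1) → tvar G f ≤ A → ∃ X, FieldBound K M η X ∧
        (∀ x, |divg G X x| ≤ B) ∧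
        (∀ t, 0 < t → t ≤ t₀ → tsupport (fun x => f (x + t • X x)) ⊆ gball Γ o Rb) ∧
        (n * omega n) * (∫ x, f x ^ 2 ∂vol G) +
            (2 * n * (R * gInt hn g) - R * σ * (n * omega n)) * tvar G f ≤
          (R ^ (n - 2))⁻¹ * a * tvar G f ^ 2 +
            ((∫ x, divTan G f X x ∂surf G f) -
              ((n : ℝ) - 1) / R * ∫ x, f x * divg G X x ∂vol G) +
            ((n : ℝ) - 1) / R * σ

/-- Fields for a certificate that excludes a deficit give the smooth form with the constant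
`θ`. -/
theorem sobolevWith_of_step (hn5 : 5 ≤ n) (hgeo : GeoStmt n) (hvar : VariationStmt n) {θ : ℝ}
    (hθ : 0 < θ) {a : ℝ} {g : ℝ → ℝ}
    (hno : ∀ (hn : 0 < n) (R A : ℝ), 0 < R → 0 ≤ A → A < θ * profile n (omega n * R ^ n) →
      n * omega n * (omega n * R ^ n) + 2 * n * (R / θ * gInt hn g) * A ≤
        ((R / θ) ^ (n - 2))⁻¹ * a * A ^ 2 → False)
    (hstep : ∀ G : Coeff n, IsCH G → ∀ Γ : Geo G, StepStmt Γ a g) : SobolevWith n θ := by
  intro G hCH K hK δ hδ
  obtain ⟨Γ⟩ := hgeo G hCH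
  have hG := hCH.metric
  have hn1 : 1 ≤ n := by omega
  obtain ⟨Rb, hRb, hKB⟩ := exists_gball_superset Γ hG (0 : E n) hK
  set B := gball Γ (0 : E n) Rb with hBdef
  have hB : IsCompact B := isCompact_gball Γ hG _ _
  by_contra hcon
  push Not at hcon
  have hbad : ∀ L, 0 ≤ L → ∃ f ∈ class' B, deficit G θ L f < -δ := fun L hL => by
    obtain ⟨f, hf, hfs, hf01, hlt⟩ := hcon L hL
    exact ⟨f, ⟨hf.of_le (by norm_num), hfs.trans hKB, hf01⟩,
      by unfold deficit mid mass; linarith⟩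
  -- almost minimisers
  set η : ℕ → ℝ := fun k => δ / 4 / ((k : ℝ) + 1) with hη
  have hη0 : ∀ k, 0 < η k := fun k => by positivity
  have hηle : ∀ k, η k ≤ δ / 4 := fun k =>
    div_le_self (by positivity) (by linarith [Nat.cast_nonneg (α := ℝ) k])
  have hηlim : Tendsto η atTop (𝓝 0) := by
    have := (tendsto_const_div_atTop_nhds_zero_nat (δ / 4)).comp (tendsto_add_atTop_nat 1)
    exact this.congr fun k => by simp [hη]
  choose L hL f hf hdef hmid hmin using fun k => exists_almost hG hB hn1 hθ.le hbad (hη0 k)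
  set A : ℕ → ℝ := fun k => tvar G (f k) with hAdef
  set V : ℕ → ℝ := fun k => mass G (f k) with hVdef
  set Vm := (vol G B).toReal with hVm
  have hAV : ∀ k, A k ≤ θ * profile n (V k) - δ / 2 := fun k => by
    have h1 := hdef k
    have h2 := mul_nonneg (zero_le_one.trans (hL k)) (mid_nonneg (G := G) (hf k))
    unfold deficit at h1
    linarith [hηle k]
  set Amax := θ * profile n Vm with hAmax
  have hAmem : ∀ k, (A k, V k) ∈ Icc (0 : ℝ) Amax ×ˢ Icc (0 : ℝ) Vm := fun k =>
    ⟨⟨tvar_nonneg G _, by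
      linarith [hAV k, mul_le_mul_of_nonneg_left
        (profile_mono hn1 (mass_mem hG hB (hf k)).1 (mass_mem hG hB (hf k)).2) hθ.le]⟩,
      mass_mem hG hB (hf k)⟩
  obtain ⟨⟨A₁, V₁⟩, hmem1, s, hs, hlim⟩ :=
    (isCompact_Icc.prod isCompact_Icc).tendsto_subseq hAmem
  have hAlim : Tendsto (fun k => A (s k)) atTop (𝓝 A₁) := hlim.fst_nhds
  have hVlim : Tendsto (fun k => V (s k)) atTop (𝓝 V₁) := hlim.snd_nhds
  have hA₁ : 0 ≤ A₁ := hmem1.1.1
  have hAV₁ : A₁ ≤ θ * profile n V₁ - δ / 2 :=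
    le_of_tendsto_of_tendsto hAlim
      (((((continuous_profile hn1).tendsto V₁).comp hVlim).const_mul θ).sub_const _)
      (Eventually.of_forall fun k => hAV (s k))
  have hV₁ : 0 < V₁ := by
    rcases hmem1.2.1.eq_or_lt with h | h
    · simp only at h
      rw [← h, profile_zero (by omega), mul_zero] at hAV₁
      linarith
    · exact h
  set R := (V₁ / omega n) ^ (1 / (n : ℝ)) with hRdef
  have hw := omega_pos n
  have hR : 0 < R := Real.rpow_pos_of_pos (div_pos hV₁ hw) _
  have hVR : omega n * R ^ n = V₁ := by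
    rw [hRdef, one_div, Real.rpow_inv_natCast_pow (div_pos hV₁ hw).le (by omega),
      mul_div_cancel₀ _ hw.ne']
  obtain ⟨-, hD⟩ := profile_radius hn1 hR
  rw [hVR] at hD
  have hD' := hD.hasStrictFDerivAt.const_mul θ
  set R' := R / θ with hR'
  have hR'0 : 0 < R' := div_pos hR hθ
  set h := ((n : ℝ) - 1) / R' with hh
  have hhR : h = θ * (((n : ℝ) - 1) / R) := by rw [hh, hR']; field_simp
  have hh0 : 0 ≤ h := div_nonneg (sub_nonneg.2 (Nat.one_le_cast.2 hn1)) hR'0.le
  set gI := gInt (show 0 < n by omega) g with hgI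
  set κ := (R' ^ (n - 2))⁻¹ with hκ
  have hκ0 : 0 < κ := by positivity
  set C₁ := Amax + h * (Vm + 1) + h + 2 + R' * (n * omega n) * Amax with hC₁
  -- the main inequality up to `σ`
  have hmain : ∀ σ : ℝ, 0 < σ →
      n * omega n * V₁ + 2 * n * (R' * gI) * A₁ - κ * a * A₁ ^ 2 ≤ C₁ * σ := by
    intro σ hσ
    obtain ⟨K', M, ω', t₀, Bd, hK', hω', ht₀, hX⟩ :=
      hstep G hCH Γ (by omega) 0 Rb Amax R' σ hRb hR'0 hσ
    obtain ⟨t₁, ht₁, hvar'⟩ := hvar G hG K' hK' M ω' hω' σ hσ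
    set Bp := max Bd 0 + σ with hBp
    have hBp0 : 0 < Bp := by rw [hBp]; linarith [le_max_right Bd 0]
    set ζ := σ / (Bp * (Vm + 1)) with hζ
    have hVm0 : 0 ≤ Vm := ENNReal.toReal_nonneg
    have hζ0 : 0 < ζ := by positivity
    obtain ⟨ρ, hρ, hlin⟩ := Metric.eventually_nhds_iff.1 (hD'.isLittleO.def hζ0)
    set t := min (min t₀ t₁) (ρ / 2 / (Bp * (Vm + 1))) with ht
    have ht0 : 0 < t := lt_min (lt_min ht₀ ht₁) (by positivity)
    have hnear : ∀ᶠ k in atTop, |V (s k) - V₁| < ρ / 2 :=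
      (Metric.tendsto_nhds.1 hVlim (ρ / 2) (by positivity)).mono fun k hk => by
        rwa [Real.dist_eq] at hk
    have hsmall : ∀ᶠ k in atTop, η (s k) / t + 4 * η (s k) * Bp ≤ σ := by
      have : Tendsto (fun k => η (s k) / t + 4 * η (s k) * Bp) atTop (𝓝 0) := by
        have h0 := hηlim.comp hs.tendsto_atTop
        simpa using (h0.div_const t).add ((h0.const_mul 4).mul_const Bp)
      exact this.eventually_le_const hσ
    have hstep : ∀ᶠ k in atTop, n * omega n * V (s k) + 2 * n * (R' * gI) * A (s k) -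
        κ * a * A (s k) ^ 2 ≤ C₁ * σ + n * omega n * (4 * η (s k)) := by
      filter_upwards [hnear, hsmall] with k hk1 hk2
      obtain ⟨⟨hfA0, hfA⟩, hfV0, hfV⟩ := hAmem (s k)
      have hfc : f (s k) ∈ class' B := hf (s k)
      obtain ⟨X, hXb, hXdiv, hXsupp, hch⟩ :=
        hX (f (s k)) hfc.1 hfc.2.1 hfc.2.2 hfA
      obtain ⟨hvA, hvP⟩ := hvar' t ht0 ((min_le_left _ _).trans (min_le_right _ _)) X hXb
        (f (s k)) hfc.1 (hasCompactSupport hB hfc)
      set f' : E n → ℝ := fun x => f (s k) (x + t • X x) with hf'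
      have hf'c : f' ∈ class' B :=
        ⟨hfc.1.comp (contDiff_id.add (hXb.1.const_smul t)),
          hXsupp t ht0 ((min_le_left _ _).trans (min_le_left _ _)), fun x => hfc.2.2 _⟩
      have hc1 := hvP (fun u => u) continuous_id rfl
      have hc2 := hvP (fun u => u * (1 - u)) (by fun_prop) (by simp)
      have e1 : (∫ x, |f (s k) x| ∂vol G) = mass G (f (s k)) :=
        integral_congr_ae (ae_of_all _ fun x => abs_of_nonneg (hfc.2.2 x).1)
      have e2 : (∫ x, |f (s k) x * (1 - f (s k) x)| ∂vol G) = mid G (f (s k)) :=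
        integral_congr_ae (ae_of_all _ fun x => abs_of_nonneg
          (mul_nonneg (hfc.2.2 x).1 (sub_nonneg.2 (hfc.2.2 x).2)))
      rw [e1] at hc1
      rw [e2] at hc2
      set F1 := ∫ x, f (s k) x * divg G X x ∂vol G
      set F2 := ∫ x, f (s k) x * (1 - f (s k) x) * divg G X x ∂vol G
      set I := ∫ x, divTan G (f (s k)) X x ∂surf G (f (s k))
      have hb : ∀ P : E n → ℝ, Integrable P (vol G) → (∀ x, 0 ≤ P x) →
          |∫ x, P x * divg G X x ∂vol G| ≤ max Bd 0 * ∫ x, P x ∂vol G := fun P hPi hP0 => by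
        rw [← integral_const_mul, ← Real.norm_eq_abs]
        refine norm_integral_le_of_norm_le (hPi.const_mul _) (ae_of_all _ fun x => ?_)
        rw [Real.norm_eq_abs, abs_mul, abs_of_nonneg (hP0 x), mul_comm]
        exact mul_le_mul_of_nonneg_right ((hXdiv x).trans (le_max_left _ _)) (hP0 x)
      have hF1 : |F1| ≤ max Bd 0 * V (s k) :=
        hb _ (integrable_mass hG hB hfc) fun x => (hfc.2.2 x).1
      have hF2 : |F2| ≤ max Bd 0 * mid G (f (s k)) :=
        hb _ (integrable_of_supp hG (hfc.1.continuous.mul (continuous_const.sub hfc.1.continuous))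
          (hasCompactSupport hB hfc).mul_right) fun x =>
            mul_nonneg (hfc.2.2 x).1 (sub_nonneg.2 (hfc.2.2 x).2)
      change |mass G f' - V (s k) + t * F1| ≤ σ * t * V (s k) at hc1
      change |mid G f' - mid G (f (s k)) + t * F2| ≤ σ * t * mid G (f (s k)) at hc2
      change |tvar G f' - A (s k) + t * I| ≤ σ * t * A (s k) at hvA
      have hJ0 := mid_nonneg (G := G) hfc
      have hΔ : |mass G f' - V (s k)| ≤ t * Bp * V (s k) := abs_shift ht0 hc1 hF1
      have hΔρ : |mass G f' - V₁| < ρ := by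
        have h1 : t * Bp * V (s k) ≤ ρ / 2 := by
          calc t * Bp * V (s k) ≤ ρ / 2 / (Bp * (Vm + 1)) * Bp * (Vm + 1) := by
                refine mul_le_mul (mul_le_mul_of_nonneg_right (min_le_right _ _) hBp0.le)
                  (hfV.trans (le_add_of_nonneg_right zero_le_one)) hfV0 (by positivity)
            _ = ρ / 2 := by field_simp
        calc |mass G f' - V₁| ≤ |mass G f' - V (s k)| + |V (s k) - V₁| := abs_sub_le _ _ _
          _ < ρ := by linarith only [hΔ, h1, hk1]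
      have hl := hlin (y := (mass G f', V (s k))) (by
        rw [Prod.dist_eq, max_lt_iff, Real.dist_eq, Real.dist_eq]
        exact ⟨hΔρ, by linarith only [hk1, hρ]⟩)
      have hl' : h * (mass G f' - V (s k)) - ζ * |mass G f' - V (s k)| ≤
          θ * profile n (mass G f') - θ * profile n (V (s k)) := by
        simp [Real.norm_eq_abs] at hl
        rw [hhR]
        linarith only [(abs_le.1 hl).1]
      have hζΔ : ζ * |mass G f' - V (s k)| ≤ σ * t := by
        calc ζ * |mass G f' - V (s k)| ≤ ζ * (t * Bp * (Vm + 1)) :=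
              mul_le_mul_of_nonneg_left (hΔ.trans (mul_le_mul_of_nonneg_left
                (hfV.trans (le_add_of_nonneg_right zero_le_one)) (by positivity))) hζ0.le
          _ = σ * t := by rw [hζ]; field_simp
      have hIF : I - h * F1 ≤ σ * (Amax + h * (Vm + 1) + 2) :=
        stationary ht0 hσ.le hh0 (zero_le_one.trans (hL (s k))) (le_max_right Bd 0) hvA hc1 hc2
          hF2 (hmid (s k)) hl' hζΔ (hmin (s k) f' hf'c) hk2 hfA
          (hfV.trans (le_add_of_nonneg_right zero_le_one))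
      have hsq : (∫ x, f (s k) x ^ 2 ∂vol G) = V (s k) - mid G (f (s k)) := by
        rw [hVdef]
        simp only [mass, mid]
        have i2 : Integrable (fun x => f (s k) x * (1 - f (s k) x)) (vol G) :=
          integrable_of_supp hG (hfc.1.continuous.mul (continuous_const.sub hfc.1.continuous))
            (hasCompactSupport hB hfc).mul_right
        rw [← integral_sub (integrable_mass hG hB hfc) i2]
        exact integral_congr_ae (ae_of_all _ fun x => by ring)
      rw [hsq] at hch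
      rw [← hgI, ← hκ, ← hh] at hch
      have hJ : mid G (f (s k)) ≤ 4 * η (s k) :=
        (le_mul_of_one_le_left hJ0 (hL _)).trans (hmid _)
      have hnw : 0 ≤ (n : ℝ) * omega n := by positivity
      have b3 : R' * σ * (n * omega n) * A (s k) ≤ R' * σ * (n * omega n) * Amax := by gcongr
      have b4 := mul_le_mul_of_nonneg_left hJ hnw
      simp only [hAdef, hVdef] at hch b3 b4 hIF ⊢
      rw [hC₁]
      linarith
    refine le_of_tendsto_of_tendsto
      (((hVlim.const_mul _).add (hAlim.const_mul _)).sub ((hAlim.pow 2).const_mul _))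
      (?_ : Tendsto (fun k => C₁ * σ + n * omega n * (4 * η (s k))) atTop (𝓝 (C₁ * σ))) hstep
    simpa using (((hηlim.comp hs.tendsto_atTop).const_mul 4).const_mul _).const_add (C₁ * σ)
  have hfinal : n * omega n * V₁ + 2 * n * (R' * gI) * A₁ ≤ κ * a * A₁ ^ 2 := by
    refine sub_nonpos.1 (le_of_forall_pos_le_add fun ε hε => ?_)
    have := hmain (ε / (|C₁| + 1)) (by positivity)
    calc _ ≤ C₁ * (ε / (|C₁| + 1)) := this
      _ ≤ (|C₁| + 1) * (ε / (|C₁| + 1)) := by gcongr; linarith [le_abs_self C₁]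
      _ = 0 + ε := by rw [mul_div_cancel₀ _ (by positivity), zero_add]
  refine hno (by omega) R A₁ hR hA₁ ?_ ?_
  · rw [hVR]; linarith
  · rw [hVR, ← hR', ← hκ, ← hgI]; exact hfinal

/-- Fields for a balanced certificate give the smooth form. -/
theorem sobolev_of_step (hn5 : 5 ≤ n) (hgeo : GeoStmt n) (hvar : VariationStmt n) {a : ℝ}
    (ha : 0 ≤ a) {g : ℝ → ℝ} (hgp : ∀ c ∈ Icc (0 : ℝ) 1, g c ≤ 0)
    (hbal : ∀ hn : 0 < n, a * n * omega n = omega n + 2 * n * gInt hn g)
    (hstep : ∀ G : Coeff n, IsCH G → ∀ Γ : Geo G, StepStmt Γ a g) : SobolevStmt n :=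
  sobolevWith_one.1 <| sobolevWith_of_step hn5 hgeo hvar one_pos
    (fun hn R A hR hA hdef hmain => by
      rw [one_mul] at hdef
      rw [div_one] at hmain
      exact no_deficit (show 2 ≤ n by omega) ha hgp (hbal _) hR hA hdef hmain) hstep

end Mini

open Mini in
/-- Fields with the chord inequality give the step. -/
theorem step_of_approx {n : ℕ} (hn5 : 5 ≤ n) (hchord : ChordStmt n) (hfield : AvgFieldStmt n)
    {a : ℝ} {g : ℝ → ℝ} (hgc : Continuous g) (hgp : ∀ c ∈ Icc (0 : ℝ) 1, g c ≤ 0)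
    (happrox : ∀ σ : ℝ, 0 < σ → ∃ φ : ℝ → ℝ, ContDiff ℝ 1 φ ∧ (∀ s, 0 ≤ s → 0 ≤ φ s) ∧
      (∀ r d, 0 ≤ r → |d| ≤ 1 → 0 ≤ kernelQ n a φ r d) ∧
      ∀ r c d, 0 < r → 0 < c → c ≤ 1 → 0 < d → d ≤ 1 →
        r - σ + g c + g d ≤
          r ^ (n - 1) * (kernelQ n a φ r c + kernelQ n a φ r d) / (2 * c * d))
    (G : Coeff n) (hCH : IsCH G) (Γ : Geo G) : StepStmt Γ a g := by
  intro hn o Rb A R σ hRb hR hσ
  obtain ⟨φ, hφ, hφ0, hQ, hQpair⟩ := happrox σ hσ
  set κ := (R ^ (n - 2))⁻¹ with hκ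
  have hκ0 : 0 < κ := by positivity
  have hψ1 : ContDiff ℝ 1 (scaleφ n R φ) :=
    contDiff_const.mul (hφ.comp (contDiff_id.div_const _))
  have hψ0 : ∀ t, 0 ≤ t → 0 ≤ scaleφ n R φ t := fun t ht =>
    mul_nonneg hκ0.le (hφ0 _ (by positivity))
  obtain ⟨K, M, η, t₀, B, hK, hη, ht₀, hX⟩ :=
    hfield G hCH Γ (scaleφ n R φ) hψ1 hψ0 o Rb A hRb σ hσ
  refine ⟨K, M, η, t₀, B, hK, hη, ht₀, fun f hf hfs hf01 hfA => ?_⟩
  obtain ⟨X, hXb, hXdiv, hXsupp, hgeom, hflux⟩ := hX f hf hfs hf01 hfA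
  refine ⟨X, hXb, hXdiv, hXsupp, ?_⟩
  have hfc : HasCompactSupport f :=
    hasCompactSupport (isCompact_gball Γ hCH.metric o Rb) ⟨hf, hfs, hf01⟩
  have hch := hchord hn G hCH Γ (fun c => R * g c) (continuous_const.mul hgc)
    (fun c hc => mul_nonpos_of_nonneg_of_nonpos hR.le (hgp c hc))
    (fun r d => κ * kernelQ n a φ (r / R) d)
    (by
      have := hφ.continuous
      have := hφ.continuous_deriv le_rfl
      simp only [Function.uncurry_def, kernelQ]
      fun_prop)
    (fun r d hr hd => mul_nonneg hκ0.le (hQ _ d (by positivity) hd)) (R * σ) (by positivity)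
    (fun r c d hr hc hc' hd hd' => by
      have := hQpair (r / R) c d (by positivity) hc hc' hd hd'
      have h2 := mul_le_mul_of_nonneg_left this hR.le
      have e : R * ((r / R) ^ (n - 1) *
          (kernelQ n a φ (r / R) c + kernelQ n a φ (r / R) d) / (2 * c * d)) =
          r ^ (n - 1) * (κ * kernelQ n a φ (r / R) c + κ * kernelQ n a φ (r / R) d) /
            (2 * c * d) := by
        rw [hκ, show n - 1 = n - 2 + 1 by omega, pow_succ, pow_succ, div_pow]
        field_simp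
      rw [e] at h2
      refine le_trans (le_of_eq ?_) h2
      field_simp)
    f hf hfc hf01
  rw [hκ, pair_eq Γ hCH.metric hf hfc hφ hR, gInt_scale, ← hκ] at hch
  have hh0 : 0 ≤ ((n : ℝ) - 1) / R :=
    div_nonneg (sub_nonneg.2 (Nat.one_le_cast.2 hn)) hR.le
  have hfl := mul_le_mul_of_nonneg_left (abs_le.1 hflux).2 hh0
  linarith


open Mini in
/-- The core theorem from its parts. -/
theorem core_stmt {n : ℕ} (hchord : ChordStmt n) (hvar : VariationStmt n)
    (hfield : AvgFieldStmt n) : CoreStmt n := fun hn5 hgeo C =>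
  sobolev_of_step hn5 hgeo hvar C.a_nonneg C.g_nonpos C.balance
    (step_of_approx hn5 hchord hfield C.g_cont C.g_nonpos C.approx)

end

end Vale.Agent.P219.CH.Core
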