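import Vale.Agent.P219.CH.Core.Defs
import Vale.Agent.P219.CH.Geo.Basic

/-!
P219: the first variation of the total variation and of integrals along `x ↦ x + t • X x`, uniform
over fields with common support, bounds and modulus of continuity of the derivative.

After the change of variables `y = x + t • X x` everything is a function of
`(t, x, X x, DX x, df y)`, so uniformity follows from compactness alone.
-/

namespace Vale.Agent.P219.CH.Core.Variation

open MeasureTheory Set Filter Topology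
open scoped ContDiff RealInnerProductSpace

noncomputable section

-- Mathlib's setting, needed for instances on iterated spaces of continuous linear maps
set_option maxSynthPendingDepth 3

variable {n : ℕ}

/-- Covectors. -/
abbrev Cov (n : ℕ) := E n →L[ℝ] ℝ

/-- Values `(x, X x, DX x)` of a field. -/
abbrev Jet (n : ℕ) := E n × E n × (E n →L[ℝ] E n)

/-- The vector dual to a covector. -/
def shp (G : Coeff n) (x : E n) (ξ : Cov n) : E n :=
  Ring.inverse (sharp G x) ((InnerProductSpace.toDual ℝ (E n)).symm ξ)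

/-- The dual norm. -/
def nrm (G : Coeff n) (x : E n) (ξ : Cov n) : ℝ := gnorm G x (shp G x ξ)

/-- The divergence as a function of the jet. -/
def trc (G : Coeff n) (j : Jet n) : ℝ :=
  ∑ i, (j.2.2 (EuclideanSpace.single i 1) + chr G j.1 (EuclideanSpace.single i 1) j.2.1) i

/-- The dual norm times the tangential divergence. -/
def lin (G : Coeff n) (j : Jet n) (ξ : Cov n) : ℝ :=
  nrm G j.1 ξ * trc G j -
    G j.1 (j.2.2 (shp G j.1 ξ) + chr G j.1 (shp G j.1 ξ) j.2.1) (shp G j.1 ξ) / nrm G j.1 ξ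

/-! ### The metric -/

section Metric

variable {G : Coeff n} (hG : IsMetric G)
include hG

lemma G_shp (x : E n) (ξ : Cov n) : G x (shp G x ξ) = ξ :=
  ContinuousLinearMap.ext fun w => hG.G_inverse_sharp x ξ w

lemma contDiff_shp : ContDiff ℝ ∞ (fun p : E n × Cov n => shp G p.1 p.2) :=
  (hG.contDiff_inverse_sharp.comp contDiff_fst).clm_apply
    ((InnerProductSpace.toDual ℝ (E n)).symm.toContinuousLinearEquiv.toContinuousLinearMap.contDiff
      |>.comp contDiff_snd)

lemma continuous_nrm : Continuous (fun p : E n × Cov n => nrm G p.1 p.2) :=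
  hG.continuous_gnorm.comp (continuous_fst.prodMk (contDiff_shp hG).continuous)

lemma continuous_trc : Continuous (trc G) := by
  refine continuous_finsetSum _ fun i _ => ?_
  have hj : Continuous fun j : Jet n => (j.1, EuclideanSpace.single i (1 : ℝ), j.2.1) :=
    continuous_fst.prodMk (continuous_const.prodMk (continuous_fst.comp continuous_snd))
  have h := hG.contDiff_chr.continuous.comp hj
  exact (EuclideanSpace.proj i).continuous.comp
    (((continuous_snd.comp continuous_snd).clm_apply continuous_const).add h)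

lemma nrm_nonneg (x : E n) (ξ : Cov n) : 0 ≤ nrm G x ξ := Real.sqrt_nonneg _

lemma nrm_eq_sqrt (x : E n) (ξ : Cov n) : nrm G x ξ = Real.sqrt (ξ (shp G x ξ)) := by
  rw [nrm, gnorm, G_shp hG]

lemma pos_shp {x : E n} {ξ : Cov n} (hξ : ξ ≠ 0) : 0 < ξ (shp G x ξ) := by
  have h : shp G x ξ ≠ 0 := by
    intro h
    apply hξ
    rw [← G_shp hG x ξ, h, map_zero]
  simpa [G_shp hG] using hG.pos x _ h

lemma nrm_pos {x : E n} {ξ : Cov n} (hξ : ξ ≠ 0) : 0 < nrm G x ξ := by
  rw [nrm_eq_sqrt hG]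
  exact Real.sqrt_pos.mpr (pos_shp hG hξ)

lemma continuousAt_lin {p : Jet n × Cov n} (hξ : p.2 ≠ 0) :
    ContinuousAt (fun q : Jet n × Cov n => lin G q.1 q.2) p := by
  have hx : Continuous fun q : Jet n × Cov n => q.1.1 := continuous_fst.comp continuous_fst
  have hv : Continuous fun q : Jet n × Cov n => shp G q.1.1 q.2 :=
    (contDiff_shp hG).continuous.comp (hx.prodMk continuous_snd)
  have hn : Continuous fun q : Jet n × Cov n => nrm G q.1.1 q.2 :=
    (continuous_nrm hG).comp (hx.prodMk continuous_snd)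
  have ha : Continuous fun q : Jet n × Cov n => q.1.2.1 :=
    continuous_fst.comp (continuous_snd.comp continuous_fst)
  have hP : Continuous fun q : Jet n × Cov n => q.1.2.2 :=
    continuous_snd.comp (continuous_snd.comp continuous_fst)
  have hw : Continuous fun q : Jet n × Cov n =>
      G q.1.1 (q.1.2.2 (shp G q.1.1 q.2) + chr G q.1.1 (shp G q.1.1 q.2) q.1.2.1)
        (shp G q.1.1 q.2) :=
    (((hG.smooth.continuous.comp hx).clm_apply ((hP.clm_apply hv).add
      (hG.contDiff_chr.continuous.comp (hx.prodMk (hv.prodMk ha))))).clm_apply hv)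
  exact ((hn.mul ((continuous_trc hG).comp continuous_fst)).continuousAt).sub
    (hw.continuousAt.div hn.continuousAt (nrm_pos hG hξ).ne')

lemma nrm_smul (x : E n) (ξ : Cov n) {r : ℝ} (hr : 0 ≤ r) :
    nrm G x (r • ξ) = r * nrm G x ξ := by
  simp only [nrm, gnorm, shp, map_smul, smul_apply, smul_eq_mul]
  rw [← mul_assoc, Real.sqrt_mul (mul_nonneg hr hr), Real.sqrt_mul_self hr]

lemma lin_smul (j : Jet n) (ξ : Cov n) {r : ℝ} (hr : 0 < r) :
    lin G j (r • ξ) = r * lin G j ξ := by
  have hv : shp G j.1 (r • ξ) = r • shp G j.1 ξ := by simp [shp]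
  simp only [lin, nrm_smul hG _ _ hr.le, hv, map_smul, chr_smul_left, ← smul_add,
    smul_apply, smul_eq_mul]
  rw [mul_div_mul_left _ _ hr.ne']
  ring

lemma lin_jet_zero (x : E n) (ξ : Cov n) : lin G (x, 0, 0) ξ = 0 := by
  simp [lin, trc, chr_zero_right]

lemma trc_jet_zero (x : E n) : trc G (x, 0, 0) = 0 := by
  simp [trc, chr_zero_right]

end Metric

/-! ### Determinants -/

lemma det_eq_matrix (A : E n →L[ℝ] E n) : A.det =
    (Matrix.of fun i j => A (EuclideanSpace.single j 1) i).det := by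
  rw [ContinuousLinearMap.det, ← LinearMap.det_toMatrix (EuclideanSpace.basisFun (Fin n) ℝ).toBasis]
  congr 1

lemma contDiff_det : ContDiff ℝ ∞ (fun A : E n →L[ℝ] E n => A.det) := by
  simp only [det_eq_matrix, Matrix.det_apply, Matrix.of_apply]
  refine ContDiff.sum fun σ _ => ContDiff.const_smul (Equiv.Perm.sign σ) ?_
  refine contDiff_prod fun i _ => ?_
  exact (EuclideanSpace.proj (𝕜 := ℝ) (σ i)).contDiff.comp
    (contDiff_id.clm_apply (contDiff_const (c := EuclideanSpace.single i (1 : ℝ))))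

lemma det_hasDerivAt (P : E n →L[ℝ] E n) :
    HasDerivAt (fun t : ℝ => (1 + t • P).det) (∑ i, P (EuclideanSpace.single i 1) i) 0 := by
  set M : Matrix (Fin n) (Fin n) ℝ := Matrix.of fun i j => P (EuclideanSpace.single j 1) i with hM
  have he : (fun t : ℝ => (1 + t • P).det) = fun t => 1 + Matrix.trace M * t +
      (Matrix.det (1 + (Polynomial.X : Polynomial ℝ) • M.map Polynomial.C)).divX.divX.eval t *
        t ^ 2 := by
    funext t
    rw [det_eq_matrix, ← Matrix.det_one_add_smul]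
    congr 1
    ext i j
    simp [hM, Matrix.one_apply]
  rw [he]
  set q := (Matrix.det (1 + (Polynomial.X : Polynomial ℝ) • M.map Polynomial.C)).divX.divX
  have h := (((hasDerivAt_id (0 : ℝ)).const_mul (Matrix.trace M)).const_add 1).add
    ((q.hasDerivAt 0).mul (hasDerivAt_pow 2 (0 : ℝ)))
  exact h.congr_deriv (by simp [Matrix.trace, hM])

/-! ### Uniform first order expansion -/

lemma eventually_forall_lt {W Z : Type*} [TopologicalSpace W] [TopologicalSpace Z] {w₀ : W}
    {S : Set Z} (hS : IsCompact S) {f g : W × Z → ℝ}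
    (hf : ∀ z ∈ S, ContinuousAt f (w₀, z)) (hg : ∀ z ∈ S, ContinuousAt g (w₀, z))
    (h : ∀ z ∈ S, f (w₀, z) < g (w₀, z)) :
    ∀ᶠ w in 𝓝 w₀, ∀ z ∈ S, f (w, z) < g (w, z) :=
  hS.eventually_forall_of_forall_eventually
    fun z hz => (hf z hz).eventually_lt (hg z hz) (h z hz)

lemma approx {Z W : Type*} [NormedAddCommGroup Z] [NormedSpace ℝ Z] [TopologicalSpace W] [Zero W]
    {S : Set Z} (hS : IsCompact S) {F : ℝ × Z → ℝ} {L B : W × Z → ℝ}
    (hF0 : ∀ z ∈ S, F (0, z) = 0) (hF : ∀ z ∈ S, ContDiffAt ℝ 1 F (0, z))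
    (hFd : ∀ z ∈ S, HasDerivAt (fun t => F (t, z)) (-L (0, z)) 0)
    (hL : ∀ z ∈ S, ContinuousAt L (0, z)) (hB : ∀ z ∈ S, ContinuousAt B (0, z))
    (hB0 : ∀ z ∈ S, 0 < B (0, z)) {ε : ℝ} (hε : 0 < ε) :
    ∃ δ : ℝ, 0 < δ ∧ ∀ᶠ w in 𝓝 (0 : W), ∀ z ∈ S, 0 < B (w, z) ∧
      ∀ t ∈ Ioc 0 δ, |F (t, z) + t * L (w, z)| ≤ ε * t * B (w, z) := by
  have h0 : ∀ z ∈ S, ContinuousAt (fun p : W × Z => B (0, p.2)) (0, z) := fun z hz =>
    (hB z hz).comp_of_eq (continuous_const.prodMk continuous_snd).continuousAt rfl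
  have hL0 : ∀ z ∈ S, ContinuousAt (fun p : W × Z => L (0, p.2)) (0, z) := fun z hz =>
    (hL z hz).comp_of_eq (continuous_const.prodMk continuous_snd).continuousAt rfl
  have e1 : ∀ᶠ w in 𝓝 (0 : W), ∀ z ∈ S, B (0, z) / 2 < B (w, z) :=
    eventually_forall_lt (f := fun p => B (0, p.2) / 2) hS
      (fun z hz => (h0 z hz).div_const 2) hB (fun z hz => by linarith [hB0 z hz])
  have e2 : ∀ᶠ w in 𝓝 (0 : W), ∀ z ∈ S, |L (w, z) - L (0, z)| < ε / 4 * B (0, z) :=
    eventually_forall_lt (f := fun p => |L p - L (0, p.2)|)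
      (g := fun p => ε / 4 * B (0, p.2)) hS (fun z hz => ((hL z hz).sub (hL0 z hz)).abs)
      (fun z hz => (h0 z hz).const_smul (ε / 4))
      (fun z hz => by simpa using mul_pos (by positivity) (hB0 z hz))
  let g : ℝ × Z → ℝ := fun p => fderiv ℝ F p ((1 : ℝ), (0 : Z))
  have e3 : ∀ᶠ s in 𝓝 (0 : ℝ), ∀ z ∈ S,
      DifferentiableAt ℝ F (s, z) ∧ |g (s, z) - g (0, z)| < ε / 4 * B (0, z) := by
    refine hS.eventually_forall_of_forall_eventually fun z hz => ?_
    have hd : ∀ᶠ p in 𝓝 ((0 : ℝ), z), DifferentiableAt ℝ F p :=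
      ((hF z hz).eventually (by decide)).mono fun p hp => hp.differentiableAt one_ne_zero
    have hg : ContinuousAt g (0, z) :=
      ((hF z hz).continuousAt_fderiv one_ne_zero).clm_apply continuousAt_const
    have hg0 : ContinuousAt (fun p : ℝ × Z => g (0, p.2)) (0, z) :=
      hg.comp_of_eq (continuous_const.prodMk continuous_snd).continuousAt rfl
    have hb : ContinuousAt (fun p : ℝ × Z => ε / 4 * B (0, p.2)) (0, z) :=
      ((hB z hz).comp_of_eq (continuous_const.prodMk continuous_snd).continuousAt rfl).const_smul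
        (ε / 4)
    exact hd.and ((hg.sub hg0).abs.eventually_lt hb
      (by simpa using mul_pos (by positivity) (hB0 z hz)))
  obtain ⟨δ, hδ, hball⟩ := Metric.eventually_nhds_iff.mp e3
  refine ⟨δ / 2, by positivity, (e1.and e2).mono fun w hw z hz => ?_⟩
  obtain ⟨hw1, hw2⟩ := hw
  have hb := hB0 z hz
  refine ⟨by linarith [hw1 z hz], fun t ht => ?_⟩
  have hsmall : ∀ s ∈ Icc (0 : ℝ) t, dist s 0 < δ := fun s hs => by
    rw [Real.dist_eq, sub_zero, abs_of_nonneg hs.1]
    linarith [hs.2, ht.2]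
  have hder : ∀ s ∈ Icc (0 : ℝ) t, HasDerivAt (fun r => F (r, z)) (g (s, z)) s := fun s hs =>
    (hball (hsmall s hs) z hz).1.hasFDerivAt.comp_hasDerivAt s
      ((hasDerivAt_id s).prodMk (hasDerivAt_const s z))
  have hg0 : g (0, z) = -L (0, z) := (hder 0 ⟨le_rfl, ht.1.le⟩).unique (hFd z hz)
  have hmv := norm_image_sub_le_of_norm_deriv_le_segment'
    (f := fun r => F (r, z) - r * g (0, z)) (f' := fun r => g (r, z) - g (0, z))
    (C := ε / 4 * B (0, z))
    (fun s hs => ((hder s hs).sub ((hasDerivAt_id s).mul_const _) |>.congr_deriv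
      (by rw [one_mul])).hasDerivWithinAt)
    (fun s hs => (hball (hsmall s (Ico_subset_Icc_self hs)) z hz).2.le) t ⟨ht.1.le, le_rfl⟩
  simp only [Real.norm_eq_abs, hF0 z hz, zero_mul, sub_zero, hg0] at hmv
  calc |F (t, z) + t * L (w, z)|
      = |(F (t, z) - t * -L (0, z)) + t * (L (w, z) - L (0, z))| := by ring_nf
    _ ≤ |F (t, z) - t * -L (0, z)| + |t * (L (w, z) - L (0, z))| := abs_add_le _ _
    _ ≤ ε / 4 * B (0, z) * t + t * (ε / 4 * B (0, z)) := by
        rw [abs_mul t, abs_of_pos ht.1]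
        gcongr
        · exact ht.1.le
        · exact (hw2 z hz).le
    _ = ε * t * (B (0, z) / 2) := by ring
    _ ≤ ε * t * B (w, z) := by
        have := ht.1
        gcongr
        exact (hw1 z hz).le

/-! ### The two integrands -/

/-- Change of the total variation density. -/
def Fv (G : Coeff n) (p : ℝ × (Jet n × Cov n)) : ℝ :=
  nrm G p.2.1.1 (p.2.2.comp (1 + p.1 • p.2.1.2.2)) * dens G p.2.1.1 -
    (1 + p.1 • p.2.1.2.2).det *
      (dens G (p.2.1.1 + p.1 • p.2.1.2.1) * nrm G (p.2.1.1 + p.1 • p.2.1.2.1) p.2.2)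

/-- Change of the volume density. -/
def Fn (G : Coeff n) (p : ℝ × Jet n) : ℝ :=
  dens G p.2.1 - (1 + p.1 • p.2.2.2).det * dens G (p.2.1 + p.1 • p.2.2.1)

/-- The jet `z` moved by the offsets `w`. -/
def mv (w : ℝ × Jet n) (z : Jet n) : Jet n := z + w.2

/-- The Jacobian times the density at the moved point. -/
def jac (G : Coeff n) (w : ℝ × Jet n) (z : Jet n) : ℝ :=
  (1 + w.1 • z.2.2).det * dens G (z.1 + w.2.1)

lemma continuous_jac {G : Coeff n} (hG : IsMetric G) :
    Continuous fun p : (ℝ × Jet n) × Jet n => jac G p.1 p.2 :=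
  (contDiff_det.continuous.comp (continuous_const.add
    ((continuous_fst.comp continuous_fst).smul
      (continuous_snd.comp (continuous_snd.comp continuous_snd))))).mul
    (hG.contDiff_dens.continuous.comp ((continuous_fst.comp continuous_snd).add
      (continuous_fst.comp (continuous_snd.comp continuous_fst))))

section Expansion

variable {G : Coeff n} (hG : IsMetric G)
include hG

lemma det_one' : (1 : E n →L[ℝ] E n).det = 1 := by
  simp [ContinuousLinearMap.det]

lemma contDiffAt_Fv {z : Jet n × Cov n} (hz : z.2 ≠ 0) : ContDiffAt ℝ 1 (Fv G) (0, z) := by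
  have hA : ContDiff ℝ ∞ fun p : ℝ × (Jet n × Cov n) => 1 + p.1 • p.2.1.2.2 :=
    contDiff_const.add (contDiff_fst.smul
      (contDiff_snd.comp (contDiff_snd.comp (contDiff_fst.comp contDiff_snd))))
  have hx : ContDiff ℝ ∞ fun p : ℝ × (Jet n × Cov n) => p.2.1.1 :=
    contDiff_fst.comp (contDiff_fst.comp contDiff_snd)
  have hy : ContDiff ℝ ∞ fun p : ℝ × (Jet n × Cov n) => p.2.1.1 + p.1 • p.2.1.2.1 :=
    hx.add (contDiff_fst.smul
      (contDiff_fst.comp (contDiff_snd.comp (contDiff_fst.comp contDiff_snd))))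
  have hξ : ContDiff ℝ ∞ fun p : ℝ × (Jet n × Cov n) => p.2.2 := contDiff_snd.comp contDiff_snd
  have hn : ∀ (u : ℝ × (Jet n × Cov n) → E n) (η : ℝ × (Jet n × Cov n) → Cov n),
      ContDiff ℝ ∞ u → ContDiff ℝ ∞ η → η (0, z) ≠ 0 →
      ContDiffAt ℝ 1 (fun p => nrm G (u p) (η p)) (0, z) := fun u η hu hη h0 => by
    simp only [nrm_eq_sqrt hG]
    exact (((hη.clm_apply ((contDiff_shp hG).comp (hu.prodMk hη))).of_le
      (by norm_num)).contDiffAt).sqrt (pos_shp hG h0).ne'
  have h1 : ∀ {h : ℝ × (Jet n × Cov n) → ℝ}, ContDiff ℝ ∞ h → ContDiffAt ℝ 1 h (0, z) :=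
    fun h => (h.of_le (by norm_num)).contDiffAt
  exact ((hn _ _ hx (hξ.clm_comp hA) (by simpa [ContinuousLinearMap.one_def, zero_smul ℝ] using hz)).mul
      (h1 (hG.contDiff_dens.comp hx))).sub ((h1 (contDiff_det.comp hA)).mul
    ((h1 (hG.contDiff_dens.comp hy)).mul (hn _ _ hy hξ hz)))

lemma contDiff_Fn : ContDiff ℝ 1 (Fn G) :=
  ((hG.contDiff_dens.comp (contDiff_fst.comp contDiff_snd)).sub
    ((contDiff_det.comp (contDiff_const.add (contDiff_fst.smul
      (contDiff_snd.comp (contDiff_snd.comp contDiff_snd))))).mul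
      (hG.contDiff_dens.comp ((contDiff_fst.comp contDiff_snd).add
        (contDiff_fst.smul (contDiff_fst.comp (contDiff_snd.comp contDiff_snd))))))).of_le
    (by norm_num)

lemma dens_line (x a : E n) : HasDerivAt (fun t : ℝ => dens G (x + t • a))
    (dens G x * ∑ i, chr G x (EuclideanSpace.single i 1) a i) 0 := by
  have hl : HasDerivAt (fun t : ℝ => x + t • a) a 0 := by
    simpa using ((hasDerivAt_id (0 : ℝ)).smul_const a).const_add x
  have hd : HasFDerivAt (dens G) (fderiv ℝ (dens G) x) (x + (0 : ℝ) • a) := by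
    simpa using (hG.contDiff_dens.differentiable (by norm_num) x).hasFDerivAt
  have h := hd.comp_hasDerivAt (0 : ℝ) hl
  rw [hG.fderiv_dens, chrTr_apply] at h
  simpa only [hG.chr_symm x a] using! h

lemma Fn_deriv (z : Jet n) : HasDerivAt (fun t => Fn G (t, z)) (-(dens G z.1 * trc G z)) 0 := by
  have h := (hasDerivAt_const (0 : ℝ) (dens G z.1)).sub
    ((det_hasDerivAt z.2.2).mul (dens_line hG z.1 z.2.1))
  simp only [zero_smul ℝ, add_zero, det_one' hG, one_mul, zero_sub] at h
  refine h.congr_deriv ?_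
  simp only [trc, PiLp.add_apply, Finset.sum_add_distrib]
  ring

lemma quad_deriv {γ : ℝ → E n →L[ℝ] E n →L[ℝ] ℝ} {γ' : E n →L[ℝ] E n →L[ℝ] ℝ}
    {v : ℝ → E n} {v' : E n} {η : ℝ → Cov n} {η' : Cov n} (hγ : HasDerivAt γ γ' 0)
    (hv : HasDerivAt v v' 0) (hη : HasDerivAt η η' 0) (h : ∀ t, γ t (v t) = η t)
    (hs : ∀ u w, γ 0 u w = γ 0 w u) :
    HasDerivAt (fun t => η t (v t)) (2 * η' (v 0) - γ' (v 0) (v 0)) 0 := by
  have key : γ' (v 0) + γ 0 v' = η' := by
    have h1 := hγ.clm_apply hv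
    rw [show (fun y => γ y (v y)) = η from funext h] at h1
    exact h1.unique hη
  refine (hη.clm_apply hv).congr_deriv ?_
  rw [show η 0 v' = γ 0 v' (v 0) by rw [hs, h 0], ← key, add_apply]
  ring

lemma nrm_deriv (x b : E n) {η : ℝ → Cov n} {η' ξ : Cov n} (hη : HasDerivAt η η' 0)
    (h0 : η 0 = ξ) (hξ : ξ ≠ 0) :
    HasDerivAt (fun t => nrm G (x + t • b) (η t))
      ((η' (shp G x ξ) - G x (chr G x (shp G x ξ) b) (shp G x ξ)) / nrm G x ξ) 0 := by
  have hl : HasDerivAt (fun t : ℝ => x + t • b) b 0 := by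
    simpa using ((hasDerivAt_id (0 : ℝ)).smul_const b).const_add x
  have e0 : x + (0 : ℝ) • b = x := by simp
  have hd : HasFDerivAt G (fderiv ℝ G x) (x + (0 : ℝ) • b) := by
    rw [e0]
    exact (hG.smooth.differentiable (by norm_num) x).hasFDerivAt
  have hv : DifferentiableAt ℝ (fun t => shp G (x + t • b) (η t)) 0 :=
    DifferentiableAt.comp (f := fun t => (x + t • b, η t)) (0 : ℝ)
      ((contDiff_shp hG).differentiable (by norm_num) (x + (0 : ℝ) • b, η 0))
      (hl.differentiableAt.prodMk hη.differentiableAt)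
  have h := quad_deriv hG (γ := fun t => G (x + t • b)) (hd.comp_hasDerivAt (0 : ℝ) hl)
    hv.hasDerivAt hη (fun t => G_shp hG _ _) (fun u w => hG.symm _ u w)
  have h' := h.sqrt (by
    simp only [e0, h0]
    exact (pos_shp hG hξ).ne')
  simp only [e0, h0] at h'
  simp only [nrm_eq_sqrt hG (x + _ • b)]
  refine h'.congr_deriv ?_
  rw [hG.compat x b, hG.symm x (shp G x ξ) (chr G x b _), hG.chr_symm x b, ← nrm_eq_sqrt hG]
  ring

lemma Fv_deriv (z : Jet n × Cov n) (hz : z.2 ≠ 0) :
    HasDerivAt (fun t => Fv G (t, z)) (-(dens G z.1.1 * lin G z.1 z.2)) 0 := by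
  obtain ⟨⟨x, a, P⟩, ξ⟩ := z
  have hη : HasDerivAt (fun t : ℝ => ξ.comp (1 + t • P)) (ξ.comp P) 0 := by
    have h := ((hasDerivAt_id (0 : ℝ)).smul_const (ξ.comp P)).const_add ξ
    simpa [ContinuousLinearMap.comp_add, ContinuousLinearMap.one_def] using h
  have h1 := nrm_deriv hG x 0 hη
    (show ξ.comp (1 + (0 : ℝ) • P) = ξ by simp [ContinuousLinearMap.one_def]) hz
  have h2 := nrm_deriv hG x a (hasDerivAt_const (0 : ℝ) ξ) rfl hz
  simp only [smul_zero, add_zero, chr_zero_right, map_zero, zero_apply, sub_zero,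
    ContinuousLinearMap.comp_apply] at h1
  have h := (h1.mul_const (dens G x)).sub
    ((det_hasDerivAt P).mul ((dens_line hG x a).mul h2))
  refine HasDerivAt.congr_deriv (f := fun t => Fv G (t, ((x, a, P), ξ))) h ?_
  simp only [lin, trc, PiLp.add_apply, Finset.sum_add_distrib, map_add, Pi.mul_apply,
    add_apply, det_one' hG, zero_smul, add_zero, zero_apply, zero_sub]
  rw [show ξ (P (shp G x ξ)) = G x (P (shp G x ξ)) (shp G x ξ) by
    rw [hG.symm x (P _), G_shp hG]]
  ring

lemma continuous_mv : Continuous fun p : (ℝ × Jet n) × Jet n => mv p.1 p.2 :=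
  continuous_snd.add (continuous_snd.comp continuous_fst)

lemma jac_zero (z : Jet n) : jac G 0 z = dens G z.1 := by simp [jac, det_one' hG]

lemma mv_zero (z : Jet n) : mv 0 z = z := by simp [mv]

lemma approx_vol {S : Set (Jet n)} (hS : IsCompact S) {ε : ℝ} (hε : 0 < ε) :
    ∃ δ : ℝ, 0 < δ ∧ ∀ᶠ w in 𝓝 (0 : ℝ × Jet n), ∀ z ∈ S, 0 < jac G w z ∧
      ∀ t ∈ Ioc 0 δ, |Fn G (t, z) + t * (jac G w z * trc G (mv w z))| ≤ ε * t * jac G w z :=
  approx (W := ℝ × Jet n) hS (F := Fn G) (L := fun p => jac G p.1 p.2 * trc G (mv p.1 p.2))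
    (B := fun p => jac G p.1 p.2)
    (fun z _ => by simp [Fn, det_one' hG]) (fun z _ => (contDiff_Fn hG).contDiffAt)
    (fun z _ => by simpa [jac_zero hG, mv_zero hG] using Fn_deriv hG z)
    (fun z _ => ((continuous_jac hG).mul
      ((continuous_trc hG).comp (continuous_mv hG))).continuousAt)
    (fun z _ => (continuous_jac hG).continuousAt)
    (fun z _ => by simpa [jac_zero hG] using hG.dens_pos z.1) hε

lemma approx_var {S : Set (Jet n × Cov n)} (hS : IsCompact S) (hne : ∀ z ∈ S, z.2 ≠ 0)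
    {ε : ℝ} (hε : 0 < ε) :
    ∃ δ : ℝ, 0 < δ ∧ ∀ᶠ w in 𝓝 (0 : ℝ × Jet n), ∀ z ∈ S,
      0 < jac G w z.1 * nrm G (mv w z.1).1 z.2 ∧ ∀ t ∈ Ioc 0 δ,
        |Fv G (t, z) + t * (jac G w z.1 * lin G (mv w z.1) z.2)| ≤
          ε * t * (jac G w z.1 * nrm G (mv w z.1).1 z.2) := by
  have hp : Continuous fun p : (ℝ × Jet n) × (Jet n × Cov n) => (p.1, p.2.1) :=
    continuous_fst.prodMk (continuous_fst.comp continuous_snd)
  have hj : Continuous fun p : (ℝ × Jet n) × (Jet n × Cov n) => jac G p.1 p.2.1 :=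
    (continuous_jac hG).comp hp
  have hm : Continuous fun p : (ℝ × Jet n) × (Jet n × Cov n) => (mv p.1 p.2.1, p.2.2) :=
    ((continuous_mv hG).comp hp).prodMk (continuous_snd.comp continuous_snd)
  have hN : Continuous fun p : (ℝ × Jet n) × (Jet n × Cov n) =>
      nrm G (mv p.1 p.2.1).1 p.2.2 :=
    (continuous_nrm hG).comp
      ((continuous_fst.comp (continuous_fst.comp hm)).prodMk (continuous_snd.comp hm))
  refine approx (W := ℝ × Jet n) hS (F := Fv G)
    (L := fun p => jac G p.1 p.2.1 * lin G (mv p.1 p.2.1) p.2.2)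
    (B := fun p => jac G p.1 p.2.1 * nrm G (mv p.1 p.2.1).1 p.2.2)
    ?_ (fun z hz => contDiffAt_Fv hG (hne z hz)) ?_ ?_ (fun z _ => (hj.mul hN).continuousAt) ?_ hε
  · intro z _
    simp only [Fv, zero_smul, add_zero, det_one' hG, one_mul]
    simp [ContinuousLinearMap.one_def, mul_comm]
  · intro z hz
    refine (Fv_deriv hG z (hne z hz)).congr_deriv ?_
    simp only [jac_zero hG, mv_zero hG]
  · intro z hz
    have hl : ContinuousAt ((fun q : Jet n × Cov n => lin G q.1 q.2) ∘
        fun p : (ℝ × Jet n) × (Jet n × Cov n) => (mv p.1 p.2.1, p.2.2)) (0, z) :=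
      ContinuousAt.comp (continuousAt_lin hG (hne z hz)) hm.continuousAt
    exact hj.continuousAt.mul hl
  · intro z hz
    simp only [jac_zero hG, mv_zero hG]
    exact mul_pos (hG.dens_pos z.1.1) (nrm_pos hG (hne z hz))

lemma small_offset {X : E n → E n} {M C ρ σ t : ℝ} {η : ℝ → ℝ} (hXc : ContDiff ℝ 1 X)
    (hb : ∀ x, ‖X x‖ ≤ M ∧ ‖fderiv ℝ X x‖ ≤ M)
    (hη : ∀ x y, ‖fderiv ℝ X x - fderiv ℝ X y‖ ≤ η ‖x - y‖)
    (hσ : ∀ r, |r| < σ → |η r| < ρ) (hC : 1 ≤ C) (hMC : M ≤ C) (ht : 0 < t)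
    (htσ : t * C < σ) (htρ : t * (C * C) < ρ) (x : E n) :
    dist ((t, (t • X x, X (x + t • X x) - X x,
      fderiv ℝ X (x + t • X x) - fderiv ℝ X x)) : ℝ × Jet n) 0 < ρ := by
  set y := x + t • X x with hy
  have hyx : ‖y - x‖ ≤ t * C := by
    rw [hy, add_sub_cancel_left, norm_smul, Real.norm_eq_abs, abs_of_pos ht]
    exact mul_le_mul_of_nonneg_left ((hb x).1.trans hMC) ht.le
  have hLip : ‖X y - X x‖ ≤ C * ‖y - x‖ :=
    Convex.norm_image_sub_le_of_norm_fderiv_le (𝕜 := ℝ)
      (fun z _ => hXc.differentiable one_ne_zero z) (fun z _ => (hb z).2.trans hMC)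
      convex_univ (mem_univ x) (mem_univ y)
  have h1 : ‖X y - X x‖ ≤ t * (C * C) := by nlinarith
  have h2 : ‖fderiv ℝ X y - fderiv ℝ X x‖ < ρ :=
    (hη y x).trans_lt ((le_abs_self _).trans_lt (hσ _ (by rw [abs_norm]; linarith)))
  have h3 : ‖t • X x‖ ≤ t * (C * C) := by
    rw [add_sub_cancel_left] at hyx
    nlinarith [mul_le_mul_of_nonneg_left hC (mul_nonneg ht.le (zero_le_one.trans hC))]
  have h4 : t ≤ t * (C * C) := le_mul_of_one_le_right ht.le (by nlinarith)
  simp only [dist_zero_right, Prod.norm_mk, max_lt_iff, Real.norm_eq_abs, abs_of_pos ht]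
  exact ⟨by linarith, by linarith, by linarith, h2⟩

/-- The pointwise bounds at a jet from the bounds for unit covectors. -/
lemma point_bound {ε t : ℝ} {x a : E n} {P : E n →L[ℝ] E n} {w : ℝ × Jet n} {j : Jet n}
    (hj : mv w (x, a, P) = j) (hy : x + t • a = j.1)
    (hjac : jac G w (x, a, P) = (1 + t • P).det * dens G j.1)
    (h0 : |Fn G (t, (x, a, P)) + t * (jac G w (x, a, P) * trc G (mv w (x, a, P)))| ≤
      ε * t * jac G w (x, a, P))
    (h1 : ∀ e : Cov n, ‖e‖ = 1 →
      |Fv G (t, ((x, a, P), e)) + t * (jac G w (x, a, P) * lin G (mv w (x, a, P)) e)| ≤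
        ε * t * (jac G w (x, a, P) * nrm G (mv w (x, a, P)).1 e)) :
    |dens G x - (1 + t • P).det * dens G j.1 +
        t * ((1 + t • P).det * (dens G j.1 * trc G j))| ≤
      ε * t * ((1 + t • P).det * dens G j.1) ∧
    ∀ ξ : Cov n, |dens G x * nrm G x (ξ.comp (1 + t • P)) -
        (1 + t • P).det * (dens G j.1 * nrm G j.1 ξ) +
        t * ((1 + t • P).det * (dens G j.1 * lin G j ξ))| ≤
      ε * t * ((1 + t • P).det * (dens G j.1 * nrm G j.1 ξ)) := by
  rw [hjac, hj] at h0
  simp only [hjac, hj] at h1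
  simp only [Fn, hy] at h0
  simp only [Fv, hy] at h1
  refine ⟨by simpa only [mul_assoc] using h0, fun ξ => ?_⟩
  rcases eq_or_ne ξ 0 with rfl | hξ
  · simp [nrm, lin, shp, gnorm]
  set r := ‖ξ‖ with hr
  have hr0 : 0 < r := norm_pos_iff.mpr hξ
  set e := r⁻¹ • ξ
  have hξe : ξ = r • e := (smul_inv_smul₀ hr0.ne' ξ).symm
  have he : ‖e‖ = 1 := by
    rw [norm_smul, norm_inv, Real.norm_eq_abs, abs_of_pos hr0, ← hr, inv_mul_cancel₀ hr0.ne']
  have h := mul_le_mul_of_nonneg_left (h1 e he) hr0.le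
  rw [← abs_of_pos hr0, ← abs_mul, abs_of_pos hr0] at h
  rw [hξe, ContinuousLinearMap.smul_comp, nrm_smul hG _ _ hr0.le, nrm_smul hG _ _ hr0.le,
    lin_smul hG _ _ hr0]
  refine le_of_eq_of_le ?_ (h.trans_eq (by ring))
  congr 1
  ring

lemma outside {ε t : ℝ} (hε : 0 ≤ ε) (ht : 0 ≤ t) (x : E n) :
    |dens G x - dens G x + t * (dens G x * trc G (x, 0, 0))| ≤ ε * t * dens G x ∧
    ∀ ξ : Cov n, |dens G x * nrm G x ξ - dens G x * nrm G x ξ +
        t * (dens G x * lin G (x, 0, 0) ξ)| ≤ ε * t * (dens G x * nrm G x ξ) := by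
  have := hG.dens_pos x
  refine ⟨?_, fun ξ => ?_⟩
  · simp [trc_jet_zero hG]
    positivity
  · have := nrm_nonneg hG x ξ
    simp [lin_jet_zero hG]
    positivity

lemma pointwise {K : Set (E n)} (hK : IsCompact K) {M : ℝ} {η : ℝ → ℝ}
    (hη : Tendsto η (𝓝 0) (𝓝 0)) {ε : ℝ} (hε : 0 < ε) :
    ∃ t₀ : ℝ, 0 < t₀ ∧ t₀ * (|M| + 1) ≤ 1 / 2 ∧ ∀ t, 0 < t → t ≤ t₀ →
      ∀ X, FieldBound K M η X → ∀ x,
        0 < (1 + t • fderiv ℝ X x).det ∧
        |dens G x - (1 + t • fderiv ℝ X x).det * dens G (x + t • X x) +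
            t * ((1 + t • fderiv ℝ X x).det * (dens G (x + t • X x) *
              trc G (x + t • X x, X (x + t • X x), fderiv ℝ X (x + t • X x))))| ≤
          ε * t * ((1 + t • fderiv ℝ X x).det * dens G (x + t • X x)) ∧
        ∀ ξ : Cov n,
          |dens G x * nrm G x (ξ.comp (1 + t • fderiv ℝ X x)) -
              (1 + t • fderiv ℝ X x).det * (dens G (x + t • X x) * nrm G (x + t • X x) ξ) +
              t * ((1 + t • fderiv ℝ X x).det * (dens G (x + t • X x) *
                lin G (x + t • X x, X (x + t • X x), fderiv ℝ X (x + t • X x)) ξ))| ≤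
            ε * t * ((1 + t • fderiv ℝ X x).det *
              (dens G (x + t • X x) * nrm G (x + t • X x) ξ)) := by
  have hS : IsCompact (K ×ˢ (Metric.closedBall (0 : E n) M ×ˢ
      Metric.closedBall (0 : E n →L[ℝ] E n) M)) :=
    hK.prod ((isCompact_closedBall 0 M).prod (isCompact_closedBall 0 M))
  obtain ⟨δ₀, hδ₀, ev0⟩ := approx_vol hG hS hε
  obtain ⟨δ₁, hδ₁, ev1⟩ := approx_var hG (hS.prod (isCompact_sphere (0 : Cov n) 1))
    (fun z hz => ne_of_mem_of_not_mem hz.2 (by simp)) hε
  obtain ⟨ρ, hρ, hball⟩ := Metric.eventually_nhds_iff.mp (ev0.and ev1)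
  obtain ⟨σ, hσ, hησ⟩ := Metric.tendsto_nhds_nhds.mp hη ρ hρ
  set C := |M| + 1
  have hC1 : 1 ≤ C := le_add_of_nonneg_left (abs_nonneg M)
  have hC0 : 0 < C := zero_lt_one.trans_le hC1
  set t₀ := min (min δ₀ δ₁) (min (1 / (2 * C)) (min (σ / (2 * C)) (ρ / (2 * (C * C))))) with ht0
  have ht₀ : 0 < t₀ := by positivity
  have b : t₀ ≤ δ₀ ∧ t₀ ≤ δ₁ ∧ t₀ ≤ 1 / (2 * C) ∧ t₀ ≤ σ / (2 * C) ∧ t₀ ≤ ρ / (2 * (C * C)) :=
    ⟨by simp [ht0], by simp [ht0], by simp [ht0], by simp [ht0], by simp [ht0]⟩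
  obtain ⟨b₀, b₁, b₂, b₃, b₄⟩ := b
  refine ⟨t₀, ht₀, ?_, ?_⟩
  · have := (le_div_iff₀ (by positivity)).mp b₂
    linarith
  intro t ht htt X hX x
  obtain ⟨hXc, hXK, hXb, hXη⟩ := hX
  by_cases hxK : x ∈ K
  · have htσ : t * C < σ := by
      have := (le_div_iff₀ (by positivity)).mp (htt.trans b₃)
      nlinarith
    have htρ : t * (C * C) < ρ := by
      have := (le_div_iff₀ (by positivity)).mp (htt.trans b₄)
      nlinarith
    have hw := small_offset hG hXc hXb hXη (fun r hr => by
      simpa [Real.dist_eq] using hησ (x := r) (by simpa [Real.dist_eq] using hr))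
      hC1 ((le_abs_self M).trans (le_add_of_nonneg_right zero_le_one)) ht htσ htρ x
    obtain ⟨ev0w, ev1w⟩ := hball hw
    set w : ℝ × Jet n := (t, (t • X x, X (x + t • X x) - X x,
      fderiv ℝ X (x + t • X x) - fderiv ℝ X x))
    have hz : ((x, X x, fderiv ℝ X x) : Jet n) ∈ K ×ˢ (Metric.closedBall (0 : E n) M ×ˢ
        Metric.closedBall (0 : E n →L[ℝ] E n) M) :=
      ⟨hxK, mem_closedBall_zero_iff.mpr (hXb x).1, mem_closedBall_zero_iff.mpr (hXb x).2⟩
    have hjac : jac G w (x, X x, fderiv ℝ X x) =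
        (1 + t • fderiv ℝ X x).det * dens G (x + t • X x) := rfl
    obtain ⟨hB0, hF0⟩ := ev0w _ hz
    rw [hjac] at hB0
    refine ⟨(mul_pos_iff_of_pos_right (hG.dens_pos _)).mp hB0, ?_⟩
    exact point_bound hG (w := w)
      (j := (x + t • X x, X (x + t • X x), fderiv ℝ X (x + t • X x)))
      (by simp [mv, w]) rfl hjac (hF0 t ⟨ht, htt.trans b₀⟩)
      (fun e he => (ev1w ((x, X x, fderiv ℝ X x), e) ⟨hz, mem_sphere_zero_iff_norm.mpr he⟩).2 t
        ⟨ht, htt.trans b₁⟩)
  · have hnt : x ∉ tsupport X := fun h => hxK (hXK h)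
    have hX0 : X x = 0 := image_eq_zero_of_notMem_tsupport hnt
    have hD0 : fderiv ℝ X x = 0 :=
      Function.notMem_support.mp fun h => hnt (support_fderiv_subset ℝ h)
    simp only [hD0, hX0, smul_zero, add_zero, det_one' hG, one_mul, zero_lt_one, true_and,
      ContinuousLinearMap.one_def, ContinuousLinearMap.comp_id]
    refine ⟨by simp [← ContinuousLinearMap.one_def, det_one' hG], ?_⟩
    simpa only [← ContinuousLinearMap.one_def, det_one' hG, one_mul] using outside hG hε.le ht.le x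

end Expansion

/-! ### Integrals -/

section Integrals

variable {G : Coeff n} (hG : IsMetric G)
include hG

lemma integral_vol (h : E n → ℝ) : ∫ x, h x ∂vol G = ∫ x, dens G x * h x := by
  rw [vol, integral_withDensity_eq_integral_toReal_smul
    hG.contDiff_dens.continuous.measurable.ennreal_ofReal (ae_of_all _ fun _ => ENNReal.ofReal_lt_top)]
  exact integral_congr_ae (ae_of_all _ fun x => by
    simp [ENNReal.toReal_ofReal (hG.dens_pos x).le])

lemma continuous_nrm_fderiv {f : E n → ℝ} (hf : ContDiff ℝ 1 f) :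
    Continuous fun x => nrm G x (fderiv ℝ f x) :=
  (continuous_nrm hG).comp (continuous_id.prodMk (hf.continuous_fderiv one_ne_zero))

lemma nrm_divTan (f : E n → ℝ) (X : E n → E n) (x : E n) :
    nrm G x (fderiv ℝ f x) * divTan G f X x = lin G (x, X x, fderiv ℝ X x) (fderiv ℝ f x) := by
  set v := shp G x (fderiv ℝ f x) with hv
  set N := nrm G x (fderiv ℝ f x) with hN
  have hn : normal G f x = (-N⁻¹) • v := by
    simp [normal, grad, hv, hN, nrm, shp]
  have hd : divg G X x = trc G (x, X x, fderiv ℝ X x) := rfl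
  rw [divTan, hn, hd, lin, ← hv, ← hN]
  simp only [covd, map_smul, chr_smul_left, ← smul_add, smul_apply,
    smul_eq_mul, map_add, add_apply]
  rcases eq_or_ne N 0 with h | h
  · simp [h]
  · field_simp

lemma integral_surf {f : E n → ℝ} (hf : ContDiff ℝ 1 f) (X : E n → E n) :
    ∫ x, divTan G f X x ∂surf G f =
      ∫ x, dens G x * lin G (x, X x, fderiv ℝ X x) (fderiv ℝ f x) := by
  rw [surf, integral_withDensity_eq_integral_toReal_smul, integral_vol hG]
  · refine integral_congr_ae (ae_of_all _ fun x => ?_)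
    simp only [smul_eq_mul, ← nrm_divTan hG]
    rw [ENNReal.toReal_ofReal (show 0 ≤ gnorm G x (grad G f x) from Real.sqrt_nonneg _)]
    rfl
  · exact (continuous_nrm_fderiv hG hf).measurable.ennreal_ofReal
  · exact ae_of_all _ fun _ => ENNReal.ofReal_lt_top

lemma integrable_tv {f : E n → ℝ} (hf : ContDiff ℝ 1 f) (hc : HasCompactSupport f) :
    Integrable fun x => dens G x * nrm G x (fderiv ℝ f x) := by
  refine (hG.contDiff_dens.continuous.mul (continuous_nrm_fderiv hG hf))
    |>.integrable_of_hasCompactSupport ?_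
  refine (hc.fderiv ℝ).mono' ?_
  intro x hx
  refine subset_tsupport _ ?_
  intro h
  exact hx (by simp [h, nrm, shp, gnorm])

lemma integrable_lin {f : E n → ℝ} (hf : ContDiff ℝ 1 f) (hc : HasCompactSupport f)
    {X : E n → E n} (hX : ContDiff ℝ 1 X) :
    Integrable fun x => dens G x * lin G (x, X x, fderiv ℝ X x) (fderiv ℝ f x) := by
  have hdf := hf.continuous_fderiv one_ne_zero
  have hj : Continuous fun x => ((x, X x, fderiv ℝ X x) : Jet n) :=
    continuous_id.prodMk (hX.continuous.prodMk (hX.continuous_fderiv one_ne_zero))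
  have hN := continuous_nrm_fderiv hG hf
  have hv : Continuous fun x => shp G x (fderiv ℝ f x) :=
    (contDiff_shp hG).continuous.comp (continuous_id.prodMk hdf)
  have hw : Continuous fun x => fderiv ℝ X x (shp G x (fderiv ℝ f x)) +
      chr G x (shp G x (fderiv ℝ f x)) (X x) :=
    ((hX.continuous_fderiv one_ne_zero).clm_apply hv).add
      (hG.contDiff_chr.continuous.comp (continuous_id.prodMk (hv.prodMk hX.continuous)))
  set B : E n → ℝ := fun x => dens G x * (nrm G x (fderiv ℝ f x) *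
    |trc G (x, X x, fderiv ℝ X x)| + gnorm G x (fderiv ℝ X x (shp G x (fderiv ℝ f x)) +
      chr G x (shp G x (fderiv ℝ f x)) (X x))) with hB
  have hBc : Continuous B := hG.contDiff_dens.continuous.mul
    ((hN.mul ((continuous_trc hG).comp hj).abs).add
      (Real.continuous_sqrt.comp ((hG.smooth.continuous.clm_apply hw).clm_apply hw)))
  have hBs : HasCompactSupport B := by
    refine (hc.fderiv ℝ).mono' fun x hx => subset_tsupport _ fun h => hx ?_
    have h0 : shp G x 0 = 0 := by simp [shp]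
    simp [hB, h, h0, nrm, gnorm, chr, koszul]
  refine (hBc.integrable_of_hasCompactSupport hBs).mono' ?_ (ae_of_all _ fun x => ?_)
  · have hm : Measurable fun x => lin G (x, X x, fderiv ℝ X x) (fderiv ℝ f x) :=
      (hN.mul ((continuous_trc hG).comp hj)).measurable.sub
        (((hG.smooth.continuous.clm_apply hw).clm_apply hv).measurable.div hN.measurable)
    exact (hG.contDiff_dens.continuous.measurable.mul hm).aestronglyMeasurable
  · rw [Real.norm_eq_abs, abs_mul, abs_of_pos (hG.dens_pos x)]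
    refine mul_le_mul_of_nonneg_left ?_ (hG.dens_pos x).le
    refine (abs_sub _ _).trans (add_le_add ?_ ?_)
    · rw [abs_mul, abs_of_nonneg (nrm_nonneg hG _ _)]
    · rw [abs_div, abs_of_nonneg (nrm_nonneg hG _ _)]
      exact div_le_of_le_mul₀ (nrm_nonneg hG _ _) (Real.sqrt_nonneg _) (hG.cauchy _ _ _)

end Integrals

/-! ### Change of variables -/

section Change

variable {X : E n → E n} {t M : ℝ} (hX : ContDiff ℝ 1 X)
include hX

lemma hasFDerivAt_move (x : E n) :
    HasFDerivAt (fun x => x + t • X x) (1 + t • fderiv ℝ X x) x :=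
  (hasFDerivAt_id x).add ((hX.differentiable one_ne_zero x).hasFDerivAt.const_smul t)

variable (hb : ∀ x, ‖X x‖ ≤ M ∧ ‖fderiv ℝ X x‖ ≤ M) (ht : 0 ≤ t) (htM : t * M < 1)
include hb ht htM

lemma bijective_move : Function.Bijective (fun x => x + t • X x) := by
  have hM : 0 ≤ M := (norm_nonneg _).trans (hb 0).1
  have hL : ∀ a b, ‖X a - X b‖ ≤ M * ‖a - b‖ := fun a b =>
    Convex.norm_image_sub_le_of_norm_fderiv_le (𝕜 := ℝ)
      (fun z _ => hX.differentiable one_ne_zero z) (fun z _ => (hb z).2) convex_univ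
      (mem_univ b) (mem_univ a)
  have hc : ∀ y, ContractingWith ⟨t * M, mul_nonneg ht hM⟩ fun x => y - t • X x := fun y => by
    refine ⟨htM, LipschitzWith.of_dist_le_mul fun a b => ?_⟩
    rw [dist_eq_norm, dist_eq_norm, sub_sub_sub_cancel_left, ← smul_sub, norm_smul,
      Real.norm_eq_abs, abs_of_nonneg ht, norm_sub_rev a b]
    show t * ‖X b - X a‖ ≤ t * M * ‖b - a‖
    rw [mul_assoc]
    exact mul_le_mul_of_nonneg_left (hL b a) ht
  refine ⟨fun a b h => ?_, fun y => ?_⟩
  · exact (hc (a + t • X a)).fixedPoint_unique' (x := a) (y := b)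
      (show _ = a by simp) (show _ = b by simp only at h; rw [h]; simp)
  · refine ⟨(hc y).fixedPoint, ?_⟩
    have := (hc y).fixedPoint_isFixedPt
    exact eq_sub_iff_add_eq.mp (this.eq.symm)

lemma integrable_move {g : E n → ℝ} (hg : Integrable g) :
    Integrable fun x => |(1 + t • fderiv ℝ X x).det| * g (x + t • X x) := by
  have h := integrableOn_image_iff_integrableOn_abs_det_fderiv_smul volume MeasurableSet.univ
    (fun x _ => (hasFDerivAt_move (t := t) hX x).hasFDerivWithinAt)
    (bijective_move hX hb ht htM).injective.injOn g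
  rw [image_univ, (bijective_move hX hb ht htM).surjective.range_eq] at h
  simpa using h.mp hg.integrableOn

lemma integral_move (g : E n → ℝ) :
    ∫ y, g y = ∫ x, |(1 + t • fderiv ℝ X x).det| * g (x + t • X x) := by
  have h := integral_image_eq_integral_abs_det_fderiv_smul volume MeasurableSet.univ
    (fun x _ => (hasFDerivAt_move (t := t) hX x).hasFDerivWithinAt)
    (bijective_move hX hb ht htM).injective.injOn g
  rw [image_univ, (bijective_move hX hb ht htM).surjective.range_eq] at h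
  simpa using h

lemma compact_move {α : Type*} [Zero α] {g : E n → α} (hg : HasCompactSupport g) :
    HasCompactSupport fun x => g (x + t • X x) := by
  obtain ⟨R, hR⟩ := hg.isBounded.exists_norm_le
  refine HasCompactSupport.intro (isCompact_closedBall (0 : E n) (R + 1)) fun x hx => ?_
  refine image_eq_zero_of_notMem_tsupport fun h => hx ?_
  rw [mem_closedBall_zero_iff]
  have h1 := hR _ h
  have h2 : ‖t • X x‖ ≤ 1 := by
    rw [norm_smul, Real.norm_eq_abs, abs_of_nonneg ht]
    exact (mul_le_mul_of_nonneg_left (hb x).1 ht).trans htM.le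
  calc ‖x‖ = ‖(x + t • X x) - t • X x‖ := by simp
    _ ≤ R + 1 := (norm_sub_le _ _).trans (add_le_add h1 h2)

/-- Pointwise bounds in the source give bounds of integrals in the target. -/
lemma integral_bound {a b c : E n → ℝ} {H : E n → ℝ} (hH : Integrable H) (ha : Integrable a)
    (hb' : Integrable b) (hc : Integrable c) {ε : ℝ}
    (h : ∀ x, |H x - |(1 + t • fderiv ℝ X x).det| * a (x + t • X x) +
        t * (|(1 + t • fderiv ℝ X x).det| * b (x + t • X x))| ≤
      ε * t * (|(1 + t • fderiv ℝ X x).det| * c (x + t • X x))) :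
    |(∫ x, H x) - (∫ x, a x) + t * ∫ x, b x| ≤ ε * t * ∫ x, c x := by
  have ia := integrable_move hX hb ht htM ha
  have ib := integrable_move hX hb ht htM hb'
  have ic := integrable_move hX hb ht htM hc
  rw [integral_move hX hb ht htM a, integral_move hX hb ht htM b, integral_move hX hb ht htM c,
    ← integral_const_mul t, ← integral_sub hH ia, ← integral_const_mul (ε * t)]
  have := integral_add (hH.sub ia) (ib.const_mul t)
  simp only [Pi.sub_apply] at this
  rw [← this]
  refine abs_integral_le_integral_abs.trans ?_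
  exact integral_mono (((hH.sub ia).add (ib.const_mul t)).abs) (ic.const_mul _) h

end Change

theorem variation (n : ℕ) : VariationStmt n := by
  intro G hG K hK M η hη ε hε
  obtain ⟨t₀, ht₀, htC, hp⟩ := pointwise hG hK (M := M) hη hε
  refine ⟨t₀, ht₀, fun t ht htt X hX f hf hfc => ?_⟩
  obtain ⟨hXc, _, hb, _⟩ := id hX
  have htM : t * M < 1 := by
    have h1 : t * M ≤ t * (|M| + 1) :=
      mul_le_mul_of_nonneg_left (by linarith [le_abs_self M]) ht.le
    have h2 : t * (|M| + 1) ≤ t₀ * (|M| + 1) :=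
      mul_le_mul_of_nonneg_right htt (by positivity)
    linarith
  have hψ : ContDiff ℝ 1 fun x => x + t • X x := contDiff_id.add (hXc.const_smul t)
  have hfψ : ContDiff ℝ 1 fun x => f (x + t • X x) := hf.comp hψ
  have hfψc : HasCompactSupport fun x => f (x + t • X x) :=
    compact_move hXc hb ht.le htM hfc
  have habs : ∀ x, |(1 + t • fderiv ℝ X x).det| = (1 + t • fderiv ℝ X x).det := fun x =>
    abs_of_pos (hp t ht htt X hX x).1
  refine ⟨?_, fun P hPc hP0 => ?_⟩
  · have e1 : ∀ g : E n → ℝ, tvar G g = ∫ x, dens G x * nrm G x (fderiv ℝ g x) := fun g =>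
      integral_vol hG _
    rw [e1, e1, integral_surf hG hf]
    refine integral_bound hXc hb ht.le htM (integrable_tv hG hfψ hfψc) (integrable_tv hG hf hfc)
      (integrable_lin hG hf hfc hXc) (integrable_tv hG hf hfc) fun x => ?_
    have hd : fderiv ℝ (fun x => f (x + t • X x)) x =
        (fderiv ℝ f (x + t • X x)).comp (1 + t • fderiv ℝ X x) :=
      ((hf.differentiable one_ne_zero _).hasFDerivAt.comp x (hasFDerivAt_move hXc x)).fderiv
    simp only [habs, hd]
    exact (hp t ht htt X hX x).2.2 _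
  · have cP : ∀ {g : E n → ℝ}, Continuous g → HasCompactSupport g →
        ∀ {h : E n → ℝ}, Continuous h → Integrable fun x => h x * P (g x) := fun hg hgc _ hh =>
      (hh.mul (hPc.comp hg)).integrable_of_hasCompactSupport
        ((hgc.comp_left hP0).mul_left)
    have hd := hG.contDiff_dens.continuous
    have hj : Continuous fun x => trc G (x, X x, fderiv ℝ X x) :=
      (continuous_trc hG).comp (continuous_id.prodMk
        (hXc.continuous.prodMk (hXc.continuous_fderiv one_ne_zero)))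
    rw [integral_vol hG, integral_vol hG, integral_vol hG, integral_vol hG]
    refine integral_bound hXc hb ht.le htM (cP hfψ.continuous hfψc hd)
      (cP hf.continuous hfc hd) ?_ ?_ fun x => ?_
    · refine (cP hf.continuous hfc (hd.mul hj)).congr (ae_of_all _ fun x => ?_)
      show dens G x * trc G (x, X x, fderiv ℝ X x) * P (f x) = _
      show _ = dens G x * (P (f x) * trc G (x, X x, fderiv ℝ X x))
      ring
    · refine (cP hf.continuous hfc hd).abs.congr (ae_of_all _ fun x => ?_)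
      show |dens G x * P (f x)| = dens G x * |P (f x)|
      rw [abs_mul, abs_of_pos (hG.dens_pos x)]
    · have h := mul_le_mul_of_nonneg_left (hp t ht htt X hX x).2.1
        (abs_nonneg (P (f (x + t • X x))))
      rw [← abs_mul] at h
      simp only [habs]
      calc _ = |P (f (x + t • X x)) * (dens G x - (1 + t • fderiv ℝ X x).det * dens G (x + t • X x) +
            t * ((1 + t • fderiv ℝ X x).det * (dens G (x + t • X x) *
              trc G (x + t • X x, X (x + t • X x), fderiv ℝ X (x + t • X x)))))| := by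
            show |dens G x * P (f (x + t • X x)) - (1 + t • fderiv ℝ X x).det *
              (dens G (x + t • X x) * P (f (x + t • X x))) + t * ((1 + t • fderiv ℝ X x).det *
              (dens G (x + t • X x) * (P (f (x + t • X x)) * trc G (x + t • X x,
                X (x + t • X x), fderiv ℝ X (x + t • X x)))))| = _
            congr 1
            ring
        _ ≤ _ := h.trans_eq (by ring)

end

end Vale.Agent.P219.CH.Core.Variation

namespace Vale.Agent.P219.CH.Core

/-- The first variation, in every dimension. -/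
theorem variationStmt (n : ℕ) : VariationStmt n := Variation.variation n

end Vale.Agent.P219.CH.Core
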